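import Vale.Agent.P195.Spec

/-!
All spaces of morphisms are finite-dimensional.
-/

namespace Vale.Agent.P195

open Polynomial Matrix

noncomputable section

namespace BlocksAux

theorem PX_finite (A B J : ℕ) : Module.Finite ℂ (PX A B J) := by
  let co : PX A B J →ₗ[ℂ] (Fin (B + 1) → Fin (A + 1) → Fin (J + 1) → ℂ) :=
    { toFun := fun G b a j => ((G.1.coeff b).coeff a).coeff j
      map_add' := fun G G' => by funext b a j; simp
      map_smul' := fun c G => by funext b a j; simp }
  refine Module.Finite.of_injective co fun G G' h => Subtype.ext ?_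
  refine Polynomial.ext fun b => Polynomial.ext fun a => Polynomial.ext fun j => ?_
  rcases Nat.lt_or_ge B b with hb | hb
  · rw [G.2 b a j (Or.inl hb), G'.2 b a j (Or.inl hb)]
  rcases Nat.lt_or_ge A a with ha | ha
  · rw [G.2 b a j (Or.inr (Or.inl ha)), G'.2 b a j (Or.inr (Or.inl ha))]
  rcases Nat.lt_or_ge J j with hj | hj
  · rw [G.2 b a j (Or.inr (Or.inr hj)), G'.2 b a j (Or.inr (Or.inr hj))]
  exact congrFun (congrFun (congrFun h ⟨b, by omega⟩) ⟨a, by omega⟩) ⟨j, by omega⟩

theorem W0_finite (d e n : ℕ) : Module.Finite ℂ (W0 d e n) := by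
  let co : W0 d e n →ₗ[ℂ] (Fin (d + 1) → Fin n → ℂ) × (Fin d → Fin (n + 1) → ℂ) :=
    { toFun := fun w => (fun i j => (w.1.fst.coeff i).coeff j, fun i j => (w.1.snd.coeff i).coeff j)
      map_add' := fun G G' => by refine Prod.ext ?_ ?_ <;> funext i j <;> simp
      map_smul' := fun c G => by refine Prod.ext ?_ ?_ <;> funext i j <;> simp }
  refine Module.Finite.of_injective co fun G G' h => Subtype.ext ?_
  refine TrivSqZeroExt.ext (Polynomial.ext fun i => Polynomial.ext fun j => ?_)
    (Polynomial.ext fun i => Polynomial.ext fun j => ?_)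
  · rcases Nat.lt_or_ge d i with hi | hi
    · rw [G.2.1 i j (Or.inl hi), G'.2.1 i j (Or.inl hi)]
    rcases Nat.lt_or_ge j n with hj | hj
    · exact congrFun (congrFun (congrArg Prod.fst h) ⟨i, by omega⟩) ⟨j, hj⟩
    · rw [G.2.1 i j (Or.inr hj), G'.2.1 i j (Or.inr hj)]
  · rcases Nat.lt_or_ge i d with hi | hi
    · rcases Nat.lt_or_ge n j with hj | hj
      · rw [G.2.2.1 i j (Or.inr hj), G'.2.2.1 i j (Or.inr hj)]
      · exact congrFun (congrFun (congrArg Prod.snd h) ⟨i, hi⟩) ⟨j, by omega⟩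
    · rw [G.2.2.1 i j (Or.inl hi), G'.2.2.1 i j (Or.inl hi)]

theorem WW_finite (d e n : ℕ) : Module.Finite ℂ (WW d e n) := by
  have := W0_finite d e n
  let co : W0 d e n × W0 d e n →ₗ[ℂ] WW d e n :=
    { toFun := fun p => ⟨TrivSqZeroExt.inl p.1.1 + TrivSqZeroExt.inr p.2.1,
        ⟨by simp [p.1.2], by simp [p.2.2]⟩⟩
      map_add' := fun x y => Subtype.ext (TrivSqZeroExt.ext (by simp) (by simp))
      map_smul' := fun c x => Subtype.ext (TrivSqZeroExt.ext (by simp) (by simp)) }
  exact Module.Finite.of_surjective co fun w => ⟨(⟨w.1.fst, w.2.1⟩, ⟨w.1.snd, w.2.2⟩),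
    Subtype.ext (TrivSqZeroExt.ext (by simp [co]) (by simp [co]))⟩

theorem H_fg : ∀ u w : Vtx 3, (H u w).FG
  | (Tau.X a b v', i), (Tau.X a' b' v, j) => by
    show (if a ≤ a' ∧ b ≤ b' ∧ i ≤ j then _ else (⊥ : Submodule ℂ Mat)).FG
    by_cases h : a ≤ a' ∧ b ≤ b' ∧ i ≤ j
    · rw [if_pos h]
      exact (Module.Finite.iff_fg.1 (PX_finite _ _ _)).map _
    · rw [if_neg h]
      exact Submodule.fg_bot
  | (Tau.Z v', i), (Tau.Z v, j) => by
    show (if i ≤ j then _ else (⊥ : Submodule ℂ Mat)).FG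
    by_cases h : i ≤ j
    · rw [if_pos h]
      exact (Module.Finite.iff_fg.1 (PX_finite _ _ _)).map _
    · rw [if_neg h]
      exact Submodule.fg_bot
  | (Tau.Z v', i), (Tau.X a b v, j) => (Module.Finite.iff_fg.1 (WW_finite _ _ _)).map _
  | (Tau.X _ _ _, _), (Tau.Z _, _) => Submodule.fg_bot

theorem H_finite (u w : Vtx 3) : Module.Finite ℂ (H u w) := Module.Finite.iff_fg.2 (H_fg u w)

theorem blk_finite (f g : Vtx 2 → Vtx 3) : Module.Finite ℂ (Blk f g) := by
  have := fun u w => H_finite (f u) (g w)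
  let co : Blk f g →ₗ[ℂ] ∀ u w, H (f u) (g w) :=
    { toFun := fun m u w => ⟨m.val u w, m.mem u w⟩
      map_add' := fun _ _ => rfl
      map_smul' := fun _ _ => rfl }
  exact Module.Finite.of_injective co fun m n h => Blk.ext
    (Matrix.ext fun u w => congrArg Subtype.val (congrFun (congrFun h u) w))

theorem cor_finite (f : Vtx 2 → Vtx 3) : Module.Finite ℂ (Cor f) := by
  have := fun u w => H_finite (f u) (f w)
  let co : Cor f →ₗ[ℂ] ∀ u w, H (f u) (f w) :=
    { toFun := fun m u w => ⟨m.val u w, m.mem u w⟩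
      map_add' := fun _ _ => rfl
      map_smul' := fun _ _ => rfl }
  exact Module.Finite.of_injective co fun m n h => Cor.ext
    (Matrix.ext fun u w => congrArg Subtype.val (congrFun (congrFun h u) w))

theorem gf_finite (c : ℂ) : Module.Finite ℂ (Gf c) := by
  have := fun (u : Vtx 2) (v : Fin 2) => H_finite (iota0 (u.1, 0)) (topV v)
  let N : (∀ (u : Vtx 2) (v : Fin 2), H (iota0 (u.1, 0)) (topV v)) → ColMat :=
    fun m => Matrix.of fun u v => (m u v : Mat)
  let q : (∀ (u : Vtx 2) (v : Fin 2), H (iota0 (u.1, 0)) (topV v)) →ₗ[ℂ] Gf c :=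
    { toFun := fun m => Gf.mk ((N m).map (substM (C c))) fun u v => ⟨m u v, (m u v).2, rfl⟩
      map_add' := fun m m' => Gf.ext (Matrix.ext fun u v => map_add (substM (C c)) _ _)
      map_smul' := fun r m => Gf.ext (by
        show (N (r • m)).map (substM (C c)) =
          (algebraMap ℂ AP r).val.map (substM (C c)) * (N m).map (substM (C c))
        rw [← Matrix.map_mul, Algebra.algebraMap_eq_smul_one, Cor.val_smul, Cor.val_one,
          Matrix.smul_mul, Matrix.one_mul]
        rfl) }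
  refine Module.Finite.of_surjective q fun M => ?_
  choose m hm hm' using M.mem
  exact ⟨fun u v => ⟨m u v, hm u v⟩, Gf.ext (Matrix.ext fun u v => hm' u v)⟩

end BlocksAux

open BlocksAux in
/-- FINITENESS -/
theorem specFinite : SpecFinite := by
  have := fun i => gf_finite (cpt i)
  exact ⟨cor_finite iota0, cor_finite px, blk_finite iota0 px, blk_finite iota0 py,
    inferInstanceAs (Module.Finite ℂ (∀ i : Fin 3, Gf (cpt i)))⟩

end

end Vale.Agent.P195
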