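import Vale.Agent.P195.BlocksEntry
import Vale.Agent.P195.BlocksFinite

/-!
`SpecBlocks`: right pencils are injective on columns and their cokernels have spectrum `{p}`.
-/

namespace Vale.Agent.P195

open Matrix MulOpposite

noncomputable section

namespace BlocksAux

theorem shift_pair {f : Vtx 2 → Vtx 3} (hf : IsShift f) (τ : Tau 2) (i : Fin 2) :
    f (τ, i) = ((f (τ, 0)).1, i) := by
  rcases hf with rfl | rfl | rfl <;> rfl

theorem pen_val {f : Vtx 2 → Vtx 3} (hf : IsShift f) (τ : Tau 2) (p : ℂ) :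
    ((sys f hf).pen τ p).val = Matrix.single (τ, (0 : Fin 2)) (τ, (1 : Fin 2)) (pM p) := by
  show Matrix.single _ _ (dg zP) - p • Matrix.single _ _ (1 : Mat) = _
  refine Matrix.ext fun u w => ?_
  rw [Matrix.sub_apply, Matrix.smul_apply, Matrix.single_apply, Matrix.single_apply,
    Matrix.single_apply]
  split_ifs
  · rfl
  · rw [smul_zero, sub_zero]

/-- a matrix unit in a bimodule -/
def blkUnit {f g : Vtx 2 → Vtx 3} (u t : Vtx 2) (x : Mat) (h : x ∈ H (f u) (g t)) : Blk f g :=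
  Blk.mk (Matrix.single u t x) fun u' t' => by
    rw [Matrix.single_apply]
    split_ifs with h'
    · rwa [← h'.1, ← h'.2]
    · exact Submodule.zero_mem _

theorem blkUnit_val {f g : Vtx 2 → Vtx 3} (u t : Vtx 2) (x : Mat) (h : x ∈ H (f u) (g t)) :
    (blkUnit u t x h).val = Matrix.single u t x := rfl

theorem colB_val {f g : Vtx 2 → Vtx 3} {w : Vtx 2} {m : Blk f g} :
    m ∈ colB f g w ↔ m.val * Matrix.single w w (1 : Mat) = m.val :=
  ⟨fun h => congrArg Blk.val h, fun h => Blk.ext h⟩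

theorem single_one_mul_single (u t : Vtx 2) (x : Mat) :
    Matrix.single u t x * Matrix.single t t (1 : Mat) = Matrix.single u t x := by
  rw [Matrix.single_mul_single_same, mul_one]

/-- the element of a column with one entry -/
def colUnit {f g : Vtx 2 → Vtx 3} (u t : Vtx 2) (x : Mat) (h : x ∈ H (f u) (g t)) :
    colB f g t :=
  ⟨blkUnit u t x h, colB_val.2 (single_one_mul_single u t x)⟩

theorem colB_apply {f g : Vtx 2 → Vtx 3} {w : Vtx 2} (m : colB f g w) (u t : Vtx 2) (ht : t ≠ w) :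
    m.1.val u t = 0 := by
  rw [← colB_val.1 m.2, Matrix.mul_single_apply_of_ne _ _ _ _ _ ht]

theorem idem_smul_col {f g : Vtx 2 → Vtx 3} {w : Vtx 2} (u : Vtx 2) (m : colB f g w) :
    (idem f u • m).1.val = Matrix.single u w (m.1.val u w) := by
  show Matrix.single u u (1 : Mat) * m.1.val = _
  conv_lhs => rw [← colB_val.1 m.2, ← Matrix.mul_assoc]
  rw [Matrix.single_mul_mul_single, one_mul, mul_one]

theorem rpen_val {f g : Vtx 2 → Vtx 3} (hg : IsShift g) (τ : Tau 2) (p : ℂ)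
    (m : colB f g (τ, 0)) :
    (rpen f g hg τ p m).1.val = m.1.val * Matrix.single (τ, (0 : Fin 2)) (τ, (1 : Fin 2)) (pM p) :=
  (congrArg (m.1.val * ·) (pen_val hg τ p) : m.1.val * ((sys g hg).pen τ p).val = _)

theorem rpen_injective {f g : Vtx 2 → Vtx 3} (hg : IsShift g) (τ : Tau 2) (p : ℂ) :
    Function.Injective (rpen f g hg τ p) := by
  refine (injective_iff_map_eq_zero (rpen f g hg τ p)).2 fun m hm => Subtype.ext (Blk.ext ?_)
  have h := congrArg (fun x : colB f g (τ, 1) => x.1.val) hm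
  simp only [rpen_val] at h
  refine Matrix.ext fun u t => ?_
  by_cases ht : t = (τ, 0)
  · subst ht
    have h' := congrFun (congrFun h u) (τ, 1)
    rw [Matrix.mul_single_apply_same] at h'
    exact pM_right_regular p h'
  · exact colB_apply m u t ht

/-- the cokernel -/
abbrev cokB (f g : Vtx 2 → Vtx 3) (hg : IsShift g) (τ : Tau 2) (p : ℂ) : ModuleCat.{0} (Cor f) :=
  ModuleCat.of (Cor f) (colB f g (τ, 1) ⧸ LinearMap.range (rpen f g hg τ p))

theorem cokB_finite (f g : Vtx 2 → Vtx 3) (hg : IsShift g) (τ : Tau 2) (p : ℂ) :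
    Module.Finite (Cor f) (colB f g (τ, 1) ⧸ LinearMap.range (rpen f g hg τ p)) := by
  have := blk_finite f g
  have : Module.Finite (Cor f) (Blk f g) := Module.Finite.of_restrictScalars_finite ℂ (Cor f) _
  let π : Blk f g →ₗ[Cor f] colB f g (τ, 1) :=
    { toFun := fun m => ⟨op (idem g (τ, 1)) • m, by
        rw [mem_colB, ← mul_smul, ← MulOpposite.op_mul, idem_mul_self]⟩
      map_add' := fun m n => Subtype.ext (smul_add _ m n)
      map_smul' := fun a m => Subtype.ext (smul_comm a (op (idem g (τ, 1))) m).symm }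
  have : Module.Finite (Cor f) (colB f g (τ, 1)) :=
    Module.Finite.of_surjective π fun m => ⟨m.1, Subtype.ext m.2⟩
  infer_instance

theorem col_smul_val {f g : Vtx 2 → Vtx 3} {w : Vtx 2} (a : Cor f) (m : colB f g w) :
    (a • m).1.val = a.val * m.1.val := rfl

theorem blockOK_vtx {f g : Vtx 2 → Vtx 3} (hf : IsShift f) (hg : IsShift g) (τ τ' : Tau 2)
    (i j : Fin 2) :
    H ((f (τ', 0)).1, i) ((g (τ, 0)).1, j) = H (f (τ', i)) (g (τ, j)) := by
  rw [shift_pair hf τ' i, shift_pair hg τ j]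

/-- injectivity, before passing to the quotient -/
theorem col_inj {f g : Vtx 2 → Vtx 3} (hf : IsShift f) (hg : IsShift g) (τ τ' : Tau 2) (p : ℂ)
    {L : Mat} (a : Cor f) (ha : a.val = Matrix.single (τ', (0 : Fin 2)) (τ', (1 : Fin 2)) L)
    (hL : BlockOK (f (τ', 0)).1 (g (τ, 0)).1 p L) (m : colB f g (τ, 1)) (z : colB f g (τ, 0))
    (hz : rpen f g hg τ p z = a • idem f (τ', 1) • m) :
    idem f (τ', 1) • m ∈ LinearMap.range (rpen f g hg τ p) := by
  obtain ⟨hinj, -⟩ := hL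
  have hz' := congrArg (fun M : BigMat => M (τ', (0 : Fin 2)) (τ, (1 : Fin 2)))
    (congrArg (fun x : colB f g (τ, 1) => x.1.val) hz)
  simp only [rpen_val, col_smul_val a, idem_smul_col, ha,
    Matrix.single_apply_same, Matrix.mul_single_apply_same] at hz'
  have h11 : m.1.val (τ', 1) (τ, 1) ∈ H ((f (τ', 0)).1, 1) ((g (τ, 0)).1, 1) := by
    rw [blockOK_vtx hf hg]; exact m.1.mem _ _
  have h00 : z.1.val (τ', 0) (τ, 0) ∈ H ((f (τ', 0)).1, 0) ((g (τ, 0)).1, 0) := by
    rw [blockOK_vtx hf hg]; exact z.1.mem _ _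
  obtain ⟨w, hw, hmw⟩ := hinj _ h11 _ h00 hz'.symm
  rw [blockOK_vtx hf hg] at hw
  refine ⟨colUnit (τ', 1) (τ, 0) w hw, Subtype.ext (Blk.ext ?_)⟩
  rw [rpen_val, idem_smul_col, hmw]
  exact Matrix.single_mul_single_same ..

/-- surjectivity, before passing to the quotient -/
theorem col_surj {f g : Vtx 2 → Vtx 3} (hf : IsShift f) (hg : IsShift g) (τ τ' : Tau 2) (p : ℂ)
    {L : Mat} (a : Cor f) (ha : a.val = Matrix.single (τ', (0 : Fin 2)) (τ', (1 : Fin 2)) L)
    (hL : BlockOK (f (τ', 0)).1 (g (τ, 0)).1 p L) (m : colB f g (τ, 1)) :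
    ∃ y : colB f g (τ, 1), idem f (τ', 1) • y = y ∧
      a • y - idem f (τ', 0) • m ∈ LinearMap.range (rpen f g hg τ p) := by
  obtain ⟨-, hsurj⟩ := hL
  have h01 : m.1.val (τ', 0) (τ, 1) ∈ H ((f (τ', 0)).1, 0) ((g (τ, 0)).1, 1) := by
    rw [blockOK_vtx hf hg]; exact m.1.mem _ _
  obtain ⟨y, hy, z, hz, hxy⟩ := hsurj _ h01
  rw [blockOK_vtx hf hg] at hy hz
  have ey : (colUnit (τ', 1) (τ, 1) y hy).1.val = Matrix.single (τ', 1) (τ, 1) y := rfl
  refine ⟨colUnit (τ', 1) (τ, 1) y hy, Subtype.ext (Blk.ext ?_),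
    ⟨colUnit (τ', 0) (τ, 0) (-z) (Submodule.neg_mem _ hz), Subtype.ext (Blk.ext ?_)⟩⟩
  · rw [idem_smul_col, ey, Matrix.single_apply_same]
  · rw [rpen_val]
    show Matrix.single _ _ (-z) * _ =
      (a • colUnit (τ', 1) (τ, 1) y hy).1.val - (idem f (τ', 0) • m).1.val
    rw [idem_smul_col, col_smul_val, ey, ha, Matrix.single_mul_single_same,
      Matrix.single_mul_single_same, hxy]
    refine Matrix.ext fun u w => ?_
    simp only [Matrix.sub_apply, Matrix.single_apply]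
    split_ifs <;> simp [neg_mul]

theorem bij_coker {f g : Vtx 2 → Vtx 3} (hf : IsShift f) (hg : IsShift g) (τ τ' : Tau 2) (p : ℂ)
    {L : Mat} (a : Cor f) (ha : a.val = Matrix.single (τ', (0 : Fin 2)) (τ', (1 : Fin 2)) L)
    (hL : BlockOK (f (τ', 0)).1 (g (τ, 0)).1 p L) :
    BijOnComp (idem f (τ', 0)) (idem f (τ', 1)) a (cokB f g hg τ p) := by
  refine ⟨fun y hy hay => ?_, fun x hx => ?_⟩
  · obtain ⟨m, rfl⟩ := Submodule.Quotient.mk_surjective _ y
    rw [← hy, ← Submodule.Quotient.mk_smul] at hay ⊢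
    rw [← Submodule.Quotient.mk_smul, Submodule.Quotient.mk_eq_zero] at hay
    obtain ⟨z, hz⟩ := hay
    exact (Submodule.Quotient.mk_eq_zero _).2 (col_inj hf hg τ τ' p a ha hL m z hz)
  · obtain ⟨m, rfl⟩ := Submodule.Quotient.mk_surjective _ x
    obtain ⟨y, hy, hxy⟩ := col_surj hf hg τ τ' p a ha hL m
    refine ⟨Submodule.Quotient.mk y, ?_, ?_⟩
    · rw [← Submodule.Quotient.mk_smul, hy]
    · rw [← hx, ← Submodule.Quotient.mk_smul, ← Submodule.Quotient.mk_smul]
      exact (Submodule.Quotient.eq _).2 hxy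

end BlocksAux

open BlocksAux in
/-- BLOCKS -/
theorem specBlocks : SpecBlocks := by
  intro f g hf hg τ p
  refine ⟨rpen_injective hg τ p, cokB_finite f g hg τ p, fun τ' => ?_, fun τ' q hq => ?_⟩
  · exact bij_coker hf hg τ τ' p _ rfl (blockOK_all _ _ p p).1
  · exact bij_coker hf hg τ τ' p _ (pen_val hf τ' q)
      ((blockOK_all _ _ p q).2 fun h => hq (Set.mem_singleton_iff.2 h))

end

end Vale.Agent.P195
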