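import Vale.Agent.P195.EV

/-!
Computing the vanishing of `Ext` from a resolution whose terms have vanishing `Ext` in degrees
at least two (helper file for P195).
-/

namespace Vale.Agent.P195

open CategoryTheory Abelian

variable {A : Type} [Ring A]

/-- `range f → Y → coker`, as a short exact sequence, for an exact pair -/
theorem shortExact_range {X Y Z : ModuleCat.{0} A} (d : X →ₗ[A] Y) (g : Y →ₗ[A] Z)
    (hg : Function.Surjective g) (h : Function.Exact d g) :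
    (ShortComplex.mk (ModuleCat.ofHom (X := LinearMap.range d) (Y := Y) (LinearMap.range d).subtype)
      (ModuleCat.ofHom g)
      (ModuleCat.hom_ext (LinearMap.ext fun x => by
        obtain ⟨y, hy⟩ := x.2
        exact (h x.1).2 ⟨y, hy⟩))).ShortExact :=
  shortExact_mk (X := ModuleCat.of A (LinearMap.range d)) (LinearMap.range d).subtype g
    Subtype.val_injective hg (fun y => (h y).trans ⟨fun ⟨x, hx⟩ => ⟨⟨y, x, hx⟩, rfl⟩,
      fun ⟨⟨z, x, hx⟩, hz⟩ => ⟨x, hx.trans hz⟩⟩)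

theorem exact_rangeRestrict {X Y Z : ModuleCat.{0} A} (e : X →ₗ[A] Y) (d : Y →ₗ[A] Z)
    (h : Function.Exact e d) : Function.Exact e d.rangeRestrict := by
  intro y
  rw [← h y]
  exact ⟨fun hy => congrArg Subtype.val hy, fun hy => Subtype.ext hy⟩

/-- `Ext^1` from a resolution -/
theorem ev_one_of_res (T : ℕ → ModuleCat.{0} A) (d : ∀ n, T (n + 1) →ₗ[A] T n)
    (X Y : ModuleCat.{0} A) (aug : T 0 →ₗ[A] X) (ha : Function.Surjective aug)
    (h0 : Function.Exact (d 0) aug) (hex : ∀ n, Function.Exact (d (n + 1)) (d n))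
    (hT : EV 1 (T 0) Y)
    (hhom : ∀ f : T 1 →ₗ[A] Y, f ∘ₗ d 1 = 0 → ∃ g : T 0 →ₗ[A] Y, g ∘ₗ d 0 = f) :
    EV 1 X Y := by
  refine ev_one_of_extend (shortExact_range (d 0) aug ha h0) Y hT fun f => ?_
  obtain ⟨g, hg⟩ := hhom (f ∘ₗ (d 0).rangeRestrict) (LinearMap.ext fun x => by
    have : (d 0).rangeRestrict (d 1 x) = 0 := Subtype.ext ((hex 0 _).2 ⟨x, rfl⟩)
    simp [this])
  refine ⟨g, LinearMap.ext fun y => ?_⟩
  obtain ⟨x, hx⟩ := y.2
  have : y = (d 0).rangeRestrict x := Subtype.ext hx.symm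
  subst this
  exact LinearMap.congr_fun hg x

/-- Ext in degree two, from a resolution -/
theorem ev_two_of_res (T : ℕ → ModuleCat.{0} A) (d : ∀ n, T (n + 1) →ₗ[A] T n)
    (X Y : ModuleCat.{0} A) (aug : T 0 →ₗ[A] X) (ha : Function.Surjective aug)
    (h0 : Function.Exact (d 0) aug) (hex : ∀ n, Function.Exact (d (n + 1)) (d n))
    (hT : EV 2 (T 0) Y)
    (hext : ∀ x : Ext (T 1) Y 1, (Ext.mk₀ (ModuleCat.ofHom (d 1))).comp x (zero_add 1) = 0 →
      ∃ z : Ext (T 0) Y 1, (Ext.mk₀ (ModuleCat.ofHom (d 0))).comp z (zero_add 1) = x)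
    (hhom : ∀ f : T 2 →ₗ[A] Y, f ∘ₗ d 2 = 0 → ∃ g : T 1 →ₗ[A] Y, g ∘ₗ d 1 = f) :
    EV 2 X Y := by
  have hS := shortExact_range (d 0) aug ha h0
  have hS' := shortExact_range (Z := ModuleCat.of A (LinearMap.range (d 0))) (d 1)
    (d 0).rangeRestrict (d 0).surjective_rangeRestrict (exact_rangeRestrict _ _ (hex 0))
  refine EV.of_forall fun x => ?_
  obtain ⟨y, rfl⟩ := Ext.contravariant_sequence_exact₃ hS Y x (hT.eq_zero _)
    (by omega : 1 + 1 = 2)
  set π : T 1 ⟶ ModuleCat.of A (LinearMap.range (d 0)) := ModuleCat.ofHom (d 0).rangeRestrict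
  set ι : ModuleCat.of A (LinearMap.range (d 0)) ⟶ T 0 :=
    ModuleCat.ofHom (LinearMap.range (d 0)).subtype
  have hπι : π ≫ ι = ModuleCat.ofHom (d 0) := rfl
  have hdπ : ModuleCat.ofHom (d 1) ≫ π = 0 := ModuleCat.hom_ext (LinearMap.ext fun z =>
    Subtype.ext ((hex 0 _).2 ⟨z, rfl⟩))
  obtain ⟨z, hz⟩ := hext ((Ext.mk₀ π).comp y (zero_add 1)) (by
    rw [Ext.mk₀_comp_mk₀_assoc, hdπ, Ext.mk₀_zero, Ext.zero_comp])
  set y' := y - (Ext.mk₀ ι).comp z (zero_add 1) with hy'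
  have hδ : hS.extClass.comp y (by omega : 1 + 1 = 2) = hS.extClass.comp y' (by omega) := by
    rw [hy', sub_eq_add_neg, Ext.comp_add, Ext.comp_neg]
    have : hS.extClass.comp ((Ext.mk₀ ι).comp z (zero_add 1)) (by omega : 1 + 1 = 2) = 0 :=
      ShortComplex.ShortExact.extClass_comp_assoc hS z
    rw [this, neg_zero, add_zero]
  have hy0 : (Ext.mk₀ π).comp y' (zero_add 1) = 0 := by
    rw [hy', sub_eq_add_neg, Ext.comp_add, Ext.comp_neg, Ext.mk₀_comp_mk₀_assoc, hπι, hz,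
      add_neg_cancel]
  obtain ⟨f₀, hf⟩ := Ext.contravariant_sequence_exact₃ hS' Y y' hy0 (by omega : 1 + 0 = 1)
  obtain ⟨f, rfl⟩ := Ext.addEquiv₀.symm.surjective f₀
  obtain ⟨g, hg⟩ := hhom (f.hom ∘ₗ (d 1).rangeRestrict) (LinearMap.ext fun w => by
    have : (d 1).rangeRestrict (d 2 w) = 0 := Subtype.ext ((hex 1 _).2 ⟨w, rfl⟩)
    simp [this])
  have hfg : f = (ShortComplex.mk (ModuleCat.ofHom (X := LinearMap.range (d 1)) (Y := T 1)
      (LinearMap.range (d 1)).subtype) π (ModuleCat.hom_ext (LinearMap.ext fun w => by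
        obtain ⟨u, hu⟩ := w.2
        exact Subtype.ext ((hex 0 _).2 ⟨u, hu⟩)))).f ≫ ModuleCat.ofHom g := by
    refine ModuleCat.hom_ext (LinearMap.ext fun w => ?_)
    obtain ⟨u, hu⟩ := w.2
    have : w = (d 1).rangeRestrict u := Subtype.ext hu.symm
    subst this
    exact (LinearMap.congr_fun hg u).symm
  have : y' = 0 := by
    rw [← hf, hfg]
    simp only [Ext.addEquiv₀, AddEquiv.symm_mk, AddEquiv.coe_mk]
    simp [← Ext.mk₀_comp_mk₀]
    exact ShortComplex.ShortExact.extClass_comp_assoc hS' _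
  rw [hδ, this, Ext.comp_zero]

/-- Ext in degree at least two, from a resolution -/
theorem ev_of_res : ∀ (m : ℕ) (T : ℕ → ModuleCat.{0} A) (d : ∀ n, T (n + 1) →ₗ[A] T n)
    (X Y : ModuleCat.{0} A) (aug : T 0 →ₗ[A] X), Function.Surjective aug →
    Function.Exact (d 0) aug → (∀ n, Function.Exact (d (n + 1)) (d n)) →
    (∀ k n, 2 ≤ n → EV n (T k) Y) →
    (∀ x : Ext (T (m + 1)) Y 1,
      (Ext.mk₀ (ModuleCat.ofHom (d (m + 1)))).comp x (zero_add 1) = 0 →
      ∃ z : Ext (T m) Y 1, (Ext.mk₀ (ModuleCat.ofHom (d m))).comp z (zero_add 1) = x) →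
    (∀ f : T (m + 2) →ₗ[A] Y, f ∘ₗ d (m + 2) = 0 →
      ∃ g : T (m + 1) →ₗ[A] Y, g ∘ₗ d (m + 1) = f) →
    EV (m + 2) X Y
  | 0, T, d, X, Y, aug, ha, h0, hex, hT, hext, hhom =>
    ev_two_of_res T d X Y aug ha h0 hex (hT 0 2 le_rfl) hext hhom
  | m + 1, T, d, X, Y, aug, ha, h0, hex, hT, hext, hhom => by
    refine ev_right (shortExact_range (d 0) aug ha h0) Y ?_ (hT 0 _ (by omega))
    exact ev_of_res m (fun n => T (n + 1)) (fun n => d (n + 1))
      (ModuleCat.of A (LinearMap.range (d 0))) Y (d 0).rangeRestrict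
      (d 0).surjective_rangeRestrict (exact_rangeRestrict _ _ (hex 0)) (fun n => hex (n + 1))
      (fun k n hn => hT (k + 1) n hn) hext hhom

end Vale.Agent.P195
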