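import Vale.Agent.P195.C0PxBase
import Vale.Agent.P195.Resolve

/-!
`C₀` has no extensions by `P_x` in degrees at least five (P195).
-/

namespace Vale.Agent.P195.C0P

open Matrix MulOpposite CategoryTheory Abelian C0E

noncomputable section

theorem cut_eq {k : ℕ} (hk : 3 ≤ k) (x : Ft k) : cut k x = x := by
  rw [cut, if_neg (by omega), if_neg (by omega), if_neg (by omega)]
  rfl

/-- the full term inside the truncated one -/
def tm {k : ℕ} (hk : 3 ≤ k) : Ft k →ₗ[AP] Tsub k :=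
  LinearMap.codRestrict (Tsub k) LinearMap.id fun x => cut_eq hk x

/-- first coordinate -/
def qA (k : ℕ) : Tsub k →ₗ[AP] EE 1 (par k) := pA k ∘ₗ (Tsub k).subtype
/-- second coordinate -/
def qB (k : ℕ) : Tsub k →ₗ[AP] EE 0 (par (k + 1)) := pB k ∘ₗ (Tsub k).subtype
/-- third coordinate -/
def qC (k : ℕ) : Tsub k →ₗ[AP] Col (iota0 (vZ 1 (par k))) := pC k ∘ₗ (Tsub k).subtype
/-- fourth coordinate -/
def qD (k : ℕ) : Tsub k →ₗ[AP] Col (iota0 (vZ 0 (par (k + 1)))) := pD k ∘ₗ (Tsub k).subtype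

/-- second coordinate one step up, at the vertex of the same parity -/
def qBs (k : ℕ) : Tsub (k + 1) →ₗ[AP] EE 0 (par k) := qB (k + 1)
/-- fourth coordinate one step up, at the vertex of the same parity -/
def qDs (k : ℕ) : Tsub (k + 1) →ₗ[AP] Col (iota0 (vZ 0 (par k))) := qD (k + 1)

theorem fix_arX {M : Type} [AddCommGroup M] [Module AP M] (v v' j : Fin 2) (y : M) :
    idem iota0 (qO j v') • (arX 0 v v' j • y) = arX 0 v v' j • y := single_fix _ _ _ _ _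

theorem fix_arZ {M : Type} [AddCommGroup M] [Module AP M] (v v' i : Fin 2) (y : M) :
    idem iota0 (vZ i v') • (arZ v v' i • y) = arZ v v' i • y := single_fix _ _ _ _ _

theorem fix_tO {M : Type} [AddCommGroup M] [Module AP M] (v : Fin 2) (y : M) :
    idem iota0 (qO 0 v) • (tO v • y) = tO v • y := single_fix _ _ _ _ _

theorem fix_tX {M : Type} [AddCommGroup M] [Module AP M] (v : Fin 2) (y : M) :
    idem iota0 (qX 0 v) • (tX v • y) = tX v • y := single_fix _ _ _ _ _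

theorem fix_tZ {M : Type} [AddCommGroup M] [Module AP M] (v : Fin 2) (y : M) :
    idem iota0 (vZ 0 v) • (tZ v • y) = tZ v • y := single_fix _ _ _ _ _

/-- first inclusion -/
def jA {k : ℕ} (hk : 3 ≤ k) : EE 1 (par k) →ₗ[AP] Tsub k := tm hk ∘ₗ LinearMap.inl AP _ _
/-- second inclusion -/
def jB {k : ℕ} (hk : 3 ≤ k) : EE 0 (par (k + 1)) →ₗ[AP] Tsub k :=
  tm hk ∘ₗ LinearMap.inr AP _ _ ∘ₗ LinearMap.inl AP _ _
/-- third inclusion -/
def jC {k : ℕ} (hk : 3 ≤ k) : Col (iota0 (vZ 1 (par k))) →ₗ[AP] Tsub k :=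
  tm hk ∘ₗ LinearMap.inr AP _ _ ∘ₗ LinearMap.inr AP _ _ ∘ₗ LinearMap.inl AP _ _
/-- fourth inclusion -/
def jD {k : ℕ} (hk : 3 ≤ k) : Col (iota0 (vZ 0 (par (k + 1)))) →ₗ[AP] Tsub k :=
  tm hk ∘ₗ LinearMap.inr AP _ _ ∘ₗ LinearMap.inr AP _ _ ∘ₗ LinearMap.inr AP _ _

theorem qA_jA {k : ℕ} (hk : 3 ≤ k) : qA k ∘ₗ jA hk = LinearMap.id := LinearMap.ext fun _ => rfl
theorem qB_jA {k : ℕ} (hk : 3 ≤ k) : qB k ∘ₗ jA hk = 0 := LinearMap.ext fun _ => rfl
theorem qA_jB {k : ℕ} (hk : 3 ≤ k) : qA k ∘ₗ jB hk = 0 := LinearMap.ext fun _ => rfl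
theorem qB_jB {k : ℕ} (hk : 3 ≤ k) : qB k ∘ₗ jB hk = LinearMap.id := LinearMap.ext fun _ => rfl

theorem decomp {k : ℕ} (hk : 3 ≤ k) :
    jA hk ∘ₗ qA k + jB hk ∘ₗ qB k + jC hk ∘ₗ qC k + jD hk ∘ₗ qD k = LinearMap.id := by
  refine LinearMap.ext fun x => Subtype.ext ?_
  show ((x.1.1, 0) : Ft k) + (0, (x.1.2.1, 0)) + (0, (0, (x.1.2.2.1, 0))) +
    (0, (0, (0, x.1.2.2.2))) = x.1
  simp

theorem qA_dd {k : ℕ} (hk : 3 ≤ k) : qA k ∘ₗ dd k =
    mapE (v := par (k + 1)) (v' := par k) 1 le_rfl (one_mem_PX00 _) ∘ₗ qA (k + 1) +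
    mapE (v := par k) (v' := par k) zP (Fin.zero_le _) zP_mem' ∘ₗ qBs k +
    phiE (v := par k) (gam k, 0) ∘ₗ qDs k :=
  LinearMap.ext fun x => (congrArg Prod.fst (cut_eq hk (raw k x.1)) :)

theorem qB_dd {k : ℕ} (hk : 3 ≤ k) : qB k ∘ₗ dd k =
    -(mapE (v := par k) (v' := par (k + 1)) 1 le_rfl (one_mem_PX00 _) ∘ₗ qBs k) +
    phiE (v := par (k + 1)) (1, 0) ∘ₗ qC (k + 1) + phiE (v := par k) (1, 0) ∘ₗ qDs k :=
  LinearMap.ext fun x => (congrArg (fun p => p.2.1) (cut_eq hk (raw k x.1)) :)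

theorem qC_dd {k : ℕ} (hk : 3 ≤ k) : qC k ∘ₗ dd k =
    Col.map (mZ (par (k + 1)) (par k) 1) (mem_ZZ le_rfl (one_mem_PX00 _)) ∘ₗ qC (k + 1) +
    Col.map (mZ (par k) (par k) zP) (mem_ZZ (Fin.zero_le _) zP_mem') ∘ₗ qDs k :=
  LinearMap.ext fun x => (congrArg (fun p => p.2.2.1) (cut_eq hk (raw k x.1)) :)

theorem qD_dd {k : ℕ} (hk : 3 ≤ k) : qD k ∘ₗ dd k =
    -(Col.map (mZ (par k) (par (k + 1)) 1) (mem_ZZ le_rfl (one_mem_PX00 _)) ∘ₗ qDs k) :=
  LinearMap.ext fun x => (congrArg (fun p => p.2.2.2) (cut_eq hk (raw k x.1)) :)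

/-! ### Homomorphisms into `P_x` -/

/-- the maps supported on the columns at `Z` -/
def hm (k : ℕ) (c d : Px) : Tsub k →ₗ[AP] Px :=
  Col.lift (vZ 1 (par k)) c ∘ₗ qC k + Col.lift (vZ 0 (par (k + 1))) d ∘ₗ qD k

theorem hm_dd {k : ℕ} (hk : 3 ≤ k) (c d : Px) :
    hm k c d ∘ₗ dd k = hm (k + 1) (arZ (par k) (par (k + 1)) 1 • c)
      (tZ (par k) • c - arZ (par (k + 1)) (par k) 0 • d) := by
  refine LinearMap.ext fun x => ?_
  have eC := LinearMap.congr_fun (qC_dd hk) x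
  have eD := LinearMap.congr_fun (qD_dd hk) x
  simp only [LinearMap.comp_apply, LinearMap.add_apply, LinearMap.neg_apply] at eC eD
  show Col.lift _ c (qC k (dd k x)) + Col.lift _ d (qD k (dd k x)) = _
  rw [eC, eD, map_add, map_neg, Col.lift_map, Col.lift_map, Col.lift_map]
  simp only [hm, LinearMap.add_apply, LinearMap.comp_apply, Col.lift_apply, smul_sub]
  rw [add_assoc, ← sub_eq_add_neg]
  rfl

theorem hm_eq_zero {k : ℕ} (hk : 3 ≤ k) {c d : Px} (hc : idem iota0 (vZ 1 (par k)) • c = c)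
    (hd : idem iota0 (vZ 0 (par (k + 1))) • d = d) (h : hm k c d = 0) : c = 0 ∧ d = 0 := by
  have e1 : Col.lift (vZ 1 (par k)) c (Col.gen _) + Col.lift (vZ 0 (par (k + 1))) d 0 = 0 :=
    LinearMap.congr_fun h (jC hk (Col.gen _))
  have e2 : Col.lift (vZ 1 (par k)) c 0 + Col.lift (vZ 0 (par (k + 1))) d (Col.gen _) = 0 :=
    LinearMap.congr_fun h (jD hk (Col.gen _))
  rw [map_zero, add_zero, Col.lift_gen _ _ hc] at e1
  rw [map_zero, zero_add, Col.lift_gen _ _ hd] at e2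
  exact ⟨e1, e2⟩

theorem hom_TT (hAux : SpecPxAux) {k : ℕ} (hk : 3 ≤ k) (f : Tsub k →ₗ[AP] Px) :
    ∃ c d, idem iota0 (vZ 1 (par k)) • c = c ∧ idem iota0 (vZ 0 (par (k + 1))) • d = d ∧
      hm k c d = f := by
  refine ⟨(f ∘ₗ jC hk) (Col.gen _), (f ∘ₗ jD hk) (Col.gen _), ?_, ?_, ?_⟩
  · rw [← map_smul, Col.idem_gen]
  · rw [← map_smul, Col.idem_gen]
  · conv_rhs => rw [← LinearMap.comp_id f, ← decomp hk]
    rw [LinearMap.comp_add, LinearMap.comp_add, LinearMap.comp_add, ← LinearMap.comp_assoc,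
      ← LinearMap.comp_assoc, ← LinearMap.comp_assoc, ← LinearMap.comp_assoc,
      hom_EE_zero hAux _ _ (f ∘ₗ jA hk), hom_EE_zero hAux _ _ (f ∘ₗ jB hk),
      LinearMap.zero_comp, LinearMap.zero_comp, zero_add, zero_add]
    exact congrArg₂ (fun a b => a ∘ₗ qC k + b ∘ₗ qD k) (hom_col (f ∘ₗ jC hk)).symm
      (hom_col (f ∘ₗ jD hk)).symm

theorem hom_chase (hAux : SpecPxAux) {p q : Fin 2} (hne : p ≠ q) {c d : Px}
    (hc : idem iota0 (vZ 1 p) • c = c) (hd : idem iota0 (vZ 0 q) • d = d)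
    (z1 : arZ p q 1 • c = 0) (z2 : tZ p • c - arZ q p 0 • d = 0) :
    ∃ c1 d1, arZ q p 1 • c1 = c ∧ tZ q • c1 - arZ p q 0 • d1 = d := by
  obtain ⟨c1, -, hc1⟩ := hAux.2.1 1 p q hne c hc z1
  obtain ⟨d1, -, hd1⟩ := hAux.2.1 0 q p hne.symm (tZ q • c1 - d)
    (by rw [smul_sub, hd, fix_tZ])
    (by rw [smul_sub, smul_smul, ← tZ_arZ, mul_smul, hc1, z2])
  exact ⟨c1, d1, hc1, by rw [hd1, sub_sub_cancel]⟩

theorem hom_step (hAux : SpecPxAux) {m : ℕ} (hm3 : 3 ≤ m) (f : Tsub (m + 2) →ₗ[AP] Px)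
    (hf : f ∘ₗ dd (m + 2) = 0) : ∃ g : Tsub (m + 1) →ₗ[AP] Px, g ∘ₗ dd (m + 1) = f := by
  obtain ⟨c, d, hc, hd, rfl⟩ := hom_TT hAux (by omega : 3 ≤ m + 2) f
  rw [hm_dd (by omega)] at hf
  have hfix : idem iota0 (vZ 0 (par m)) •
      (tZ (par m) • c - arZ (par (m + 1)) (par m) 0 • d) =
      tZ (par m) • c - arZ (par (m + 1)) (par m) 0 • d := by
    rw [smul_sub, fix_tZ, fix_arZ]
  obtain ⟨z1, z2⟩ := hm_eq_zero (by omega : 3 ≤ m + 2 + 1) (fix_arZ _ _ _ _) hfix hf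
  obtain ⟨c1, d1, e1, e2⟩ := hom_chase hAux (par_ne m).symm hc hd z1 z2
  refine ⟨hm (m + 1) c1 d1, ?_⟩
  rw [hm_dd (by omega)]
  exact congrArg₂ (hm (m + 2)) e1 e2

/-! ### First extensions by `P_x` -/

/-- the classes supported on the modules `E` -/
def ex (k : ℕ) (u w : Px × Px) : Ext (TT k) MPx 1 :=
  pull (qA k) (dl 1 (par k) u) + pull (qB k) (dl 0 (par (k + 1)) w)

theorem dl_sub (j v : Fin 2) (y y' : Px × Px) : dl j v (y - y') = dl j v y - dl j v y' := by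
  rw [sub_eq_add_neg, dl_add, dl_neg, ← sub_eq_add_neg]

theorem col_pull {X : Type} [AddCommGroup X] [Module AP X] {j v : Fin 2} {u : Vtx 2}
    (f : X →ₗ[AP] Col (iota0 u)) (g : Col (iota0 u) →ₗ[AP] EE j v)
    (x : Ext (ModuleCat.of AP (EE j v)) MPx 1) : pull (g ∘ₗ f) x = 0 := by
  rw [← pull_pull, col_ext_zero u (pull g x), pull_zero]

theorem pull_qA_dd {k : ℕ} (hk : 3 ≤ k) (u : Px × Px) :
    pull (qA k ∘ₗ dd k) (dl 1 (par k) u) =
      pull (qA (k + 1)) (dl 1 (par (k + 1)) (arX 0 (par k) (par (k + 1)) 1 • u)) +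
      pull (qBs k) (dl 0 (par k) (tO (par k) • u)) := by
  rw [qA_dd hk, add_pull, add_pull, col_pull, add_zero, ← pull_pull, ← pull_pull, pull_mapE_dl,
    pull_mapE_dl]
  rfl

theorem pull_qB_dd {k : ℕ} (hk : 3 ≤ k) (w : Px × Px) :
    pull (qB k ∘ₗ dd k) (dl 0 (par (k + 1)) w) =
      -pull (qBs k) (dl 0 (par k) (arX 0 (par (k + 1)) (par k) 0 • w)) := by
  rw [qB_dd hk, add_pull, add_pull, col_pull, col_pull, add_zero, add_zero, neg_pull, ← pull_pull,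
    pull_mapE_dl]
  rfl

theorem ex_succ (k : ℕ) (a b : Px × Px) :
    ex (k + 1) a b =
      pull (qA (k + 1)) (dl 1 (par (k + 1)) a) + pull (qBs k) (dl 0 (par k) b) := rfl

theorem pull_sub {X Y : Type} [AddCommGroup X] [Module AP X] [AddCommGroup Y] [Module AP Y]
    (f : X →ₗ[AP] Y) (a b : Ext (ModuleCat.of AP Y) MPx 1) :
    pull f (a - b) = pull f a - pull f b := by
  rw [sub_eq_add_neg, pull_add, pull_neg, ← sub_eq_add_neg]

theorem pull_ex_aux {k : ℕ} (d : Tsub (k + 1) →ₗ[AP] Tsub k)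
    (a : Ext (ModuleCat.of AP (EE 1 (par k))) MPx 1)
    (b : Ext (ModuleCat.of AP (EE 0 (par (k + 1)))) MPx 1) :
    pull d (pull (qA k) a + pull (qB k) b) = pull (qA k ∘ₗ d) a + pull (qB k ∘ₗ d) b := by
  rw [pull_add, pull_pull, pull_pull]

theorem pull_ex {k : ℕ} (hk : 3 ≤ k) (u w : Px × Px) :
    pull (dd k) (ex k u w) = ex (k + 1) (arX 0 (par k) (par (k + 1)) 1 • u)
      (tO (par k) • u - arX 0 (par (k + 1)) (par k) 0 • w) := by
  have h1 := pull_qA_dd hk u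
  have h2 := pull_qB_dd hk w
  rw [ex]
  refine (pull_ex_aux (dd k) _ _).trans ?_
  rw [h1, h2, ex_succ, dl_sub]
  exact ((add_assoc _ _ _).trans (congrArg (_ + ·) (sub_eq_add_neg _ _).symm)).trans
    (congrArg (_ + ·) (pull_sub (qBs k) _ _).symm)

theorem ex_eq_zero {k : ℕ} (hk : 3 ≤ k) {u w : Px × Px} (h : ex k u w = 0) :
    dl 1 (par k) u = 0 ∧ dl 0 (par (k + 1)) w = 0 := by
  constructor
  · have e := congrArg (pull (jA hk)) h
    rw [pull_zero, ex, pull_add, pull_pull, pull_pull, qA_jA, qB_jA, id_pull, zero_pull,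
      add_zero] at e
    exact e
  · have e := congrArg (pull (jB hk)) h
    rw [pull_zero, ex, pull_add, pull_pull, pull_pull, qA_jB, qB_jB, id_pull, zero_pull,
      zero_add] at e
    exact e

theorem ext_TT {k : ℕ} (hk : 3 ≤ k) (x : Ext (TT k) MPx 1) :
    ∃ u w, idem iota0 (qO 1 (par k)) • u = u ∧ idem iota0 (qO 0 (par (k + 1))) • w = w ∧
      ex k u w = x := by
  obtain ⟨u, hu, hu'⟩ := dl_surj 1 (par k) (pull (jA hk) x)
  obtain ⟨w, hw, hw'⟩ := dl_surj 0 (par (k + 1)) (pull (jB hk) x)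
  refine ⟨u, w, hu, hw, ?_⟩
  conv_rhs => rw [← id_pull x, ← decomp hk]
  rw [ex, hu', hw', add_pull, add_pull, add_pull, ← pull_pull _ (jC hk), ← pull_pull _ (jD hk),
    col_ext_zero _ (pull (jC hk) x), col_ext_zero _ (pull (jD hk) x), pull_zero, pull_zero,
    add_zero, add_zero, pull_pull, pull_pull]

theorem ext_chase (hAux : SpecPxAux) {p q : Fin 2} (hne : p ≠ q) {u w : Px × Px}
    (hu : idem iota0 (qO 1 p) • u = u) (hw : idem iota0 (qO 0 q) • w = w)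
    (z1 : dl 1 q (arX 0 p q 1 • u) = 0) (z2 : dl 0 p (tO p • u - arX 0 q p 0 • w) = 0) :
    ∃ u' w', dl 1 p (arX 0 q p 1 • u') = dl 1 p u ∧
      dl 0 q (tO q • u' - arX 0 p q 0 • w') = dl 0 q w := by
  obtain ⟨a, ha, ea⟩ := dl_ker 1 q (fix_arX _ _ _ _) z1
  obtain ⟨a', ha', ea'⟩ := dl_ker 0 p (by
    rw [smul_sub, fix_tO, fix_arX]) z2
  obtain ⟨y₀, y₁, b, -, -, hb, e₀, e₁⟩ := hAux.2.2 1 p q hne u.1 u.2 a (congrArg Prod.fst hu)
    (congrArg Prod.snd hu) ha (congrArg Prod.fst ea) (congrArg Prod.snd ea)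
  have eu : arX 0 q p 1 • (y₀, y₁) = u - (euY 1 p • b, euO 1 p • b) :=
    eq_sub_of_add_eq (Prod.ext e₀ e₁)
  set e : Px × Px := tO q • (y₀, y₁) - w with he
  have hfe : idem iota0 (qO 0 q) • e = e := by
    rw [he, smul_sub, hw, fix_tO]
  have ee : arX 0 q p 0 • e = (euY 0 p • (a' - tX p • b), euO 0 p • (a' - tX p • b)) := by
    rw [he, smul_sub, smul_smul, ← tO_arX, mul_smul, eu, smul_sub, sub_right_comm, ea']
    refine Prod.ext ?_ ?_
    · show euY 0 p • a' - tO p • euY 1 p • b = euY 0 p • (a' - tX p • b)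
      rw [smul_sub, smul_smul, smul_smul, tO_euY]
    · show euO 0 p • a' - tO p • euO 1 p • b = euO 0 p • (a' - tX p • b)
      rw [smul_sub, smul_smul, smul_smul, tO_euO]
  have hfa : idem iota0 (qX 0 p) • (a' - tX p • b) = a' - tX p • b := by
    rw [smul_sub, ha', fix_tX]
  obtain ⟨z₀, z₁, b', -, -, -, g₀, g₁⟩ := hAux.2.2 0 q p hne.symm e.1 e.2 (a' - tX p • b)
    (congrArg Prod.fst hfe) (congrArg Prod.snd hfe) hfa (congrArg Prod.fst ee)
    (congrArg Prod.snd ee)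
  refine ⟨(y₀, y₁), (z₀, z₁), ?_, ?_⟩
  · rw [eu, dl_sub, dl_euler, sub_zero]
  · have eg : arX 0 p q 0 • (z₀, z₁) = e - (euY 0 q • b', euO 0 q • b') :=
      eq_sub_of_add_eq (Prod.ext g₀ g₁)
    have ew : tO q • (y₀, y₁) - arX 0 p q 0 • (z₀, z₁) =
        w + (euY 0 q • b', euO 0 q • b') := by
      rw [eg, he]
      abel
    rw [ew, dl_add, dl_euler, add_zero]

theorem ext_step (hAux : SpecPxAux) {m : ℕ} (hm3 : 3 ≤ m) (x : Ext (TT (m + 1)) MPx 1)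
    (hx : pull (dd (m + 1)) x = 0) : ∃ z : Ext (TT m) MPx 1, pull (dd m) z = x := by
  obtain ⟨u, w, hu, hw, rfl⟩ := ext_TT (by omega : 3 ≤ m + 1) x
  rw [pull_ex (by omega)] at hx
  obtain ⟨z1, z2⟩ := ex_eq_zero (by omega) hx
  obtain ⟨u', w', e1, e2⟩ := ext_chase hAux (par_ne m) hu hw z1 z2
  exact ⟨ex m u' w', (pull_ex hm3 u' w').trans
    (congrArg₂ (· + ·) (congrArg (pull (qA (m + 1))) e1) (congrArg (pull (qB (m + 1))) e2))⟩

end

end Vale.Agent.P195.C0P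

namespace Vale.Agent.P195

open CategoryTheory

/-- I2: `C₀` has no extensions by `P_x` in degrees at least five -/
theorem specC0Px (hRes : C0E.SpecResExact) (hAux : SpecPxAux) : SpecC0Px := by
  intro n hn
  obtain ⟨m, rfl⟩ : ∃ m, n = m + 2 := ⟨n - 2, by omega⟩
  exact ev_of_res m C0E.TT C0E.dd _ _ C0E.aug hRes.1 hRes.2.1 hRes.2.2
    (fun k i hi => C0E.ev_TT k hi) (fun x hx => C0P.ext_step hAux (by omega) x hx)
    (fun f hf => C0P.hom_step hAux (by omega) f hf)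

end Vale.Agent.P195
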