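import Vale.Agent.P195.C0Model

/-!
Exactness of the resolution of `C₀`, deduced from exactness of its coordinate model (P195).
-/

namespace Vale.Agent.P195.C0E

open Matrix MulOpposite CategoryTheory

noncomputable section

theorem fin2_cases (s : Fin 2) : s = 0 ∨ s = 1 := by omega

/-- coordinates on `E(j,v)` -/
def coE (j v : Fin 2) (u : Vtx 2) : EE j v →+ ℂ × ℂ :=
  QuotientAddGroup.lift (LinearMap.range (rE j v)).toAddSubgroup
    { toFun := fun f => cd u.1 (Tau.X 0 1 v) (f.val u)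
      map_zero' := map_zero _
      map_add' := fun f g => by rw [Col.val_add, map_add] }
    (by rintro _ ⟨g, rfl⟩; exact cd_rE_val j v g u)

theorem coE_mk (j v : Fin 2) (u : Vtx 2) (f : Col (iota0 (qX j v))) :
    coE j v u (Submodule.Quotient.mk f) = cd u.1 (Tau.X 0 1 v) (f.val u) := rfl

theorem coE_ext {j v : Fin 2} {x : EE j v} (h : ∀ u, coE j v u x = 0) : x = 0 := by
  obtain ⟨f, rfl⟩ := Submodule.Quotient.mk_surjective _ x
  exact (EE_mk_eq_zero f).2 h

/-- coordinates on the columns at `Z`-vertices -/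
def coZ (i v : Fin 2) (u : Vtx 2) : Col (iota0 (vZ i v)) →+ ℂ × ℂ where
  toFun f := cd u.1 (Tau.Z v) (f.val u)
  map_zero' := map_zero _
  map_add' f g := by rw [Col.val_add, map_add]

theorem coZ_apply (i v : Fin 2) (u : Vtx 2) (f : Col (iota0 (vZ i v))) :
    coZ i v u f = cd u.1 (Tau.Z v) (f.val u) := rfl

theorem H_qZ_X {a b s i v k : Fin 2} {m : Mat} (h : m ∈ H (iota0 (vX a b k s)) (iota0 (vZ i v))) :
    m = 0 := by
  rw [show iota0 (vX a b k s) = (Tau.X a.castSucc b.castSucc s, k) from rfl,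
    show iota0 (vZ i v) = (Tau.Z v, i) from rfl, H] at h
  exact (Submodule.mem_bot ℂ).1 h

theorem H_qZ_Z {s i v k : Fin 2} {m : Mat} (h : m ∈ H (iota0 (vZ k s)) (iota0 (vZ i v))) :
    m = 0 ∨ (k ≤ i ∧ ∃ G ∈ PX 0 0 (i.val - k.val), m = mZ s v G) := by
  rw [show iota0 (vZ k s) = (Tau.Z s, k) from rfl,
    show iota0 (vZ i v) = (Tau.Z v, i) from rfl, H] at h
  split_ifs at h with hle
  · obtain ⟨G, hG, rfl⟩ := h
    exact .inr ⟨hle, G, hG, rfl⟩
  · exact .inl ((Submodule.mem_bot ℂ).1 h)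

theorem coZ_ext {i v : Fin 2} {f : Col (iota0 (vZ i v))} (h : ∀ u, coZ i v u f = 0) : f = 0 := by
  refine Col.ext fun u => ?_
  obtain ⟨τ, k⟩ := u
  cases τ with
  | X a b s => exact H_qZ_X (f.mem (vX a b k s))
  | Z s =>
    rcases H_qZ_Z (f.mem (vZ k s)) with h0 | ⟨hle, G, hG, hG'⟩
    · exact h0
    · have := h (vZ k s)
      rw [coZ_apply, hG', cd_Z] at this
      rw [hG', c01_eq_zero (by omega) hG this, map_zero, Col.val_zero]

/-- the kind of a row -/
def kindX : Tau 2 → Bool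
  | .X _ _ _ => true
  | .Z _ => false

/-- the vertex of the two-cycle of a row -/
def arrV : Tau 2 → Fin 2
  | .X _ _ s => s
  | .Z s => s

/-- rows which carry coordinates -/
def Relevant : Tau 2 → Prop
  | .X a b _ => a = 0 ∧ b = 1
  | .Z _ => True

theorem cd_irrelevant {τ τ' : Tau 2} (h : ¬Relevant τ) (m : Mat) : cd τ τ' m = 0 := by
  rcases τ with ⟨a, b, s⟩ | s
  · rcases τ' with ⟨a', b', v⟩ | v
    · simp only [cd, if_neg (show ¬(a = 0 ∧ b = 1) from h), LinearMap.zero_apply]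
    · simp [cd]
  · exact absurd trivial h

theorem coE_mapE_one {j v v' : Fin 2} (hv : v ≠ v')
    (hG : (1 : PP) ∈ PX 0 0 (j.val - j.val)) (u : Vtx 2) (x : EE j v) :
    coE j v' u (mapE (v' := v') 1 le_rfl hG x) = xiE (kindX u.1) (arrV u.1) v (coE j v u x) := by
  obtain ⟨f, rfl⟩ := Submodule.Quotient.mk_surjective _ x
  rw [mapE_mk, coE_mk, coE_mk, Col.map_val]
  obtain ⟨τ, i⟩ := u
  cases τ with
  | X a b s =>
    show _ = xiE true s v _
    by_cases hab : a = 0 ∧ b = 1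
    · obtain ⟨rfl, rfl⟩ := hab
      rcases H_qX_cases (f.mem (vX 0 1 i s)) with h | ⟨-, G, -, h, -⟩
      · rw [h, zero_mul, map_zero, map_zero]; simp [xiE, kindX]
      · rw [h, mX_mul_mX, cd_X]
        simp only [xiE, kindX, arrV, if_true]
        by_cases h2 : s = v
        · rw [if_pos (Or.inl h2), if_pos h2, cd_X, mul_one]
        · rw [if_neg (fun h1 => h2 (h1.resolve_right hv)), if_neg h2, map_zero]
    · rw [cd_irrelevant (τ := Tau.X a b s) hab, cd_irrelevant (τ := Tau.X a b s) hab]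
      simp [xiE, kindX, shf]
  | Z s =>
    show _ = xiE false s v _
    obtain ⟨w, -, h⟩ := H_qX_Z (f.mem (vZ i s))
    rw [h, mW_mul_mX, cd_W, cd_W, wmulX, if_neg hv]
    simp only [map_one, one_mul, xiE, kindX, arrV, Bool.false_eq_true, if_false]
    rcases fin2_cases s with rfl | rfl <;> rcases fin2_cases v with rfl | rfl <;>
      simp [lam2_ep_mul, shf]

theorem coE_mapE_z {v : Fin 2} (hG : zP ∈ PX 0 0 ((1 : Fin 2).val - (0 : Fin 2).val)) (u : Vtx 2)
    (x : EE 0 v) :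
    coE 1 v u (mapE (v' := v) zP (Fin.zero_le _) hG x) =
      tE (kindX u.1) (arrV u.1) v (coE 0 v u x) := by
  obtain ⟨f, rfl⟩ := Submodule.Quotient.mk_surjective _ x
  rw [mapE_mk, coE_mk, coE_mk, Col.map_val]
  obtain ⟨τ, i⟩ := u
  cases τ with
  | X a b s =>
    show _ = tE true s v _
    by_cases hab : a = 0 ∧ b = 1
    · obtain ⟨rfl, rfl⟩ := hab
      rcases H_qX_cases (f.mem (vX 0 1 i s)) with h | ⟨-, G, hG', h, -⟩
      · simp [h, tE, shf, Prod.ext_iff]
      · rw [h, mX_self_mul, cd_X, cd_X, c01_mul_zP (J := (0 : Fin 2).val - i.val) (by simpa using hG')]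
        simp [tE, kindX, shf]
    · simp [cd_irrelevant (τ := Tau.X a b s) hab, tE, shf, Prod.ext_iff]
  | Z s =>
    show _ = tE false s v _
    obtain ⟨w, -, h⟩ := H_qX_Z (f.mem (vZ i s))
    rw [h, mW_mul_mX, cd_W, cd_W, wmulX, if_pos rfl]
    simp only [tE, kindX, arrV, Bool.false_eq_true, if_false]
    by_cases hsv : s = 0 ∧ v = 1
    · simp only [if_pos hsv, lam2_sg_zP]; rfl
    · simp only [if_neg hsv, lam2_pl_zP]

theorem coE_phiE {i j v w : Fin 2} (c : ℂ) (u : Vtx 2) (f : Col (iota0 (vZ i v))) :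
    coE j w u (phiE (j := j) (w := w) (c, 0) f) =
      c • phM (kindX u.1) (arrV u.1) v w (coZ i v u f) := by
  rw [phiE_apply, coE_mk, coZ_apply, Col.map_val]
  obtain ⟨τ, k⟩ := u
  cases τ with
  | X a b s =>
    show _ = c • phM true s v w _
    rw [H_qZ_X (f.mem (vX a b k s))]
    simp [phM, kindX]
  | Z s =>
    show _ = c • phM false s v w _
    rcases H_qZ_Z (f.mem (vZ k s)) with h | ⟨-, G, hG, h⟩
    · rw [h, zero_mul, map_zero, map_zero]
      simp only [phM, kindX, arrV, Bool.false_eq_true, if_false]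
      split_ifs <;> simp [shf, Prod.ext_iff]
    · rw [h, mZ_mul_mW, cd_W, cd_Z]
      have e : wP (c, 0) = c • et := by simp [wP]
      have hJ : i.val - k.val ≤ 1 := by omega
      simp only [phM, kindX, arrV, Bool.false_eq_true, if_false, wmulZ, e, mul_smul_SW,
        map_smul]
      split_ifs <;>
        simp only [map_smul, map_zero, smul_zero, lam2_sg_et hJ hG, lam2_pl_et hJ hG,
          lam2_ep_mul, shf]

theorem coZ_map_one {i v v' : Fin 2} (hv : v ≠ v') (hG : (1 : PP) ∈ PX 0 0 (i.val - i.val))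
    (u : Vtx 2) (f : Col (iota0 (vZ i v))) :
    coZ i v' u (Col.map (mZ v v' 1) (mem_ZZ le_rfl hG) f) =
      xiP (kindX u.1) (arrV u.1) v (coZ i v u f) := by
  rw [coZ_apply, coZ_apply, Col.map_val]
  obtain ⟨τ, k⟩ := u
  cases τ with
  | X a b s =>
    show _ = xiP true s v _
    rw [H_qZ_X (f.mem (vX a b k s))]; simp [xiP, kindX]
  | Z s =>
    show _ = xiP false s v _
    rcases H_qZ_Z (f.mem (vZ k s)) with h | ⟨-, G, -, h⟩
    · rw [h, zero_mul, map_zero, map_zero]; simp [xiP]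
    · rw [h, mZ_mul_mZ, cd_Z]
      simp only [xiP, kindX, arrV, Bool.false_eq_true, if_false]
      split_ifs with h1 h2 h2
      · rw [cd_Z, mul_one]
      · exact absurd (h1.resolve_right hv) h2
      · exact absurd (Or.inl h2) h1
      · rw [map_zero]

theorem coZ_map_z {v : Fin 2} (hG : zP ∈ PX 0 0 ((1 : Fin 2).val - (0 : Fin 2).val)) (u : Vtx 2)
    (f : Col (iota0 (vZ 0 v))) :
    coZ 1 v u (Col.map (mZ v v zP) (mem_ZZ (Fin.zero_le _) hG) f) = shf (coZ 0 v u f) := by
  rw [coZ_apply, coZ_apply, Col.map_val]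
  obtain ⟨τ, k⟩ := u
  cases τ with
  | X a b s => rw [H_qZ_X (f.mem (vX a b k s))]; simp [shf, Prod.ext_iff]
  | Z s =>
    rcases H_qZ_Z (f.mem (vZ k s)) with h | ⟨-, G, hG', h⟩
    · simp [h, shf, Prod.ext_iff]
    · rw [h, mZ_mul_mZ, if_pos (Or.inr rfl), cd_Z, cd_Z, c01_mul_zP hG']
      rfl

/-- coordinates on the terms -/
def coord (n : ℕ) (u : Vtx 2) : Ft n →+ Quad where
  toFun x := (coE 1 (par n) u x.1, coE 0 (par (n + 1)) u x.2.1, coZ 1 (par n) u x.2.2.1,
    coZ 0 (par (n + 1)) u x.2.2.2)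
  map_zero' := by simp
  map_add' x y := by simp

theorem coord_apply (n : ℕ) (u : Vtx 2) (x : Ft n) :
    coord n u x = (coE 1 (par n) u x.1, coE 0 (par (n + 1)) u x.2.1, coZ 1 (par n) u x.2.2.1,
      coZ 0 (par (n + 1)) u x.2.2.2) := rfl

theorem coord_ext {n : ℕ} {x : Ft n} (h : ∀ u, coord n u x = 0) : x = 0 := by
  simp only [coord_apply, Prod.ext_iff, Prod.fst_zero, Prod.snd_zero] at h
  refine Prod.ext (coE_ext fun u => ?_)
    (Prod.ext (coE_ext fun u => ?_) (Prod.ext (coZ_ext fun u => ?_) (coZ_ext fun u => ?_))) <;>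
    simp [Prod.ext_iff, h u]

theorem coord_cut (n : ℕ) (u : Vtx 2) (x : Ft n) :
    coord n u (cut n x) = cutM n (coord n u x) := by
  simp only [coord_apply, cut, cutM, LinearMap.prod_apply, Function.prod, LinearMap.fst_apply]
  split_ifs <;> simp

theorem coord_raw (n : ℕ) (u : Vtx 2) (x : Ft (n + 1)) :
    cutM n (coord n u (raw n x)) = dM (kindX u.1) (arrV u.1) n (coord (n + 1) u x) := by
  rw [dM]
  congr 1
  have h1 : par (n + 1) ≠ par n := par_ne n
  simp only [coord_apply, raw, LinearMap.prod_apply, Function.prod]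
  refine Prod.ext ?_ (Prod.ext ?_ (Prod.ext ?_ ?_))
  · show coE 1 (par n) u
      (mapE (v := par (n + 1)) (v' := par n) 1 le_rfl (one_mem_PX00 _) x.1 +
        mapE (v := par n) (v' := par n) zP (Fin.zero_le _) zP_mem' x.2.1 +
        phiE (v := par n) (gam n, 0) x.2.2.2) = _
    rw [map_add, map_add]
    exact congrArg₂ (· + ·) (congrArg₂ (· + ·) (coE_mapE_one h1 (one_mem_PX00 _) u x.1)
      (coE_mapE_z zP_mem' u x.2.1)) (coE_phiE (gam n) u x.2.2.2)
  · show coE 0 (par (n + 1)) u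
      (-(mapE (v := par n) (v' := par (n + 1)) 1 le_rfl (one_mem_PX00 _) x.2.1) +
        phiE (v := par (n + 1)) (1, 0) x.2.2.1 + phiE (v := par n) (1, 0) x.2.2.2) = _
    rw [map_add, map_add, map_neg]
    exact congrArg₂ (· + ·) (congrArg₂ (· + ·)
      (congrArg Neg.neg (coE_mapE_one h1.symm (one_mem_PX00 _) u x.2.1))
      ((coE_phiE 1 u x.2.2.1).trans (one_smul ℂ _)))
      ((coE_phiE 1 u x.2.2.2).trans (one_smul ℂ _))
  · show coZ 1 (par n) u
      (Col.map (mZ (par (n + 1)) (par n) 1) (mem_ZZ le_rfl (one_mem_PX00 _)) x.2.2.1 +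
        Col.map (mZ (par n) (par n) zP) (mem_ZZ (Fin.zero_le _) zP_mem') x.2.2.2) = _
    rw [map_add]
    exact congrArg₂ (· + ·) (coZ_map_one h1 (one_mem_PX00 _) u x.2.2.1) (coZ_map_z zP_mem' u x.2.2.2)
  · show coZ 0 (par (n + 1)) u
      (-(Col.map (mZ (par n) (par (n + 1)) 1) (mem_ZZ le_rfl (one_mem_PX00 _)) x.2.2.2)) = _
    rw [map_neg]
    exact congrArg Neg.neg (coZ_map_one h1.symm (one_mem_PX00 _) u x.2.2.2)

theorem coord_dd (n : ℕ) (u : Vtx 2) (x : TT (n + 1)) :
    coord n u (dd n x).1 = dM (kindX u.1) (arrV u.1) n (coord (n + 1) u x.1) := by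
  show coord n u (cut n (raw n x.1)) = _
  rw [coord_cut, coord_raw]

theorem valid_coord (n : ℕ) (u : Vtx 2) (x : Tsub n) :
    Valid (kindX u.1) u.2 n (coord n u x.1) := by
  refine ⟨?_, ?_, ?_⟩
  · rw [← coord_cut, show cut n x.1 = x.1 from x.2]
  · obtain ⟨τ, i⟩ := u
    obtain ⟨fA, hA⟩ := Submodule.Quotient.mk_surjective _ x.1.1
    obtain ⟨fB, hB⟩ := Submodule.Quotient.mk_surjective _ x.1.2.1
    cases τ with
    | X a b s =>
      simp only [kindX, if_true, coord_apply]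
      rw [coZ_apply, coZ_apply, H_qZ_X (x.1.2.2.1.mem (vX a b i s)),
        H_qZ_X (x.1.2.2.2.mem (vX a b i s)), map_zero, map_zero, ← hA, ← hB, coE_mk, coE_mk]
      refine ⟨rfl, rfl, ?_, fun hi => ?_⟩
      · by_cases hab : a = 0 ∧ b = 1
        · obtain ⟨rfl, rfl⟩ := hab
          rcases H_qX_cases (fB.mem (vX 0 1 i s)) with h | ⟨-, G, hG, h, -⟩
          · rw [h, map_zero]; rfl
          · rw [h, cd_X, c01_apply]
            exact hG 0 0 1 (.inr (.inr (by simp)))
        · rw [cd_irrelevant (τ := Tau.X a b s) hab]; rfl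
      · subst hi
        by_cases hab : a = 0 ∧ b = 1
        · obtain ⟨rfl, rfl⟩ := hab
          constructor
          · rcases H_qX_cases (fA.mem (vX 0 1 1 s)) with h | ⟨-, G, hG, h, -⟩
            · rw [h, map_zero]; rfl
            · rw [h, cd_X, c01_apply]
              exact hG 0 0 1 (.inr (.inr (by simp)))
          · rcases H_qX_cases (fB.mem (vX 0 1 1 s)) with h | ⟨-, G, -, -, hle⟩
            · rw [h, map_zero]
            · exact absurd hle (by decide)
        · rw [cd_irrelevant (τ := Tau.X a b s) hab, cd_irrelevant (τ := Tau.X a b s) hab]; exact ⟨rfl, rfl⟩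
    | Z s =>
      simp only [kindX, Bool.false_eq_true, if_false, coord_apply]
      intro hi
      subst hi
      constructor
      · rcases H_qZ_Z (x.1.2.2.1.mem (vZ 1 s)) with h | ⟨-, G, hG, h⟩
        · rw [coZ_apply, h, map_zero]; rfl
        · rw [coZ_apply, h, cd_Z, c01_apply]
          exact hG 0 0 1 (.inr (.inr (by simp)))
      · rcases H_qZ_Z (x.1.2.2.2.mem (vZ 1 s)) with h | ⟨hle, -⟩
        · rw [coZ_apply, h, map_zero]
        · exact absurd hle (by decide)
  · intro hk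
    obtain ⟨τ, i⟩ := u
    cases τ with
    | X a b s => simp [kindX] at hk
    | Z s =>
      show (cd (Tau.Z s) (Tau.Z (par (n + 1))) (x.1.2.2.2.val (vZ i s))).2 = 0
      rcases H_qZ_Z (x.1.2.2.2.mem (vZ i s)) with h | ⟨-, G, hG, h⟩
      · rw [h, map_zero]; rfl
      · rw [h, cd_Z, c01_apply]
        exact hG 0 0 1 (.inr (.inr (by omega)))

/-- the entry of a realisation in an `E`-module -/
def entE (v : Fin 2) : Tau 2 → ℂ × ℂ → Mat
  | .X a b s, g => if a = 0 ∧ b = 1 then mX s v (gP g) else 0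
  | .Z s, g => mW s v (wP g)

/-- the entry of a realisation in a column at `Z` -/
def entZ (v : Fin 2) : Tau 2 → ℂ × ℂ → Mat
  | .X _ _ _, _ => 0
  | .Z s, g => mZ s v (gP g)

theorem gP_zero : gP 0 = 0 := by simp [gP, mono]

theorem entE_mem {j v : Fin 2} (u : Vtx 2) (g : ℂ × ℂ)
    (h : kindX u.1 = true → (j = u.2 → g.2 = 0) ∧ (j < u.2 → g = 0)) :
    entE v u.1 g ∈ H (iota0 u) (iota0 (qX j v)) := by
  obtain ⟨τ, i⟩ := u
  cases τ with
  | X a b s =>
    simp only [entE]
    split_ifs with hab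
    · obtain ⟨rfl, rfl⟩ := hab
      obtain ⟨h1, h2⟩ : (j = i → g.2 = 0) ∧ (j < i → g = 0) := h rfl
      show mX s v (gP g) ∈ H (Tau.X 0 1 s, i) (Tau.X 0 1 v, j)
      rw [H]
      split_ifs with hle
      · refine ⟨gP g, ?_, rfl⟩
        have := gP_mem g (J := j.val - i.val) (fun hJ => h1 (by omega))
        simpa using this
      · rw [h2 (not_le.1 fun hji => hle ⟨le_rfl, le_rfl, hji⟩), gP_zero, map_zero]
        exact Submodule.zero_mem _
    · exact Submodule.zero_mem _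
  | Z s => exact mem_ZX g

theorem entZ_mem {i v : Fin 2} (u : Vtx 2) (g : ℂ × ℂ)
    (h : kindX u.1 = false → (i = u.2 → g.2 = 0) ∧ (i < u.2 → g = 0)) :
    entZ v u.1 g ∈ H (iota0 u) (iota0 (vZ i v)) := by
  obtain ⟨τ, k⟩ := u
  cases τ with
  | X a b s => exact Submodule.zero_mem _
  | Z s =>
    obtain ⟨h1, h2⟩ : (i = k → g.2 = 0) ∧ (i < k → g = 0) := h rfl
    show mZ s v (gP g) ∈ H (Tau.Z s, k) (Tau.Z v, i)
    rw [H]
    split_ifs with hle
    · exact ⟨gP g, gP_mem g (fun hJ => h1 (by omega)), rfl⟩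
    · rw [h2 (not_le.1 hle), gP_zero, map_zero]
      exact Submodule.zero_mem _

theorem realise (n : ℕ) (q : Vtx 2 → Quad) (hq : ∀ u, Valid (kindX u.1) u.2 n (q u))
    (h0 : ∀ u, ¬Relevant u.1 → q u = 0) :
    ∃ x : TT n, ∀ u, coord n u x.1 = q u := by
  have a2 : ∀ u, kindX u.1 = true → ((1 : Fin 2) = u.2 → (q u).1.2 = 0) ∧
      ((1 : Fin 2) < u.2 → (q u).1 = 0) := fun u hk => by
    have := (hq u).2.1
    rw [hk, if_pos rfl] at this
    exact ⟨fun e => (this.2.2.2 e.symm).1, fun e => absurd e (by omega)⟩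
  have b2 : ∀ u, kindX u.1 = true → ((0 : Fin 2) = u.2 → (q u).2.1.2 = 0) ∧
      ((0 : Fin 2) < u.2 → (q u).2.1 = 0) := fun u hk => by
    have := (hq u).2.1
    rw [hk, if_pos rfl] at this
    exact ⟨fun _ => this.2.2.1, fun e => (this.2.2.2 (by omega)).2⟩
  have c2 : ∀ u, kindX u.1 = false → ((1 : Fin 2) = u.2 → (q u).2.2.1.2 = 0) ∧
      ((1 : Fin 2) < u.2 → (q u).2.2.1 = 0) := fun u hk => by
    have := (hq u).2.1
    simp only [hk, Bool.false_eq_true, if_false] at this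
    exact ⟨fun e => (this e.symm).1, fun e => absurd e (by omega)⟩
  have d2 : ∀ u, kindX u.1 = false → ((0 : Fin 2) = u.2 → (q u).2.2.2.2 = 0) ∧
      ((0 : Fin 2) < u.2 → (q u).2.2.2 = 0) := fun u hk => by
    have := (hq u).2.1
    simp only [hk, Bool.false_eq_true, if_false] at this
    exact ⟨fun _ => (hq u).2.2 hk, fun e => (this (by omega)).2⟩
  set x : Ft n :=
    (Submodule.Quotient.mk (Col.mk (fun u => entE (par n) u.1 (q u).1)
        fun u => entE_mem u _ (a2 u)),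
      Submodule.Quotient.mk (Col.mk (fun u => entE (par (n + 1)) u.1 (q u).2.1)
        fun u => entE_mem u _ (b2 u)),
      Col.mk (fun u => entZ (par n) u.1 (q u).2.2.1) fun u => entZ_mem u _ (c2 u),
      Col.mk (fun u => entZ (par (n + 1)) u.1 (q u).2.2.2) fun u => entZ_mem u _ (d2 u)) with hx
  have hco : ∀ u, coord n u x = q u := fun u => by
    rw [hx, coord_apply, coE_mk, coE_mk, coZ_apply, coZ_apply, Col.val_mk, Col.val_mk,
      Col.val_mk, Col.val_mk]
    obtain ⟨τ, i⟩ := u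
    cases τ with
    | X a b s =>
      by_cases hab : a = 0 ∧ b = 1
      · obtain ⟨rfl, rfl⟩ := hab
        have := (hq (vX 0 1 i s)).2.1
        simp only [kindX, if_true] at this
        simp only [entE, entZ, and_self, if_true, cd_X, c01_gP, map_zero]
        refine Prod.ext rfl (Prod.ext rfl (Prod.ext ?_ ?_))
        · exact this.1.symm
        · exact this.2.1.symm
      · rw [h0 (Tau.X a b s, i) hab]
        simp [cd_irrelevant (τ := Tau.X a b s) hab]
    | Z s => simp [entE, entZ, cd_W, cd_Z, c01_gP, lam2_wP]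
  refine ⟨⟨cut n x, cut_mem n x⟩, fun u => ?_⟩
  show coord n u (cut n x) = q u
  rw [coord_cut, hco, (hq u).1]

theorem coord_eq {n : ℕ} {x y : TT n} (h : ∀ u, coord n u x.1 = coord n u y.1) : x = y := by
  refine Subtype.ext (sub_eq_zero.1 (coord_ext fun u => ?_))
  rw [map_sub, h, sub_self]

theorem aug_vec (x : TT 0) (p : Fin 2 × Fin 2) :
    (aug x : C0).vec p = (coord 0 (supp0 p) x.1).1.1 := by
  obtain ⟨f, hf⟩ : ∃ f : Col (iota0 (qX 1 0)), Submodule.Quotient.mk f = x.1.1 :=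
    Submodule.Quotient.mk_surjective _ x.1.1
  show (augE x.1.1).vec p = (coE 1 0 (supp0 p) x.1.1).1
  rw [← hf]
  show (Col.lift (qX 1 0) (C0.of (Pi.single ((0 : Fin 2), (1 : Fin 2)) (1 : ℂ))) f).vec p =
    (cd (supp0 p).1 (Tau.X 0 1 0) (f.val (supp0 p))).1
  rw [Col.lift_apply, c0_smul]
  show Matrix.mulVec _ (Pi.single ((0 : Fin 2), (1 : Fin 2)) (1 : ℂ)) p = _
  rw [Matrix.mulVec_single_one, Matrix.col_apply, chi_apply,
    show supp0 ((0 : Fin 2), (1 : Fin 2)) = qX 1 0 from rfl, Col.toAP_val, if_pos rfl]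
  obtain ⟨s, i⟩ := p
  rcases fin2_cases s with rfl | rfl
  · rcases H_qX_cases (f.mem (vX 0 1 i 0)) with h | ⟨-, G, -, h, -⟩
    · rw [show supp0 (0, i) = vX 0 1 i 0 from rfl, h, map_zero, map_zero]; rfl
    · rw [show supp0 (0, i) = vX 0 1 i 0 from rfl, h]
      show lamM 0 0 (mX 0 0 G) = (cd (Tau.X 0 1 0) (Tau.X 0 1 0) (mX 0 0 G)).1
      rw [lamM00_mX, cd_X, c01_apply]
      simp [ev0, Polynomial.aevalTower, Polynomial.eval₂_at_zero, Polynomial.coeff_zero_eq_eval_zero]
  · obtain ⟨w, -, h⟩ := H_qX_Z (f.mem (vZ i 0))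
    rw [show supp0 (1, i) = vZ i 0 from rfl, h]
    show lamM 1 0 (mW 0 0 w) = (cd (Tau.Z 0) (Tau.X 0 1 0) (mW 0 0 w)).1
    rw [lamM10_mW, cd_W, lamW_eq]

theorem supp0_or (u : Vtx 2) (h : Relevant u.1) (hs : arrV u.1 = 0) : ∃ p, supp0 p = u := by
  obtain ⟨τ, i⟩ := u
  cases τ with
  | X a b s => obtain ⟨rfl, rfl⟩ := h; obtain rfl : s = 0 := hs; exact ⟨(0, i), rfl⟩
  | Z s => obtain rfl : s = 0 := hs; exact ⟨(1, i), rfl⟩

theorem supp0_arrV (p : Fin 2 × Fin 2) : arrV (supp0 p).1 = 0 ∧ Relevant (supp0 p).1 := by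
  obtain ⟨s, i⟩ := p
  rcases fin2_cases s with rfl | rfl
  · exact ⟨rfl, rfl, rfl⟩
  · exact ⟨rfl, trivial⟩

theorem coord_irrelevant {n : ℕ} {u : Vtx 2} (h : ¬Relevant u.1) (x : Ft n) :
    coord n u x = 0 := by
  obtain ⟨f, hf⟩ := Submodule.Quotient.mk_surjective _ x.1
  obtain ⟨g, hg⟩ := Submodule.Quotient.mk_surjective _ x.2.1
  rw [coord_apply, ← hf, ← hg, coE_mk, coE_mk, coZ_apply, coZ_apply, cd_irrelevant h,
    cd_irrelevant h, cd_irrelevant h, cd_irrelevant h]
  rfl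

theorem valid_zero (k : Bool) (i : Fin 2) (n : ℕ) : Valid k i n 0 := by
  refine ⟨?_, ?_, fun _ => rfl⟩
  · simp [cutM]
  · split_ifs
    · exact ⟨rfl, rfl, rfl, fun _ => ⟨rfl, rfl⟩⟩
    · exact fun _ => ⟨rfl, rfl⟩

theorem valid_fst (k : Bool) (i : Fin 2) (c : ℂ) : Valid k i 0 ((c, 0), 0, 0, 0) := by
  refine ⟨?_, ?_, fun _ => rfl⟩
  · simp [cutM]
  · split_ifs
    · exact ⟨rfl, rfl, rfl, fun _ => ⟨rfl, rfl⟩⟩
    · exact fun _ => ⟨rfl, rfl⟩

/-- exactness of the resolution, from exactness of the model -/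
theorem specResExact (hM : SpecModel) : SpecResExact := by
  classical
  obtain ⟨m0, m2, m1, m3⟩ := hM
  refine ⟨fun c => ?_, fun x => ⟨fun hx => ?_, ?_⟩, fun n x => ⟨fun hx => ?_, ?_⟩⟩
  · let q : Vtx 2 → Quad := fun u => if h : ∃ p, supp0 p = u then
      (((c : C0).vec h.choose, 0), 0, 0, 0) else 0
    obtain ⟨x, hx⟩ := realise 0 q
      (fun u => by
        simp only [q]; split_ifs with h
        exacts [valid_fst _ _ _, valid_zero _ _ _])
      (fun u hu => by
        simp only [q]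
        rw [dif_neg]
        rintro ⟨p, rfl⟩
        exact hu (supp0_arrV p).2)
    refine ⟨x, show (aug x : C0) = c from ?_⟩
    refine (funext fun p => ?_ : (aug x : C0).vec = (c : C0).vec)
    rw [aug_vec, hx]
    have h : ∃ p', supp0 p' = supp0 p := ⟨p, rfl⟩
    simp only [q]
    rw [dif_pos h]
    exact congrArg (c : C0).vec (supp0_injective h.choose_spec)
  · have key : ∀ u, Relevant u.1 →
        ∃ y, Valid (kindX u.1) u.2 1 y ∧ dM (kindX u.1) (arrV u.1) 0 y = coord 0 u x.1 :=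
      fun u hu => by
        refine m0 _ _ _ _ (valid_coord 0 u x) ?_
        unfold augM
        split_ifs with hs
        · obtain ⟨p, rfl⟩ := supp0_or u hu hs
          rw [← aug_vec, hx]; rfl
        · rfl
    choose y hy hy' using key
    obtain ⟨z, hz⟩ := realise 1 (fun u => if h : Relevant u.1 then y u h else 0)
      (fun u => by
        by_cases h : Relevant u.1
        · rw [dif_pos h]; exact hy u h
        · rw [dif_neg h]; exact valid_zero _ _ _)
      (fun u h => dif_neg h)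
    refine ⟨z, coord_eq fun u => ?_⟩
    by_cases h : Relevant u.1
    · rw [coord_dd, hz, dif_pos h, hy']
    · rw [coord_irrelevant h, coord_irrelevant h]
  · rintro ⟨z, rfl⟩
    refine (funext fun p => ?_ : (aug (dd 0 z) : C0).vec = C0.vec 0)
    rw [aug_vec, coord_dd]
    have h := m1 (kindX (supp0 p).1) (arrV (supp0 p).1) _ _ (valid_coord 1 (supp0 p) z)
    rw [augM, if_pos (supp0_arrV p).1] at h
    exact h
  · have key : ∀ u, ∃ y, Valid (kindX u.1) u.2 (n + 2) y ∧
        dM (kindX u.1) (arrV u.1) (n + 1) y = coord (n + 1) u x.1 := fun u => by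
      refine m3 _ _ _ n _ (valid_coord (n + 1) u x) ?_
      rw [← coord_dd, hx]
      exact map_zero _
    choose y hy hy' using key
    obtain ⟨z, hz⟩ := realise (n + 2) (fun u => if Relevant u.1 then y u else 0)
      (fun u => by
        by_cases h : Relevant u.1
        · rw [if_pos h]; exact hy u
        · rw [if_neg h]; exact valid_zero _ _ _)
      (fun u h => if_neg h)
    refine ⟨z, coord_eq fun u => ?_⟩
    by_cases h : Relevant u.1
    · rw [coord_dd, hz, if_pos h, hy']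
    · rw [coord_irrelevant h, coord_irrelevant h]
  · rintro ⟨z, rfl⟩
    refine coord_eq fun u => ?_
    rw [coord_dd, coord_dd]
    exact (m2 _ _ _ n _ (valid_coord (n + 2) u z)).trans (map_zero _).symm

end

end Vale.Agent.P195.C0E
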