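import Vale.Agent.P195.RCols

/-!
`C` has no self-extensions: induce `C₀` from the level zero of `R`, and compare `C` with the
induced module, the kernel of the comparison living at the level one, where the spectrum is
disjoint from that of `C`.
-/

namespace Vale.Agent.P195

open CategoryTheory MulOpposite

noncomputable section

namespace RShapiro

open RCols

/-! ### pencils on `C₀` -/

/-- the vertex of `C₀` of the two kinds -/
def tau0 (a : Fin 2) : Tau 2 := if a = 0 then Tau.X 0 1 0 else Tau.Z 0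

theorem supp0_eq (a j : Fin 2) : supp0 (a, j) = (tau0 a, j) := by
  fin_cases a <;> rfl

/-- the action of a matrix unit on `C₀` -/
theorem single_smul_vec (τ : Tau 2) (i i' : Fin 2) (m : Mat)
    (h : m ∈ H (iota0 (τ, i)) (iota0 (τ, i'))) (x : C0) (p : Fin 2 × Fin 2) :
    ((Cor.single (τ, i) (τ, i') m h : AP) • x).vec p =
      if supp0 p = (τ, i) then lamM p.1 p.1 m * x.vec (p.1, i') else 0 := by
  rw [c0_smul]
  show ∑ q, chi (Cor.single (τ, i) (τ, i') m h) p q * x.vec q = _
  simp only [chi_apply, Cor.val_single]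
  split_ifs with hp
  · obtain ⟨a, j⟩ := p
    rw [supp0_eq, Prod.mk.injEq] at hp
    obtain ⟨ha, rfl⟩ := hp
    rw [Finset.sum_eq_single (a, i'), supp0_eq, supp0_eq, ha, Matrix.single_apply_same]
    · intro q _ hq
      rw [Matrix.single_apply_of_ne, map_zero, zero_mul]
      exact fun e => hq (supp0_injective (e.2.symm.trans (by rw [supp0_eq, ha])))
    · exact fun h' => absurd (Finset.mem_univ _) h'
  · refine Finset.sum_eq_zero fun q _ => ?_
    rw [Matrix.single_apply_of_ne, map_zero, zero_mul]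
    exact fun e => hp e.1.symm

theorem idem_smul_vec (τ : Tau 2) (i : Fin 2) (x : C0) (p : Fin 2 × Fin 2) :
    (idem iota0 (τ, i) • x).vec p = if supp0 p = (τ, i) then x.vec p else 0 := by
  rw [idem, single_smul_vec]
  split_ifs with hp
  · obtain ⟨a, j⟩ := p
    rw [supp0_eq, Prod.mk.injEq] at hp
    obtain ⟨-, rfl⟩ := hp
    rw [lamM_one, one_mul]
  · rfl

/-- an arrow of a Kronecker pair acting by a non-zero scalar is bijective on `C₀` -/
theorem bij_single (τ : Tau 2) (m : Mat) (h : m ∈ H (iota0 (τ, 0)) (iota0 (τ, 1))) {c : ℂ}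
    (hc : c ≠ 0) (hm : ∀ a, lamM a a m = c) :
    BijOnComp (sysP.f0 τ) (sysP.f1 τ) (Cor.single (τ, 0) (τ, 1) m h : AP)
      (ModuleCat.of AP C0) := by
  refine ⟨fun y hy h0 => ?_, fun x hx => ?_⟩
  · let y' : C0 := y
    have hy' : idem iota0 (τ, 1) • y' = y' := hy
    have h0' : (Cor.single (τ, 0) (τ, 1) m h : AP) • y' = 0 := h0
    show y' = 0
    refine funext fun p => ?_
    show y'.vec p = 0
    rw [← hy', idem_smul_vec]
    split_ifs with hp
    · obtain ⟨a, j⟩ := p
      rw [supp0_eq, Prod.mk.injEq] at hp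
      obtain ⟨ha, rfl⟩ := hp
      have hk : ((Cor.single (τ, 0) (τ, 1) m h : AP) • y').vec (a, 0) = 0 := by
        rw [h0']; rfl
      rw [single_smul_vec, if_pos (by rw [supp0_eq, ha]), hm] at hk
      exact (mul_eq_zero.1 hk).resolve_left hc
    · rfl
  · let x' : C0 := x
    have hx' : idem iota0 (τ, 0) • x' = x' := hx
    let y' : C0 := C0.of fun p => if supp0 p = (τ, 1) then c⁻¹ * x'.vec (p.1, 0) else 0
    refine ⟨y', ?_, ?_⟩
    · show idem iota0 (τ, 1) • y' = y'
      refine funext fun p => ?_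
      show (idem iota0 (τ, 1) • y').vec p = y'.vec p
      rw [idem_smul_vec]
      split_ifs with hp
      · rfl
      · exact (if_neg hp).symm
    · show (Cor.single (τ, 0) (τ, 1) m h : AP) • y' = x'
      refine funext fun p => ?_
      show ((Cor.single (τ, 0) (τ, 1) m h : AP) • y').vec p = x'.vec p
      rw [single_smul_vec]
      conv_rhs => rw [← hx', idem_smul_vec]
      split_ifs with hp
      · obtain ⟨a, j⟩ := p
        rw [supp0_eq, Prod.mk.injEq] at hp
        obtain ⟨ha, rfl⟩ := hp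
        show lamM a a m * (if supp0 (a, 1) = (τ, 1) then c⁻¹ * x'.vec (a, 0) else 0) = _
        rw [if_pos (by rw [supp0_eq, ha]), hm, ← mul_assoc, mul_inv_cancel₀ hc, one_mul]
      · rfl

theorem lamM_dg_zP (a : Fin 2) : lamM a a (dg zP) = 0 := by
  fin_cases a <;> simp [lamM, dg_apply, ev0, zP]

theorem pen_eq (τ : Tau 2) (q : ℂ) :
    sysP.pen τ q = Cor.single (τ, 0) (τ, 1) (dg zP - q • 1)
      (Submodule.sub_mem _ (H_z IsShift.iota0 τ)
        (Submodule.smul_mem _ q (H_s IsShift.iota0 τ))) := by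
  apply Cor.ext
  show (sysP.t τ - q • sysP.s τ).val = _
  rw [Cor.val_sub, Cor.val_smul, Cor.val_single]
  show Matrix.single (τ, 0) (τ, 1) (dg zP) - q • Matrix.single (τ, 0) (τ, 1) (1 : Mat) = _
  ext u w : 1
  simp only [Matrix.sub_apply, Matrix.smul_apply, Matrix.single_apply]
  split_ifs <;> simp

theorem bij_pen (τ : Tau 2) {q : ℂ} (hq : q ≠ 0) :
    BijOnComp (sysP.f0 τ) (sysP.f1 τ) (sysP.pen τ q) (ModuleCat.of AP C0) := by
  rw [pen_eq]
  refine bij_single τ _ _ (neg_ne_zero.2 hq) fun a => ?_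
  rw [map_sub, map_smul, lamM_dg_zP, lamM_one, smul_eq_mul, mul_one, zero_sub]

theorem bij_s (τ : Tau 2) :
    BijOnComp (sysP.f0 τ) (sysP.f1 τ) (sysP.s τ) (ModuleCat.of AP C0) :=
  bij_single τ 1 (H_s IsShift.iota0 τ) one_ne_zero lamM_one

/-! ### `C₀` pulled back to the levels -/

/-- the projection to a level -/
def projLev (l : Fin 5) : RR →+* AP :=
  ((Pi.evalRingHom (fun _ : Fin 5 => AP) l).comp (RingHom.fst (Fin 5 → AP) AX)).comp
    (TrivSqZeroExt.fstHom ℤ RD RB).toRingHom

theorem projLev_apply (l : Fin 5) (r : RR) : projLev l r = r.fst.1 l := rfl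

theorem projLev_jLev (l k : Fin 5) (a : AP) :
    projLev l (jLev k a) = if l = k then a else 0 := by
  show (Pi.single k a : Fin 5 → AP) l = _
  exact Pi.single_apply k a l

theorem projLev_jTop (l : Fin 5) (a : AX) : projLev l (jTop a) = 0 := rfl

theorem projLev_smul (l : Fin 5) (q : ℂ) (r : RR) : projLev l (q • r) = q • projLev l r := rfl

theorem projLev_pen (l : Fin 5) (τ : Tau 2) (q : ℂ) :
    projLev l (sysR.pen (some l, τ) q) = sysP.pen τ q := by
  show projLev l (jLev l (sysP.t τ) - q • jLev l (sysP.s τ)) = _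
  rw [map_sub, projLev_smul, projLev_jLev, projLev_jLev, if_pos rfl, if_pos rfl]
  rfl

theorem projLev_comp_ne {l : Fin 5} {x : Option (Fin 5)} (h : x ≠ some l) (τ : Tau 2) :
    projLev l (sysR.f0 (x, τ)) = 0 ∧ projLev l (sysR.f1 (x, τ)) = 0 := by
  rcases x with _ | k
  · exact ⟨projLev_jTop l _, projLev_jTop l _⟩
  · have hk : l ≠ k := fun e => h (by rw [e])
    constructor
    · show projLev l (jLev k (sysP.f0 τ)) = 0
      rw [projLev_jLev, if_neg hk]
    · show projLev l (jLev k (sysP.f1 τ)) = 0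
      rw [projLev_jLev, if_neg hk]

/-- `C₀` at a level -/
def CL (_l : Fin 5) : Type := C0

instance (l : Fin 5) : AddCommGroup (CL l) := inferInstanceAs (AddCommGroup C0)
instance clModule (l : Fin 5) : Module RR (CL l) := Module.compHom (R := AP) C0 (projLev l)

/-- `C` at the level `l` -/
abbrev ModL (l : Fin 5) : ModuleCat.{0} RR := ModuleCat.of RR (CL l)

theorem bij_pull (l : Fin 5) (e0 e1 a : RR)
    (h : BijOnComp (projLev l e0) (projLev l e1) (projLev l a) (ModuleCat.of AP C0)) :
    BijOnComp e0 e1 a (ModL l) :=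
  ⟨fun y h1 h2 => h.1 y h1 h2, fun x hx => h.2 x hx⟩

theorem bij_zero {e0 e1 a : AP} (h0 : e0 = 0) (h1 : e1 = 0) :
    BijOnComp e0 e1 a (ModuleCat.of AP C0) := by
  subst h0 h1
  refine ⟨fun y hy _ => ?_, fun x hx => ⟨0, smul_zero _, ?_⟩⟩
  · rw [← hy, zero_smul]
  · rw [smul_zero, ← hx, zero_smul]

theorem bij_pen_lev (l : Fin 5) (x : Option (Fin 5)) (τ : Tau 2) (q : ℂ)
    (hq : x = some l → q ≠ 0) :
    BijOnComp (sysR.f0 (x, τ)) (sysR.f1 (x, τ)) (sysR.pen (x, τ) q) (ModL l) := by
  refine bij_pull l _ _ _ ?_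
  by_cases hx : x = some l
  · subst hx
    rw [projLev_pen]
    show BijOnComp (projLev l (jLev l (sysP.f0 τ))) (projLev l (jLev l (sysP.f1 τ))) _ _
    rw [projLev_jLev, projLev_jLev, if_pos rfl, if_pos rfl]
    exact bij_pen τ (hq rfl)
  · exact bij_zero (projLev_comp_ne hx τ).1 (projLev_comp_ne hx τ).2

theorem bij_s_lev (l : Fin 5) (x : Option (Fin 5)) (τ : Tau 2) :
    BijOnComp (sysR.f0 (x, τ)) (sysR.f1 (x, τ)) (sysR.s (x, τ)) (ModL l) := by
  refine bij_pull l _ _ _ ?_
  by_cases hx : x = some l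
  · subst hx
    show BijOnComp (projLev l (jLev l (sysP.f0 τ))) (projLev l (jLev l (sysP.f1 τ)))
      (projLev l (jLev l (sysP.s τ))) _
    rw [projLev_jLev, projLev_jLev, projLev_jLev, if_pos rfl, if_pos rfl, if_pos rfl]
    exact bij_s τ
  · exact bij_zero (projLev_comp_ne hx τ).1 (projLev_comp_ne hx τ).2

theorem modL_finite (l : Fin 5) : Module.Finite RR (CL l) := by
  obtain ⟨⟨s, hs⟩⟩ := cr_finite
  have key : ∀ (x : CR), x ∈ Submodule.span RR (s : Set CR) →
      (show CL l from x) ∈ Submodule.span RR (show Set (CL l) from (s : Set CR)) := by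
    intro x hx
    induction hx using Submodule.span_induction with
    | mem x hx => exact Submodule.subset_span hx
    | zero => exact Submodule.zero_mem _
    | add x y _ _ h1 h2 => exact Submodule.add_mem _ h1 h2
    | smul r x _ h =>
      have e : (show CL l from r • x) = jLev l (projZero r) • (show CL l from x) := by
        show projZero r • (show C0 from x) = projLev l (jLev l (projZero r)) • (show C0 from x)
        rw [projLev_jLev, if_pos rfl]
      rw [e]
      exact Submodule.smul_mem _ _ h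
  exact ⟨⟨(show Finset (CL l) from s), eq_top_iff.2 fun x _ => key x (by rw [hs]; trivial)⟩⟩

/-- the spectral data separating the level one from `C` -/
def sig : Option (Fin 5) → Set ℂ
  | none => posSet
  | some l => if l = 0 then posSet else natSet

theorem posSet_subset : posSet ⊆ natSet := by
  rintro _ ⟨n, rfl⟩
  exact ⟨n + 1, rfl⟩

theorem zero_mem_natSet : (0 : ℂ) ∈ natSet := ⟨0, Nat.cast_zero⟩

theorem ne_zero_of_posSet {q : ℂ} (h : q ∈ posSet) : q ≠ 0 := by
  obtain ⟨n, rfl⟩ := h
  exact Nat.cast_ne_zero.2 (Nat.succ_ne_zero n)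

theorem sig_closed : Closed sig := by
  refine ⟨fun l => ?_, fun p hp => ?_, ?_, fun x => ?_⟩
  · show sig (some l.castSucc) ⊆ sig (some l.succ)
    simp only [sig, Fin.succ_ne_zero, if_false]
    split_ifs
    · exact posSet_subset
    · exact subset_rfl
  · obtain ⟨n, rfl⟩ : p ∈ natSet := by
      simp only [sig] at hp
      split_ifs at hp
      · exact posSet_subset hp
      · exact hp
    exact ⟨n, by push_cast; ring⟩
  · simp [sig]
  · rcases x with _ | l
    · exact posSet_subset
    · simp only [sig]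
      split_ifs
      · exact posSet_subset
      · exact subset_rfl

theorem ev_lev_one (hOrth : SpecOrth) (hReg : SpecRRegular) [Module.Finite ℂ RR] (n : ℕ) :
    EV n (ModL 1) ModC := by
  have hne : ∀ {x : Option (Fin 5)}, x = some 1 → sig x = natSet := by
    rintro x rfl
    show (if (1 : Fin 5) = 0 then posSet else natSet) = natSet
    rw [if_neg (by decide)]
  refine hOrth RR (Option (Fin 5) × Tau 2) sysR (fun x => sig x.1) (hReg sig sig_closed)
    (ModL 1) ModC ?_ ?_ n
  · refine ⟨modL_finite 1, fun i => bij_s_lev 1 i.1 i.2, fun i q hq => ?_⟩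
    refine bij_pen_lev 1 i.1 i.2 q fun h e => hq ?_
    show q ∈ sig i.1
    rw [hne h, e]
    exact zero_mem_natSet
  · intro i q hq
    refine bij_pen_lev 0 i.1 i.2 q fun h => ?_
    change q ∈ sig i.1 at hq
    rw [h] at hq
    exact ne_zero_of_posSet hq

/-- `C` is in every spectral class containing `0` at the level zero -/
theorem specCCl' : SpecCCl := by
  intro σ _ h0
  refine ⟨cr_finite, fun i => bij_s_lev 0 i.1 i.2, fun i q hq => bij_pen_lev 0 i.1 i.2 q fun h e => hq ?_⟩
  show q ∈ σ i.1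
  rw [h, e]
  exact h0

/-! ### induction from the level zero -/

variable (X : ModuleCat.{0} AP)

/-- the induced module: two glued copies, at the levels zero and one -/
def IndT : Type := X × X

instance : AddCommGroup (IndT X) := inferInstanceAs (AddCommGroup (X × X))

variable {X}

/-- the level zero part -/
def IndT.lo (z : IndT X) : X := Prod.fst (z : X × X)
/-- the level one part -/
def IndT.hi (z : IndT X) : X := Prod.snd (z : X × X)
/-- constructor -/
def IndT.mk (x y : X) : IndT X := ((x, y) : X × X)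

theorem IndT.ext {z w : IndT X} (h1 : z.lo = w.lo) (h2 : z.hi = w.hi) : z = w :=
  Prod.ext h1 h2

/-- level zero coefficient -/
def c00 (r : RR) : AP := r.fst.1 0
/-- level one coefficient -/
def c11 (r : RR) : AP := r.fst.1 1
/-- edge coefficient -/
def c10 (r : RR) : AP := r.snd.id_ 0

theorem c00_mul (r s : RR) : c00 (r * s) = c00 r * c00 s := rfl
theorem c11_mul (r s : RR) : c11 (r * s) = c11 r * c11 s := rfl

theorem c10_mul (r s : RR) : c10 (r * s) = c11 r * c10 s + c10 r * c00 s := by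
  show (r * s).snd.id_ 0 = _
  rw [TrivSqZeroExt.snd_mul, RB.id_add, Pi.add_apply, RCols.id_smul, RCols.id_op_smul]
  rfl

instance indModule : Module RR (IndT X) where
  smul r z := IndT.mk (c00 r • z.lo) (c10 r • z.lo + c11 r • z.hi)
  one_smul z := IndT.ext (one_smul AP z.lo) (by
    show (0 : AP) • z.lo + (1 : AP) • z.hi = z.hi
    rw [zero_smul, one_smul, zero_add])
  mul_smul r s z := IndT.ext (mul_smul (c00 r) (c00 s) z.lo) (by
    show c10 (r * s) • z.lo + c11 (r * s) • z.hi =
      c10 r • c00 s • z.lo + c11 r • (c10 s • z.lo + c11 s • z.hi)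
    rw [c10_mul, c11_mul, add_smul, smul_add, mul_smul, mul_smul, mul_smul]
    abel)
  smul_zero r := IndT.ext (smul_zero (c00 r)) (by
    show c10 r • (0 : X) + c11 r • (0 : X) = 0
    rw [smul_zero, smul_zero, add_zero])
  smul_add r z w := IndT.ext (smul_add (c00 r) z.lo w.lo) (by
    show c10 r • (z.lo + w.lo) + c11 r • (z.hi + w.hi) =
      (c10 r • z.lo + c11 r • z.hi) + (c10 r • w.lo + c11 r • w.hi)
    rw [smul_add, smul_add]
    abel)
  add_smul r s z := IndT.ext (add_smul (c00 r) (c00 s) z.lo) (by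
    show (c10 r + c10 s) • z.lo + (c11 r + c11 s) • z.hi =
      (c10 r • z.lo + c11 r • z.hi) + (c10 s • z.lo + c11 s • z.hi)
    rw [add_smul, add_smul]
    abel)
  zero_smul z := IndT.ext (zero_smul AP z.lo) (by
    show (0 : AP) • z.lo + (0 : AP) • z.hi = 0
    rw [zero_smul, zero_smul, add_zero])

theorem ind_smul (r : RR) (z : IndT X) :
    r • z = IndT.mk (c00 r • z.lo) (c10 r • z.lo + c11 r • z.hi) := rfl

variable (X) in
/-- induction -/
abbrev Ind : ModuleCat.{0} RR := ModuleCat.of RR (IndT X)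

variable {Y : ModuleCat.{0} AP}

/-- induction on maps -/
def indMap (f : X →ₗ[AP] Y) : Ind X →ₗ[RR] Ind Y where
  toFun z := IndT.mk (f (IndT.lo z)) (f (IndT.hi z))
  map_add' z w := IndT.ext (map_add f (IndT.lo z) (IndT.lo w))
    (map_add f (IndT.hi z) (IndT.hi w))
  map_smul' r z := IndT.ext (map_smul f (c00 r) (IndT.lo z)) (by
    show f (c10 r • IndT.lo z + c11 r • IndT.hi z) =
      c10 r • f (IndT.lo z) + c11 r • f (IndT.hi z)
    rw [map_add, map_smul, map_smul])

theorem mul_edge_one (r : RR) : r * edgeId 0 1 = edgeId 0 (c11 r) := by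
  apply TrivSqZeroExt.ext
  · rw [TrivSqZeroExt.fst_mul, edgeId, TrivSqZeroExt.fst_inr, mul_zero, edgeId,
      TrivSqZeroExt.fst_inr]
  · rw [TrivSqZeroExt.snd_mul, edgeId, TrivSqZeroExt.fst_inr, TrivSqZeroExt.snd_inr, edgeId,
      TrivSqZeroExt.snd_inr, MulOpposite.op_zero, zero_smul, add_zero]
    refine RB.ext (funext fun i => ?_) ?_ ?_
    · rw [RCols.id_smul, RB.id_mk, RB.id_mk]
      rcases eq_or_ne i 0 with rfl | h
      · rw [Pi.single_eq_same, Pi.single_eq_same, mul_one]
        rfl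
      · rw [Pi.single_eq_of_ne h, Pi.single_eq_of_ne h, mul_zero]
    · rw [RCols.uu_smul, RB.uu_mk, RB.uu_mk, smul_zero]
    · rw [RCols.pp_smul, RB.pp_mk, RB.pp_mk, smul_zero]

theorem mul_lev_one (r : RR) : r * jLev 0 1 = jLev 0 (c00 r) + edgeId 0 (c10 r) := by
  apply TrivSqZeroExt.ext
  · rw [TrivSqZeroExt.fst_mul, jLev_apply, TrivSqZeroExt.fst_inl, jLev_apply,
      TrivSqZeroExt.fst_add, TrivSqZeroExt.fst_inl, edgeId, TrivSqZeroExt.fst_inr, add_zero]
    refine Prod.ext (funext fun i => ?_) ?_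
    · rw [Prod.fst_mul, Pi.mul_apply, dLev_fst, dLev_fst]
      rcases eq_or_ne i 0 with rfl | h
      · rw [Pi.single_eq_same, Pi.single_eq_same, mul_one]
        rfl
      · rw [Pi.single_eq_of_ne h, Pi.single_eq_of_ne h, mul_zero]
    · rw [Prod.snd_mul, dLev_snd, dLev_snd, mul_zero]
  · rw [TrivSqZeroExt.snd_mul, jLev_apply, TrivSqZeroExt.snd_inl, TrivSqZeroExt.fst_inl,
      smul_zero, zero_add, jLev_apply, TrivSqZeroExt.snd_add, TrivSqZeroExt.snd_inl, zero_add,
      edgeId, TrivSqZeroExt.snd_inr]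
    refine RB.ext (funext fun i => ?_) ?_ ?_
    · rw [RCols.id_op_smul, RB.id_mk, dLev_fst]
      rcases eq_or_ne i 0 with rfl | h
      · rw [Fin.castSucc_zero, Pi.single_eq_same, Pi.single_eq_same, mul_one]
        rfl
      · rw [Pi.single_eq_of_ne h, Pi.single_eq_of_ne (by simpa using h), mul_zero]
    · rw [RCols.uu_op_smul, RB.uu_mk, dLev_fst, Pi.single_eq_of_ne (by decide)]
      exact zero_smul APᵐᵒᵖ r.snd.uu
    · rw [RCols.pp_op_smul, RB.pp_mk, dLev_snd]
      exact zero_smul AXᵐᵒᵖ r.snd.pp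

variable {M N : ModuleCat.{0} RR}

theorem lev_smul_comp (x : resC (jLev 0) M) : jLev 0 1 • (x.1 : M) = x.1 := x.2

theorem lev_smul_lev (a : AP) (x : resC (jLev 0) M) :
    ((a • x : resC (jLev 0) M).1 : M) = jLev 0 a • (x.1 : M) := rfl

theorem edge_smul (a : AP) (x : resC (jLev 0) M) :
    edgeId 0 1 • ((a • x : resC (jLev 0) M).1 : M) = edgeId 0 a • (x.1 : M) := by
  rw [lev_smul_lev, ← mul_smul, show jLev 0 a = jLev (Fin.castSucc 0) a from rfl,
    RCols.edgeId_mul_jLev, one_mul]

/-- the map out of an induced module -/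
def fromRes (g : X →ₗ[AP] resC (jLev 0) M) : Ind X →ₗ[RR] M where
  toFun z := (g (IndT.lo z)).1 + edgeId 0 1 • (g (IndT.hi z)).1
  map_add' z w := by
    show (g (IndT.lo z + IndT.lo w)).1 + edgeId 0 1 • (g (IndT.hi z + IndT.hi w)).1 = _
    rw [map_add, map_add]
    show ((g (IndT.lo z)).1 + (g (IndT.lo w)).1) +
      edgeId 0 1 • ((g (IndT.hi z)).1 + (g (IndT.hi w)).1) = _
    rw [smul_add]
    abel
  map_smul' r z := by
    show (g (c00 r • IndT.lo z)).1 +
      edgeId 0 1 • (g (c10 r • IndT.lo z + c11 r • IndT.hi z)).1 =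
        r • ((g (IndT.lo z)).1 + edgeId 0 1 • (g (IndT.hi z)).1)
    rw [map_add, map_smul, map_smul, map_smul, smul_add r, ← mul_smul r (edgeId 0 1),
      mul_edge_one]
    show jLev 0 (c00 r) • (g (IndT.lo z)).1 +
      edgeId 0 1 • ((c10 r • g (IndT.lo z)).1 + (c11 r • g (IndT.hi z)).1) = _
    rw [smul_add, edge_smul, edge_smul, ← add_assoc, ← add_smul, ← mul_lev_one, mul_smul,
      lev_smul_comp]

/-- the restriction of a map out of an induced module -/
def toRes (g : Ind X →ₗ[RR] M) : X →ₗ[AP] resC (jLev 0) M where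
  toFun x := ⟨g (IndT.mk x 0), by
    rw [mem_comp, ← map_smul]
    refine congrArg g (IndT.ext (one_smul AP x) ?_)
    show (0 : AP) • x + (Pi.single (0 : Fin 5) (1 : AP) : Fin 5 → AP) 1 • (0 : X) = 0
    rw [zero_smul, smul_zero, add_zero]⟩
  map_add' x y := Subtype.ext (by
    show g (IndT.mk (x + y) 0) = g (IndT.mk x 0) + g (IndT.mk y 0)
    rw [← map_add]
    exact congrArg g (IndT.ext rfl (add_zero (0 : X)).symm))
  map_smul' a x := Subtype.ext (by
    show g (IndT.mk (a • x) 0) = jLev 0 a • g (IndT.mk x 0)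
    rw [← map_smul]
    refine congrArg g (IndT.ext ?_ ?_).symm
    · show (Pi.single (0 : Fin 5) a : Fin 5 → AP) 0 • x = a • x
      rw [Pi.single_eq_same]
    · show (0 : AP) • x + (Pi.single (0 : Fin 5) a : Fin 5 → AP) 1 • (0 : X) = 0
      rw [zero_smul, smul_zero, add_zero])

theorem fromRes_toRes (g : Ind X →ₗ[RR] M) : fromRes (toRes g) = g := by
  refine LinearMap.ext fun z => ?_
  show g (IndT.mk (IndT.lo z) 0) + edgeId 0 1 • g (IndT.mk (IndT.hi z) 0) = g z
  rw [← map_smul, ← map_add]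
  refine congrArg g (IndT.ext ?_ ?_)
  · show IndT.lo z + (0 : AP) • IndT.hi z = IndT.lo z
    rw [zero_smul, add_zero]
  · show (0 : X) + ((Pi.single (0 : Fin 4) (1 : AP) : Fin 4 → AP) 0 • IndT.hi z +
      (0 : AP) • (0 : X)) = IndT.hi z
    rw [Pi.single_eq_same, one_smul, zero_smul, add_zero, zero_add]

theorem ind_projective (F : ModuleCat.{0} AP) [Module.Projective AP F] : Projective (Ind F) := by
  constructor
  intro M N f e he
  have hsurj : Function.Surjective (resMap (jLev 0) e.hom) := by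
    rintro ⟨y, hy⟩
    obtain ⟨x, hx⟩ := (ModuleCat.epi_iff_surjective e).1 he y
    refine ⟨⟨jLev 0 1 • x, smul_mem_comp _ _⟩, Subtype.ext ?_⟩
    show e.hom (jLev 0 1 • x) = y
    rw [map_smul, hx]
    exact hy
  obtain ⟨g0, hg0⟩ := Module.projective_lifting_property _ (toRes f.hom) hsurj
  refine ⟨ModuleCat.ofHom (fromRes g0), ModuleCat.hom_ext ?_⟩
  show e.hom ∘ₗ fromRes g0 = f.hom
  rw [← fromRes_toRes f.hom, ← hg0]
  refine LinearMap.ext fun z => ?_
  show e.hom ((g0 (IndT.lo z)).1 + edgeId 0 1 • (g0 (IndT.hi z)).1) =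
    e.hom (g0 (IndT.lo z)).1 + edgeId 0 1 • e.hom (g0 (IndT.hi z)).1
  rw [map_add, map_smul]

/-- `Ext` out of an induced module is `Ext` into the restriction -/
theorem ev_ind (V : ModuleCat.{0} RR) : ∀ (n : ℕ) (X : ModuleCat.{0} AP),
    EV (n + 1) X (resC (jLev 0) V) → EV (n + 1) (Ind X) V := by
  intro n
  induction n with
  | zero =>
    intro X h
    let π : (X →₀ AP) →ₗ[AP] X := Finsupp.linearCombination AP id
    have hπ : Function.Surjective π := Finsupp.linearCombination_id_surjective AP X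
    have hS := shortExact_mk (X := ModuleCat.of AP (LinearMap.ker π))
      (Y := ModuleCat.of AP (X →₀ AP)) (LinearMap.ker π).subtype π Subtype.val_injective hπ
      π.exact_subtype_ker_map
    have hF : Projective (Ind (ModuleCat.of AP (X →₀ AP))) := ind_projective _
    have hS' := shortExact_mk
      (indMap (X := ModuleCat.of AP (LinearMap.ker π)) (Y := ModuleCat.of AP (X →₀ AP))
        (LinearMap.ker π).subtype)
      (indMap (X := ModuleCat.of AP (X →₀ AP)) π)
      (fun z w h => IndT.ext (Subtype.ext (congrArg IndT.lo h))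
        (Subtype.ext (congrArg IndT.hi h)))
      (fun z => by
        obtain ⟨a, ha⟩ := hπ (IndT.lo z)
        obtain ⟨b, hb⟩ := hπ (IndT.hi z)
        exact ⟨IndT.mk a b, IndT.ext ha hb⟩)
      (fun z => ⟨fun hz => ⟨IndT.mk ⟨IndT.lo z, congrArg IndT.lo hz⟩
          ⟨IndT.hi z, congrArg IndT.hi hz⟩, rfl⟩,
        fun ⟨w, hw⟩ => hw ▸ IndT.ext (IndT.lo w).2 (IndT.hi w).2⟩)
    refine ev_one_of_extend hS' V (ev_of_projective le_rfl) fun f => ?_
    obtain ⟨g0, hg0⟩ := extend_of_ev_one hS (resC (jLev 0) V) h (toRes f)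
    refine ⟨fromRes g0, ?_⟩
    rw [← fromRes_toRes f, ← hg0]
    rfl
  | succ n ih =>
    intro X h
    let π : (X →₀ AP) →ₗ[AP] X := Finsupp.linearCombination AP id
    have hπ : Function.Surjective π := Finsupp.linearCombination_id_surjective AP X
    have hS := shortExact_mk (X := ModuleCat.of AP (LinearMap.ker π))
      (Y := ModuleCat.of AP (X →₀ AP)) (LinearMap.ker π).subtype π Subtype.val_injective hπ
      π.exact_subtype_ker_map
    have hP : Projective (ModuleCat.of AP (X →₀ AP)) :=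
      (IsProjective.iff_projective _).1 inferInstance
    have hF : Projective (Ind (ModuleCat.of AP (X →₀ AP))) := ind_projective _
    have hS' := shortExact_mk
      (indMap (X := ModuleCat.of AP (LinearMap.ker π)) (Y := ModuleCat.of AP (X →₀ AP))
        (LinearMap.ker π).subtype)
      (indMap (X := ModuleCat.of AP (X →₀ AP)) π)
      (fun z w h => IndT.ext (Subtype.ext (congrArg IndT.lo h))
        (Subtype.ext (congrArg IndT.hi h)))
      (fun z => by
        obtain ⟨a, ha⟩ := hπ (IndT.lo z)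
        obtain ⟨b, hb⟩ := hπ (IndT.hi z)
        exact ⟨IndT.mk a b, IndT.ext ha hb⟩)
      (fun z => ⟨fun hz => ⟨IndT.mk ⟨IndT.lo z, congrArg IndT.lo hz⟩
          ⟨IndT.hi z, congrArg IndT.hi hz⟩, rfl⟩,
        fun ⟨w, hw⟩ => hw ▸ IndT.ext (IndT.lo w).2 (IndT.hi w).2⟩)
    exact ev_right hS' V
      (ih _ (ev_left hS (resC (jLev 0) V) (ev_of_projective (by omega)) h))
      (ev_of_projective (by omega))

/-- the inclusion of the level one part -/
def inHi : ModL 1 →ₗ[RR] Ind (ModuleCat.of AP C0) where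
  toFun c := IndT.mk 0 (show C0 from c)
  map_add' c d := IndT.ext (add_zero (0 : C0)).symm rfl
  map_smul' r c := IndT.ext (smul_zero (c00 r)).symm (by
    show c11 r • (show C0 from c) = c10 r • (0 : C0) + c11 r • (show C0 from c)
    rw [smul_zero, zero_add])

/-- the projection to the level zero part -/
def prLo : Ind (ModuleCat.of AP C0) →ₗ[RR] ModC where
  toFun z := (show CR from IndT.lo z)
  map_add' _ _ := rfl
  map_smul' _ _ := rfl

theorem prLo_exact : Function.Exact inHi prLo := by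
  intro z
  exact ⟨fun hz => ⟨(show CL 1 from IndT.hi z), IndT.ext hz.symm rfl⟩,
    fun ⟨_, hc⟩ => hc ▸ rfl⟩

end RShapiro

open RShapiro RCols

/-- `C` has no self-extensions -/
theorem specCC (hSelf : SpecC0Self) (hOrth : SpecOrth) (hReg : SpecRRegular)
    (hFin : Module.Finite ℂ RR) : SpecCC := by
  intro n hn
  obtain ⟨k, rfl⟩ : ∃ k, n = k + 1 := ⟨n - 1, by omega⟩
  have hS := shortExact_mk inHi prLo (fun c d h => congrArg IndT.hi h)
    (fun c => ⟨IndT.mk (show C0 from c) 0, rfl⟩) prLo_exact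
  exact ev_right hS ModC (ev_lev_one hOrth hReg k)
    (ev_ind ModC k _ (ev_of_linearEquiv resTopEquiv (hSelf (k + 1) (by omega))))

end

end Vale.Agent.P195
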