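import Vale.Agent.P195.C0Res
import Vale.Agent.P195.RShapiro

/-!
`C₀` has no self-extensions: the cochains of its resolution with values in `C₀` (P195).
-/

namespace Vale.Agent.P195.C0E

open Matrix CategoryTheory

noncomputable section

/-! ### maps from columns into `C₀` -/

theorem single_vec {u w : Vtx 2} {p q : Fin 2 × Fin 2} (hp : supp0 p = u) (hq : supp0 q = w)
    (m : Mat) (h : m ∈ H (iota0 u) (iota0 w)) (y : C0) :
    ((Cor.single u w m h : AP) • y).vec p = lamM p.1 q.1 m * y.vec q := by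
  rw [c0_smul]
  show ∑ r, chi (Cor.single u w m h) p r * y.vec r = _
  rw [Finset.sum_eq_single q, chi_apply, Cor.val_single, hp, hq, Matrix.single_apply_same]
  · intro r _ hr
    rw [chi_apply, Cor.val_single, Matrix.single_apply_of_ne, map_zero, zero_mul]
    exact fun e => hr (supp0_injective (e.2.symm.trans hq.symm))
  · exact fun h' => absurd (Finset.mem_univ q) h'

theorem idem_vec (u : Vtx 2) (y : C0) (p : Fin 2 × Fin 2) (hy : idem iota0 u • y = y)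
    (hp : supp0 p ≠ u) : y.vec p = 0 := by
  obtain ⟨τ, i⟩ := u
  rw [← hy, RShapiro.idem_smul_vec, if_neg hp]

theorem hom_gen_idem {u : Vtx 2} (h : Col (iota0 u) →ₗ[AP] C0) :
    idem iota0 u • h (Col.gen u) = h (Col.gen u) := by
  rw [← map_smul, Col.idem_gen]

theorem hom_col_zero {u : Vtx 2} (hu : ∀ p, supp0 p ≠ u) (h : Col (iota0 u) →ₗ[AP] C0) :
    h = 0 :=
  Col.hom_ext (funext fun p => idem_vec u _ p (hom_gen_idem h) (hu p))

theorem hom_col_ext {u : Vtx 2} {p₀ : Fin 2 × Fin 2} (hp : supp0 p₀ = u)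
    {h h' : Col (iota0 u) →ₗ[AP] C0}
    (e : (h (Col.gen u)).vec p₀ = (h' (Col.gen u)).vec p₀) : h = h' := by
  refine Col.hom_ext (funext fun p => ?_)
  show (h (Col.gen u)).vec p = (h' (Col.gen u)).vec p
  by_cases hpp : p = p₀
  · rw [hpp, e]
  · have hne : supp0 p ≠ u := fun hh => hpp (supp0_injective (hh.trans hp.symm))
    rw [idem_vec u _ p (hom_gen_idem h) hne, idem_vec u _ p (hom_gen_idem h') hne]

theorem hom_map {u₀ u₁ : Vtx 2} (h : Col (iota0 u₁) →ₗ[AP] C0) (m : Mat)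
    (hm : m ∈ H (iota0 u₀) (iota0 u₁)) :
    h (Col.map m hm (Col.gen u₀)) = (Cor.single u₀ u₁ m hm : AP) • h (Col.gen u₁) := by
  have e : h = Col.lift u₁ (h (Col.gen u₁)) :=
    Col.hom_ext (Col.lift_gen u₁ _ (hom_gen_idem h)).symm
  conv_lhs => rw [e]
  rw [Col.lift_map, Col.lift_gen]
  rw [← mul_smul]
  congr 1
  exact Cor.ext (by simp [idem])

theorem qO_not_supp (j v : Fin 2) : ∀ p, supp0 p ≠ qO j v :=
  supp_ne_X 0 0 v j (fun h => absurd h.2.1 (by decide))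

theorem qX_not_supp {v : Fin 2} (hv : v ≠ 0) (j : Fin 2) : ∀ p, supp0 p ≠ qX j v :=
  supp_ne_X 0 1 v j (fun h => hv h.2.2)

theorem vZ_not_supp {v : Fin 2} (hv : v ≠ 0) (i : Fin 2) : ∀ p, supp0 p ≠ vZ i v :=
  supp_ne_Z v i hv

theorem supp_qX {v : Fin 2} (hv : v = 0) (j : Fin 2) : supp0 (0, j) = qX j v := by
  subst hv; rfl

theorem supp_vZ {v : Fin 2} (hv : v = 0) (i : Fin 2) : supp0 (1, i) = vZ i v := by
  subst hv; rfl

/-- the scalar of a map on `E(j,v)` -/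
def valE {j v : Fin 2} (γ : EE j v →ₗ[AP] C0) : ℂ :=
  (γ (Submodule.Quotient.mk (Col.gen (qX j v)))).vec (0, j)

/-- the scalar of a map on a column at `Z` -/
def valZ {i v : Fin 2} (h : Col (iota0 (vZ i v)) →ₗ[AP] C0) : ℂ :=
  (h (Col.gen (vZ i v))).vec (1, i)

theorem homE_zero {j v : Fin 2} (hv : v ≠ 0) (γ : EE j v →ₗ[AP] C0) : γ = 0 :=
  Submodule.linearMap_qext _ (by
    rw [hom_col_zero (qX_not_supp hv j) (γ ∘ₗ (LinearMap.range (rE j v)).mkQ),
      LinearMap.zero_comp])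

theorem homE_ext {j v : Fin 2} (hv : v = 0) {γ γ' : EE j v →ₗ[AP] C0} (e : valE γ = valE γ') :
    γ = γ' :=
  Submodule.linearMap_qext _ (hom_col_ext (supp_qX hv j) e)

theorem homZ_zero {i v : Fin 2} (hv : v ≠ 0) (h : Col (iota0 (vZ i v)) →ₗ[AP] C0) : h = 0 :=
  hom_col_zero (vZ_not_supp hv i) h

theorem homZ_ext {i v : Fin 2} (hv : v = 0) {h h' : Col (iota0 (vZ i v)) →ₗ[AP] C0}
    (e : valZ h = valZ h') : h = h' :=
  hom_col_ext (supp_vZ hv i) e

theorem homO_zero (j v : Fin 2)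
    (f : Col (iota0 (qO j v)) × Col (iota0 (qO j v)) →ₗ[AP] C0) : f = 0 :=
  LinearMap.prod_ext (by rw [hom_col_zero (qO_not_supp j v) (f ∘ₗ _), LinearMap.zero_comp])
    (by rw [hom_col_zero (qO_not_supp j v) (f ∘ₗ _), LinearMap.zero_comp])

/-- the map on `E(j,v)` with a given scalar -/
def homE (j v : Fin 2) (c : ℂ) : EE j v →ₗ[AP] C0 :=
  (LinearMap.range (rE j v)).liftQ
    (Col.lift (qX j v) (idem iota0 (qX j v) • C0.of (Pi.single (0, j) c))) (by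
      rintro _ ⟨g, rfl⟩
      exact LinearMap.congr_fun (homO_zero j v (Col.lift (qX j v) _ ∘ₗ rE j v)) g)

theorem valE_homE {j v : Fin 2} (hv : v = 0) (c : ℂ) : valE (homE j v c) = c := by
  show C0.vec (Col.lift (qX j v) _ (Col.gen (qX j v))) (0, j) = c
  rw [Col.lift_gen _ _ (by rw [← mul_smul, idem_mul_self]), RShapiro.idem_smul_vec,
    if_pos (supp_qX hv j)]
  show (Pi.single (0, j) c : Fin 2 × Fin 2 → ℂ) (0, j) = c
  exact Pi.single_eq_same _ _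

theorem valE_mapE {j j' v v' : Fin 2} (hv : v = 0) (hv' : v' = 0) (G : PP) (hj : j ≤ j')
    (hG : G ∈ PX 0 0 (j'.val - j.val)) (γ : EE j' v' →ₗ[AP] C0) :
    valE (γ ∘ₗ mapE (v := v) (v' := v') G hj hG) = ev0 G * valE γ := by
  show ((γ ∘ₗ (LinearMap.range (rE j' v')).mkQ)
    (Col.map (mX v v' G) (mem_XX hj hG) (Col.gen (qX j v)))).vec (0, j) = _
  rw [hom_map, single_vec (supp_qX hv j) (supp_qX hv' j')]
  subst hv hv'
  rw [lamM00_mX]
  rfl

theorem valZ_phiE {i j v w : Fin 2} (hv : v = 0) (hw : w = 0) (c : ℂ × ℂ)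
    (γ : EE j w →ₗ[AP] C0) :
    valZ (γ ∘ₗ phiE (i := i) (v := v) c) = c.1 * valE γ := by
  show ((γ ∘ₗ (LinearMap.range (rE j w)).mkQ)
    (Col.map (mW v w (wP c)) (mem_ZX c) (Col.gen (vZ i v)))).vec (1, i) = _
  rw [hom_map, single_vec (supp_vZ hv i) (supp_qX hw j)]
  subst hv hw
  rw [lamM10_mW, lamW_eq, lam2_wP]
  rfl

theorem valZ_map {i i' v v' : Fin 2} (hv : v = 0) (hv' : v' = 0) (G : PP) (hi : i ≤ i')
    (hG : G ∈ PX 0 0 (i'.val - i.val)) (h : Col (iota0 (vZ i' v')) →ₗ[AP] C0) :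
    valZ (h ∘ₗ Col.map (mZ v v' G) (mem_ZZ hi hG)) = ev0 G * valZ h := by
  show (h (Col.map (mZ v v' G) (mem_ZZ hi hG) (Col.gen (vZ i v)))).vec (1, i) = _
  rw [hom_map, single_vec (supp_vZ hv i) (supp_vZ hv' i')]
  subst hv hv'
  rw [lamM11_mZ]
  rfl

theorem ev0_zP : ev0 zP = 0 := by simp [ev0, zP]

theorem ev_one_EE (j v : Fin 2) :
    EV 1 (ModuleCat.of AP (EE j v)) (ModuleCat.of AP C0) :=
  ev_one_of_extend
    (shortExact_mk (X := ModuleCat.of AP (Col (iota0 (qO j v)) × Col (iota0 (qO j v))))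
      (Y := ModuleCat.of AP (Col (iota0 (qX j v))))
      (Z := ModuleCat.of AP (EE j v)) (rE j v) (LinearMap.range (rE j v)).mkQ (rE_injective j v)
      (Submodule.mkQ_surjective _) (LinearMap.exact_map_mkQ_range (rE j v))) _
    (ev_of_module_projective le_rfl _)
    (fun f => ⟨0, by rw [LinearMap.zero_comp]; exact (homO_zero j v f).symm⟩)

/-! ### the components of the terms -/

variable (n : ℕ)

/-- first inclusion -/
def iA : EE 1 (par n) →ₗ[AP] Ft n := LinearMap.inl AP _ _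
/-- second inclusion -/
def iB : EE 0 (par (n + 1)) →ₗ[AP] Ft n := LinearMap.inr AP _ _ ∘ₗ LinearMap.inl AP _ _
/-- third inclusion -/
def iC : Col (iota0 (vZ 1 (par n))) →ₗ[AP] Ft n :=
  LinearMap.inr AP _ _ ∘ₗ LinearMap.inr AP _ _ ∘ₗ LinearMap.inl AP _ _
/-- fourth inclusion -/
def iD : Col (iota0 (vZ 0 (par (n + 1)))) →ₗ[AP] Ft n :=
  LinearMap.inr AP _ _ ∘ₗ LinearMap.inr AP _ _ ∘ₗ LinearMap.inr AP _ _

theorem ft_decomp (x : Ft n) :
    iA n (pA n x) + iB n (pB n x) + iC n (pC n x) + iD n (pD n x) = x := by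
  simp [iA, iB, iC, iD, pA, pB, pC, pD]

variable {n}

theorem ft_hom_ext {M : Type} [AddCommGroup M] [Module AP M] {f g : Ft n →ₗ[AP] M}
    (hA : f ∘ₗ iA n = g ∘ₗ iA n) (hB : f ∘ₗ iB n = g ∘ₗ iB n) (hC : f ∘ₗ iC n = g ∘ₗ iC n)
    (hD : f ∘ₗ iD n = g ∘ₗ iD n) : f = g := by
  refine LinearMap.ext fun x => ?_
  rw [← ft_decomp n x]
  simp only [map_add]
  exact congrArg₂ (· + ·) (congrArg₂ (· + ·) (congrArg₂ (· + ·)
    (LinearMap.congr_fun hA _) (LinearMap.congr_fun hB _)) (LinearMap.congr_fun hC _))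
    (LinearMap.congr_fun hD _)

variable (n) in
/-- projection to the term -/
def toT : Ft n →ₗ[AP] Tsub n := LinearMap.codRestrict (Tsub n) (cut n) (cut_mem n)

theorem toT_val (x : Tsub n) : toT n x.1 = x := Subtype.ext x.2

theorem cut_iA : cut n ∘ₗ iA n = iA n := by
  refine LinearMap.ext fun x => ?_
  simp only [cut, iA]
  split_ifs <;> simp

theorem cut_iB : cut n ∘ₗ iB n = if n = 0 then 0 else iB n := by
  refine LinearMap.ext fun x => ?_
  simp only [cut, iB]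
  split_ifs <;> first | omega | simp [Prod.ext_iff]

theorem cut_iC : cut n ∘ₗ iC n = if n < 2 then 0 else iC n := by
  refine LinearMap.ext fun x => ?_
  simp only [cut, iC]
  split_ifs <;> first | omega | simp [Prod.ext_iff]

theorem cut_iD : cut n ∘ₗ iD n = if n < 3 then 0 else iD n := by
  refine LinearMap.ext fun x => ?_
  simp only [cut, iD]
  split_ifs <;> first | omega | simp [Prod.ext_iff]

/-- vanishing for a module with four complementary pieces -/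
theorem ev_four {A : Type} [Ring A] {m : ℕ} {X V W₁ W₂ W₃ W₄ : ModuleCat.{0} A}
    (a₁ : X →ₗ[A] W₁) (b₁ : W₁ →ₗ[A] X) (a₂ : X →ₗ[A] W₂) (b₂ : W₂ →ₗ[A] X)
    (a₃ : X →ₗ[A] W₃) (b₃ : W₃ →ₗ[A] X) (a₄ : X →ₗ[A] W₄) (b₄ : W₄ →ₗ[A] X)
    (hid : ∀ x, b₁ (a₁ x) + b₂ (a₂ x) + b₃ (a₃ x) + b₄ (a₄ x) = x)
    (h₁ : EV m W₁ V) (h₂ : EV m W₂ V) (h₃ : EV m W₃ V) (h₄ : EV m W₄ V) : EV m X V :=
  ev_of_factor_left (ι := Fin 4) ![W₁, W₂, W₃, W₄]
    (Fin.cases a₁ <| Fin.cases a₂ <| Fin.cases a₃ <| Fin.cases a₄ fun i => i.elim0)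
    (Fin.cases b₁ <| Fin.cases b₂ <| Fin.cases b₃ <| Fin.cases b₄ fun i => i.elim0)
    (fun x => by rw [Fin.sum_univ_four]; exact hid x)
    (fun i => by fin_cases i <;> assumption)

theorem decomp_toT (k : ℕ) (y : Tsub k) :
    toT k (iA k (pA k y.1)) + toT k (iB k (pB k y.1)) + toT k (iC k (pC k y.1)) +
      toT k (iD k (pD k y.1)) = y := by
  rw [← map_add, ← map_add, ← map_add, ft_decomp, toT_val]

theorem ev_one_Col (u : Vtx 2) :
    EV 1 (ModuleCat.of AP (Col (iota0 u))) (ModuleCat.of AP C0) :=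
  ev_of_module_projective le_rfl _

theorem ev_one_TT (k : ℕ) : EV 1 (TT k) (ModuleCat.of AP C0) :=
  ev_four (X := TT k) (W₁ := ModuleCat.of AP (EE 1 (par k)))
    (W₂ := ModuleCat.of AP (EE 0 (par (k + 1))))
    (W₃ := ModuleCat.of AP (Col (iota0 (vZ 1 (par k)))))
    (W₄ := ModuleCat.of AP (Col (iota0 (vZ 0 (par (k + 1))))))
    (pA k ∘ₗ (Tsub k).subtype) (toT k ∘ₗ iA k) (pB k ∘ₗ (Tsub k).subtype) (toT k ∘ₗ iB k)
    (pC k ∘ₗ (Tsub k).subtype) (toT k ∘ₗ iC k) (pD k ∘ₗ (Tsub k).subtype) (toT k ∘ₗ iD k)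
    (decomp_toT k) (ev_one_EE 1 _) (ev_one_EE 0 _) (ev_one_Col _) (ev_one_Col _)

/-! ### the differential on the components -/

theorem rawA_apply (n : ℕ) (x : Ft (n + 1)) : rawA n x =
    mapE (v := par (n + 1)) (v' := par n) 1 le_rfl (one_mem_PX00 _) x.1 +
    mapE (v := par n) (v' := par n) zP (Fin.zero_le _) zP_mem' x.2.1 +
    phiE (v := par n) (gam n, 0) x.2.2.2 := rfl

theorem rawB_apply (n : ℕ) (x : Ft (n + 1)) : rawB n x =
    -(mapE (v := par n) (v' := par (n + 1)) 1 le_rfl (one_mem_PX00 _) x.2.1) +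
    phiE (v := par (n + 1)) (1, 0) x.2.2.1 + phiE (v := par n) (1, 0) x.2.2.2 := rfl

theorem rawC_apply (n : ℕ) (x : Ft (n + 1)) : rawC n x =
    Col.map (mZ (par (n + 1)) (par n) 1) (mem_ZZ le_rfl (one_mem_PX00 _)) x.2.2.1 +
    Col.map (mZ (par n) (par n) zP) (mem_ZZ (Fin.zero_le _) zP_mem') x.2.2.2 := rfl

theorem rawD_apply (n : ℕ) (x : Ft (n + 1)) : rawD n x =
    -(Col.map (mZ (par n) (par (n + 1)) 1) (mem_ZZ le_rfl (one_mem_PX00 _)) x.2.2.2) := rfl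

theorem raw_apply (n : ℕ) (x : Ft (n + 1)) :
    raw n x = (rawA n x, rawB n x, rawC n x, rawD n x) := rfl

theorem iA_apply (n : ℕ) (x : EE 1 (par n)) : iA n x = (x, 0, 0, 0) := rfl
theorem iB_apply (n : ℕ) (x : EE 0 (par (n + 1))) : iB n x = (0, x, 0, 0) := rfl
theorem iC_apply (n : ℕ) (x : Col (iota0 (vZ 1 (par n)))) : iC n x = (0, 0, x, 0) := rfl
theorem iD_apply (n : ℕ) (x : Col (iota0 (vZ 0 (par (n + 1))))) : iD n x = (0, 0, 0, x) := rfl

theorem rawA_iB (n : ℕ) (x : EE 0 (par (n + 2))) : rawA n (iB (n + 1) x) = mapE (v := par n) (v' := par n) zP (Fin.zero_le _) zP_mem' x := by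
  show mapE (v := par (n + 1)) (v' := par n) 1 le_rfl (one_mem_PX00 _) 0 + mapE (v := par n) (v' := par n) zP (Fin.zero_le _) zP_mem' x + phiE (v := par n) (gam n, 0) 0 = _
  rw [map_zero, map_zero, zero_add, add_zero]

theorem rawA_iC (n : ℕ) (x : Col (iota0 (vZ 1 (par (n + 1))))) : rawA n (iC (n + 1) x) = 0 := by
  show mapE (v := par (n + 1)) (v' := par n) 1 le_rfl (one_mem_PX00 _) 0 + mapE (v := par n) (v' := par n) zP (Fin.zero_le _) zP_mem' 0 + phiE (v := par n) (gam n, 0) 0 = _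
  rw [map_zero, map_zero, map_zero, add_zero, add_zero]

theorem rawA_iD (n : ℕ) (x : Col (iota0 (vZ 0 (par (n + 2))))) : rawA n (iD (n + 1) x) = phiE (v := par n) (gam n, 0) x := by
  show mapE (v := par (n + 1)) (v' := par n) 1 le_rfl (one_mem_PX00 _) 0 + mapE (v := par n) (v' := par n) zP (Fin.zero_le _) zP_mem' 0 + phiE (v := par n) (gam n, 0) x = _
  rw [map_zero, map_zero, zero_add, zero_add]

theorem rawB_iA (n : ℕ) (x : EE 1 (par (n + 1))) : rawB n (iA (n + 1) x) = 0 := by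
  show -(mapE (v := par n) (v' := par (n + 1)) 1 le_rfl (one_mem_PX00 _) 0) + phiE (v := par (n + 1)) (1, 0) 0 + phiE (v := par n) (1, 0) 0 = _
  rw [map_zero, map_zero, map_zero, neg_zero, add_zero, add_zero]

theorem rawB_iC (n : ℕ) (x : Col (iota0 (vZ 1 (par (n + 1))))) : rawB n (iC (n + 1) x) = phiE (v := par (n + 1)) (1, 0) x := by
  show -(mapE (v := par n) (v' := par (n + 1)) 1 le_rfl (one_mem_PX00 _) 0) + phiE (v := par (n + 1)) (1, 0) x + phiE (v := par n) (1, 0) 0 = _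
  rw [map_zero, map_zero, neg_zero, zero_add, add_zero]

theorem rawB_iD (n : ℕ) (x : Col (iota0 (vZ 0 (par (n + 2))))) : rawB n (iD (n + 1) x) = phiE (v := par n) (1, 0) x := by
  show -(mapE (v := par n) (v' := par (n + 1)) 1 le_rfl (one_mem_PX00 _) 0) + phiE (v := par (n + 1)) (1, 0) 0 + phiE (v := par n) (1, 0) x = _
  rw [map_zero, map_zero, neg_zero, zero_add, zero_add]

theorem rawC_iC (n : ℕ) (x : Col (iota0 (vZ 1 (par (n + 1))))) : rawC n (iC (n + 1) x) = Col.map (mZ (par (n + 1)) (par n) 1) (mem_ZZ le_rfl (one_mem_PX00 _)) x := by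
  show Col.map (mZ (par (n + 1)) (par n) 1) (mem_ZZ le_rfl (one_mem_PX00 _)) x + Col.map (mZ (par n) (par n) zP) (mem_ZZ (Fin.zero_le _) zP_mem') 0 = _
  rw [map_zero, add_zero]

theorem rawC_iD (n : ℕ) (x : Col (iota0 (vZ 0 (par (n + 2))))) : rawC n (iD (n + 1) x) = Col.map (mZ (par n) (par n) zP) (mem_ZZ (Fin.zero_le _) zP_mem') x := by
  show Col.map (mZ (par (n + 1)) (par n) 1) (mem_ZZ le_rfl (one_mem_PX00 _)) 0 + Col.map (mZ (par n) (par n) zP) (mem_ZZ (Fin.zero_le _) zP_mem') x = _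
  rw [map_zero, zero_add]

theorem rawD_iC (n : ℕ) (x : Col (iota0 (vZ 1 (par (n + 1))))) : rawD n (iC (n + 1) x) = 0 := by
  show -(Col.map (mZ (par n) (par (n + 1)) 1) (mem_ZZ le_rfl (one_mem_PX00 _)) 0) = _
  rw [map_zero, neg_zero]

theorem rawD_iD (n : ℕ) (x : Col (iota0 (vZ 0 (par (n + 2))))) : rawD n (iD (n + 1) x) = -(Col.map (mZ (par n) (par (n + 1)) 1) (mem_ZZ le_rfl (one_mem_PX00 _)) x) := rfl

theorem raw_iC (n : ℕ) (x : Col (iota0 (vZ 1 (par (n + 1))))) : raw n (iC (n + 1) x) =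
    iB n (phiE (v := par (n + 1)) (1, 0) x) + iC n (Col.map (mZ (par (n + 1)) (par n) 1) (mem_ZZ le_rfl (one_mem_PX00 _)) x) :=
  Prod.ext ((rawA_iC n x).trans (add_zero _).symm) <|
    Prod.ext ((rawB_iC n x).trans (add_zero _).symm) <|
      Prod.ext ((rawC_iC n x).trans (zero_add _).symm) ((rawD_iC n x).trans (add_zero _).symm)

theorem raw_iD (n : ℕ) (x : Col (iota0 (vZ 0 (par (n + 2))))) : raw n (iD (n + 1) x) =
    iA n (phiE (v := par n) (gam n, 0) x) + iB n (phiE (v := par n) (1, 0) x) + iC n (Col.map (mZ (par n) (par n) zP) (mem_ZZ (Fin.zero_le _) zP_mem') x) + iD n (-(Col.map (mZ (par n) (par (n + 1)) 1) (mem_ZZ le_rfl (one_mem_PX00 _)) x)) := by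
  rw [raw_apply, rawA_iD, rawB_iD, rawC_iD, rawD_iD, iA_apply, iB_apply, iC_apply, iD_apply]
  simp only [zero_add, add_zero, Prod.mk_add_mk]

/-! ### cocycles are coboundaries -/

theorem gam_ne {n : ℕ} (hn : 2 ≤ n) : gam n ≠ 0 := by
  simp only [gam, ne_eq, neg_eq_zero, Nat.cast_eq_zero]
  omega

theorem gam_eq_zero {n : ℕ} (hn : n < 2) : gam n = 0 := by
  rw [gam, show n / 2 = 0 by omega]
  simp

theorem par_zero_of_one {n : ℕ} (h : par n ≠ 0) : par (n + 1) = 0 := by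
  have := par_ne n; omega

theorem pA_cut (n : ℕ) (z : Ft n) : pA n (cut n z) = pA n z := rfl

theorem pB_cut {n : ℕ} (hn0 : n ≠ 0) (z : Ft n) : pB n (cut n z) = pB n z := by
  simp [pB, cut, hn0]

theorem pA_raw (n : ℕ) (x : Ft (n + 1)) : pA n (raw n x) = rawA n x := rfl
theorem pB_raw (n : ℕ) (x : Ft (n + 1)) : pB n (raw n x) = rawB n x := rfl

theorem dd_toT (n : ℕ) (x : Tsub (n + 1)) : dd n x = toT n (raw n x.1) := Subtype.ext rfl

theorem even_cocycle {n : ℕ} (F : Ft (n + 1) →ₗ[AP] C0)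
    (hcut : ∀ x, cut (n + 2) x = x → F (raw (n + 1) x) = 0) (hn : par n = 0) :
    valE (F ∘ₗ iB (n + 1)) = 0 := by
  have hn1 : par (n + 1) ≠ 0 := fun e => par_ne n (e.trans hn.symm)
  have h := hcut (iC (n + 2) (Col.gen _))
    (by
      have := LinearMap.congr_fun (cut_iC (n := n + 2)) (Col.gen (vZ 1 (par (n + 2))))
      rwa [if_neg (by omega)] at this)
  have e : F ∘ₗ raw (n + 1) ∘ₗ iC (n + 2) =
      (F ∘ₗ iB (n + 1)) ∘ₗ phiE (v := par (n + 2)) (1, 0) +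
      (F ∘ₗ iC (n + 1)) ∘ₗ Col.map (mZ (par (n + 2)) (par (n + 1)) 1)
        (mem_ZZ le_rfl (one_mem_PX00 _)) := by
    refine LinearMap.ext fun x => ?_
    simp only [LinearMap.add_apply, LinearMap.comp_apply]
    exact (congrArg F (raw_iC (n + 1) x)).trans (map_add F _ _)
  have h' : valZ (F ∘ₗ raw (n + 1) ∘ₗ iC (n + 2)) = 0 := by
    show (F (raw (n + 1) (iC (n + 2) (Col.gen _)))).vec (1, 1) = 0
    rw [h]; rfl
  rw [e, homZ_zero hn1 (F ∘ₗ iC (n + 1)), LinearMap.zero_comp, add_zero] at h'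
  exact (one_mul _).symm.trans
    ((valZ_phiE (show par (n + 2) = 0 from hn) (show par (n + 2) = 0 from hn) (1, 0)
      (F ∘ₗ iB (n + 1))).symm.trans h')

theorem odd_cocycle {n : ℕ} (F : Ft (n + 1) →ₗ[AP] C0)
    (hcut : ∀ x, cut (n + 2) x = x → F (raw (n + 1) x) = 0) (hn : par n ≠ 0) :
    valE (F ∘ₗ iA (n + 1)) = 0 := by
  have hn1 : par (n + 1) = 0 := par_zero_of_one hn
  have hn0 : n ≠ 0 := fun e => hn (by rw [e]; rfl)
  have h := hcut (iD (n + 2) (Col.gen _))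
    (by
      have := LinearMap.congr_fun (cut_iD (n := n + 2)) (Col.gen (vZ 0 (par (n + 3))))
      rwa [if_neg (by omega)] at this)
  let x₀ : Col (iota0 (vZ 0 (par (n + 1)))) := Col.gen (vZ 0 (par (n + 1)))
  replace h : F (raw (n + 1) (iD (n + 2) x₀)) = 0 := h
  replace h := (congrArg F (raw_iD (n + 1) x₀)).symm.trans h
  rw [map_add, map_add, map_add] at h
  have zB : ∀ y, F (iB (n + 1) y) = 0 := fun y =>
    LinearMap.congr_fun (homE_zero (show par (n + 2) ≠ 0 from hn) (F ∘ₗ iB (n + 1))) y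
  have zD : ∀ y, F (iD (n + 1) y) = 0 := fun y =>
    LinearMap.congr_fun (homZ_zero (show par (n + 2) ≠ 0 from hn) (F ∘ₗ iD (n + 1))) y
  rw [zB, zD, add_zero, add_zero] at h
  have h'' : valZ ((F ∘ₗ iA (n + 1)) ∘ₗ phiE (v := par (n + 1)) (gam (n + 1), 0)) +
      valZ ((F ∘ₗ iC (n + 1)) ∘ₗ Col.map (mZ (par (n + 1)) (par (n + 1)) zP)
        (mem_ZZ (Fin.zero_le _) zP_mem')) = 0 :=
    congrArg (fun y : C0 => y.vec (1, 0)) h
  rw [valZ_phiE hn1 hn1, valZ_map hn1 hn1 zP (Fin.zero_le _) zP_mem', ev0_zP, zero_mul,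
    add_zero] at h''
  exact (mul_eq_zero.1 h'').resolve_left (gam_ne (by omega))

theorem even_boundary {n : ℕ} (F : Ft (n + 1) →ₗ[AP] C0) (hF : F ∘ₗ cut (n + 1) = F)
    (hn : par n = 0) (hb : valE (F ∘ₗ iB (n + 1)) = 0) {s : ℂ}
    (hs : s = valZ (F ∘ₗ iD (n + 1)) / gam n) :
    F = homE 1 (par n) s ∘ₗ rawA n ∘ₗ cut (n + 1) := by
  subst hs
  have hn1 : par (n + 1) ≠ 0 := fun e => par_ne n (e.trans hn.symm)
  let s : ℂ := valZ (F ∘ₗ iD (n + 1)) / gam n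
  refine ft_hom_ext ?_ ?_ ?_ ?_
  · rw [homE_zero hn1 (F ∘ₗ _)]
    exact (homE_zero hn1 _).symm
  · refine homE_ext hn (hb.trans ?_)
    have e : (homE 1 (par n) s ∘ₗ rawA n ∘ₗ cut (n + 1)) ∘ₗ iB (n + 1) =
        homE 1 (par n) s ∘ₗ mapE (v := par n) (v' := par n) zP (Fin.zero_le _) zP_mem' := by
      rw [LinearMap.comp_assoc, LinearMap.comp_assoc, cut_iB, if_neg (by omega)]
      exact LinearMap.ext fun x => congrArg (homE 1 (par n) s) (rawA_iB n x)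
    rw [e, valE_mapE hn hn, ev0_zP, zero_mul]
  · rw [homZ_zero hn1 (F ∘ₗ _)]
    exact (homZ_zero hn1 _).symm
  · by_cases h3 : n + 1 < 3
    · have e0 : cut (n + 1) ∘ₗ iD (n + 1) = 0 := by rw [cut_iD, if_pos h3]
      refine LinearMap.ext fun x => ?_
      have ex : cut (n + 1) (iD (n + 1) x) = 0 := LinearMap.congr_fun e0 x
      show F (iD (n + 1) x) = homE 1 (par n) s (rawA n (cut (n + 1) (iD (n + 1) x)))
      rw [← LinearMap.congr_fun hF (iD (n + 1) x), LinearMap.comp_apply, ex, map_zero, map_zero,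
        map_zero]
    · refine homZ_ext (show par n = 0 from hn) ?_
      have e : (homE 1 (par n) s ∘ₗ rawA n ∘ₗ cut (n + 1)) ∘ₗ iD (n + 1) =
          homE 1 (par n) s ∘ₗ phiE (v := par n) (gam n, 0) := by
        rw [LinearMap.comp_assoc, LinearMap.comp_assoc, cut_iD, if_neg h3]
        exact LinearMap.ext fun x => congrArg (homE 1 (par n) s) (rawA_iD n x)
      rw [e, valZ_phiE hn hn, valE_homE hn]
      exact (mul_div_cancel₀ _ (gam_ne (by omega))).symm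

theorem odd_boundary {n : ℕ} (F : Ft (n + 1) →ₗ[AP] C0)
    (hn : par n ≠ 0) (ha : valE (F ∘ₗ iA (n + 1)) = 0) {s : ℂ}
    (hs : s = valZ (F ∘ₗ iC (n + 1))) :
    F = homE 0 (par (n + 1)) s ∘ₗ rawB n ∘ₗ cut (n + 1) := by
  subst hs
  have hn1 : par (n + 1) = 0 := par_zero_of_one hn
  have hn0 : n ≠ 0 := fun e => hn (by rw [e]; rfl)
  let s : ℂ := valZ (F ∘ₗ iC (n + 1))
  refine ft_hom_ext ?_ ?_ ?_ ?_
  · refine homE_ext hn1 (ha.trans ?_)
    have e : (homE 0 (par (n + 1)) s ∘ₗ rawB n ∘ₗ cut (n + 1)) ∘ₗ iA (n + 1) = 0 := by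
      rw [LinearMap.comp_assoc, LinearMap.comp_assoc, cut_iA]
      refine LinearMap.ext fun x => ?_
      show homE 0 (par (n + 1)) s (rawB n (iA (n + 1) x)) = 0
      rw [rawB_iA, map_zero]
    rw [e]
    rfl
  · rw [homE_zero (show par (n + 2) ≠ 0 from hn) (F ∘ₗ _)]
    exact (homE_zero (show par (n + 2) ≠ 0 from hn) _).symm
  · refine homZ_ext hn1 ?_
    have e : (homE 0 (par (n + 1)) s ∘ₗ rawB n ∘ₗ cut (n + 1)) ∘ₗ iC (n + 1) =
        homE 0 (par (n + 1)) s ∘ₗ phiE (v := par (n + 1)) (1, 0) := by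
      rw [LinearMap.comp_assoc, LinearMap.comp_assoc, cut_iC, if_neg (by omega)]
      exact LinearMap.ext fun x => congrArg (homE 0 (par (n + 1)) s) (rawB_iC n x)
    rw [e, valZ_phiE hn1 hn1, valE_homE hn1, one_mul]
  · rw [homZ_zero (show par (n + 2) ≠ 0 from hn) (F ∘ₗ _)]
    exact (homZ_zero (show par (n + 2) ≠ 0 from hn) _).symm

theorem boundary {n : ℕ} (F : Ft (n + 1) →ₗ[AP] C0) (hF : F ∘ₗ cut (n + 1) = F)
    (hcut : ∀ x, cut (n + 2) x = x → F (raw (n + 1) x) = 0) :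
    ∃ G : Ft n →ₗ[AP] C0, ∀ x, F x = G (cut n (raw n (cut (n + 1) x))) := by
  by_cases hn : par n = 0
  · refine ⟨homE 1 (par n) (valZ (F ∘ₗ iD (n + 1)) / gam n) ∘ₗ pA n, fun x => ?_⟩
    rw [LinearMap.comp_apply, pA_cut, pA_raw]
    exact LinearMap.congr_fun (even_boundary F hF hn (even_cocycle F hcut hn) rfl) x
  · have hn0 : n ≠ 0 := fun e => hn (by rw [e]; rfl)
    refine ⟨homE 0 (par (n + 1)) (valZ (F ∘ₗ iC (n + 1))) ∘ₗ pB n, fun x => ?_⟩
    rw [LinearMap.comp_apply, pB_cut hn0, pB_raw]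
    exact LinearMap.congr_fun (odd_boundary F hn (odd_cocycle F hcut hn) rfl) x

theorem cocycle_boundary (n : ℕ) (f : TT (n + 1) →ₗ[AP] ModuleCat.of AP C0)
    (hf : f ∘ₗ dd (n + 1) = 0) : ∃ g : TT n →ₗ[AP] ModuleCat.of AP C0, g ∘ₗ dd n = f := by
  have hcut : ∀ x, cut (n + 2) x = x → (f ∘ₗ toT (n + 1)) (raw (n + 1) x) = 0 := fun x hx => by
    have e : f (dd (n + 1) ⟨x, hx⟩) = 0 := LinearMap.congr_fun hf ⟨x, hx⟩
    rw [dd_toT] at e
    exact e
  have hF : (f ∘ₗ toT (n + 1)) ∘ₗ cut (n + 1) = f ∘ₗ toT (n + 1) :=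
    LinearMap.ext fun x => congrArg f (Subtype.ext (cut_mem (n + 1) x))
  obtain ⟨G, hG⟩ := boundary (f ∘ₗ toT (n + 1)) hF hcut
  refine ⟨G ∘ₗ (Tsub n).subtype, LinearMap.ext fun x => ?_⟩
  have e := hG x.1
  rw [LinearMap.comp_apply, toT_val, show cut (n + 1) x.1 = x.1 from x.2] at e
  exact e.symm

end

end Vale.Agent.P195.C0E

namespace Vale.Agent.P195

open CategoryTheory

/-- `C₀` has no self-extensions -/
theorem specC0Self (hRes : C0E.SpecResExact) : SpecC0Self := by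
  obtain ⟨ha, h0, hex⟩ := hRes
  intro n hn
  rcases (show n = 1 ∨ ∃ m, n = m + 2 from (eq_or_lt_of_le hn).imp Eq.symm fun h => ⟨n - 2, by omega⟩) with rfl | ⟨m, rfl⟩
  · exact ev_one_of_res C0E.TT C0E.dd _ _ C0E.aug ha h0 hex (C0E.ev_one_TT 0)
      (C0E.cocycle_boundary 0)
  · exact ev_of_res m C0E.TT C0E.dd _ _ C0E.aug ha h0 hex (fun k n hn => C0E.ev_TT k hn)
      (fun x _ => ⟨0, by rw [(C0E.ev_one_TT (m + 1)).eq_zero x]; simp⟩)
      (C0E.cocycle_boundary (m + 1))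

end Vale.Agent.P195
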