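import Vale.Agent.P195.Spec

/-!
Columns `H(iota0 -, t)` as `A'`-modules, Euler data, and their consequences (P195, module C).
-/

namespace Vale.Agent.P195

open CategoryTheory Matrix MulOpposite

noncomputable section

/-- the column at a vertex, as an additive group -/
def ColSub (t : Vtx 3) : AddSubgroup (Vtx 2 → Mat) where
  carrier := {c | ∀ u, c u ∈ H (iota0 u) t}
  zero_mem' := fun u => Submodule.zero_mem (H (iota0 u) t)
  add_mem' := fun ha hb u => Submodule.add_mem (H (iota0 u) t) (ha u) (hb u)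
  neg_mem' := fun ha u => Submodule.neg_mem (H (iota0 u) t) (ha u)

/-- the column at a vertex -/
def Col (t : Vtx 3) : Type := ↥(ColSub t)

instance (t : Vtx 3) : AddCommGroup (Col t) := inferInstanceAs (AddCommGroup ↥(ColSub t))

namespace Col

variable {t : Vtx 3}

/-- the entries -/
def val (c : Col t) : Vtx 2 → Mat := Subtype.val (c : ↥(ColSub t))
/-- constructor -/
def mk (c : Vtx 2 → Mat) (h : ∀ u, c u ∈ H (iota0 u) t) : Col t := (⟨c, h⟩ : ↥(ColSub t))

theorem mem (c : Col t) : ∀ u, c.val u ∈ H (iota0 u) t := Subtype.prop (c : ↥(ColSub t))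

@[ext] theorem ext {a b : Col t} (h : a.val = b.val) : a = b := Subtype.ext h

@[simp] theorem val_mk (c : Vtx 2 → Mat) (h) : (mk (t := t) c h).val = c := rfl
@[simp] theorem val_zero : (0 : Col t).val = 0 := rfl
@[simp] theorem val_add (a b : Col t) : (a + b).val = a.val + b.val := rfl
@[simp] theorem val_neg (a : Col t) : (-a).val = -a.val := rfl

end Col

instance colModule (t : Vtx 3) : Module AP (Col t) where
  smul a c := Col.mk (a.val *ᵥ c.val) (fun u => by
    rw [Matrix.mulVec, dotProduct]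
    exact Submodule.sum_mem _ fun v _ => H_mul (a.mem u v) (c.mem v))
  one_smul c := Col.ext (Matrix.one_mulVec c.val)
  mul_smul a b c := Col.ext (Matrix.mulVec_mulVec c.val a.val b.val).symm
  smul_zero a := Col.ext (Matrix.mulVec_zero a.val)
  smul_add a b c := Col.ext (Matrix.mulVec_add a.val b.val c.val)
  add_smul a b c := Col.ext (Matrix.add_mulVec a.val b.val c.val)
  zero_smul c := Col.ext (Matrix.zero_mulVec c.val)

theorem ecol_smul_val {t : Vtx 3} (a : AP) (c : Col t) : (a • c).val = a.val *ᵥ c.val := rfl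

/-- the generator of a projective column -/
def colE (w : Vtx 2) : Col (iota0 w) :=
  Col.mk (fun u => if u = w then 1 else 0) (fun u => by
    split_ifs with h
    · subst h; exact H_one _
    · exact Submodule.zero_mem _)

/-- an element of a projective column as an element of the algebra -/
def asCor (w : Vtx 2) : Col (iota0 w) →ₗ[AP] AP where
  toFun c := Cor.mk (Matrix.of fun u x => if x = w then c.val u else 0) (fun u x => by
    rw [Matrix.of_apply]
    split_ifs with h
    · subst h; exact c.mem u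
    · exact Submodule.zero_mem _)
  map_add' c c' := Cor.ext <| by
    ext u x : 1
    simp only [Cor.val_mk, Cor.val_add, Matrix.of_apply, Matrix.add_apply, Col.val_add,
      Pi.add_apply]
    split_ifs <;> simp
  map_smul' a c := Cor.ext <| by
    ext u x : 1
    simp only [Cor.val_mk, RingHom.id_apply, smul_eq_mul, Cor.val_mul, Matrix.of_apply,
      Matrix.mul_apply, ecol_smul_val, Matrix.mulVec, dotProduct]
    split_ifs <;> simp

theorem asCor_val (w : Vtx 2) (c : Col (iota0 w)) :
    (asCor w c).val = Matrix.of fun u x => if x = w then c.val u else 0 := rfl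

theorem asCor_smul_colE (w : Vtx 2) (c : Col (iota0 w)) : asCor w c • colE w = c := by
  apply Col.ext
  funext u
  simp [ecol_smul_val, asCor_val, colE, Matrix.mulVec, dotProduct]

theorem asCor_colE (w : Vtx 2) : asCor w (colE w) = idem iota0 w := by
  apply Cor.ext
  ext u x : 1
  simp only [asCor_val, colE, idem, Cor.val_single, Col.val_mk, Matrix.of_apply,
    Matrix.single_apply]
  by_cases hx : x = w <;> by_cases hu : u = w <;> simp [hx, hu, Ne.symm]

theorem idem_smul_colE (w : Vtx 2) : idem iota0 w • colE w = colE w := by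
  rw [← asCor_colE, asCor_smul_colE]

/-- the map out of a projective column -/
def toM {M : Type} [AddCommGroup M] [Module AP M] (w : Vtx 2) (x : M) : Col (iota0 w) →ₗ[AP] M :=
  (LinearMap.toSpanSingleton AP M x) ∘ₗ asCor w

theorem toM_apply {M : Type} [AddCommGroup M] [Module AP M] (w : Vtx 2) (x : M)
    (c : Col (iota0 w)) : toM w x c = asCor w c • x := rfl

/-- right multiplication between columns -/
def rm {t t' : Vtx 3} (m : Mat) (h : m ∈ H t t') : Col t →ₗ[AP] Col t' where
  toFun c := Col.mk (fun u => c.val u * m) (fun u => H_mul (c.mem u) h)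
  map_add' c c' := Col.ext (funext fun u => add_mul (c.val u) (c'.val u) m)
  map_smul' a c := Col.ext (funext fun u => by
    simp [ecol_smul_val, Matrix.mulVec, dotProduct, Finset.sum_mul, mul_assoc])

theorem rm_val {t t' : Vtx 3} (m : Mat) (h : m ∈ H t t') (c : Col t) (u : Vtx 2) :
    (rm m h c).val u = c.val u * m := rfl

theorem rm_colE {w0 w1 : Vtx 2} (m : Mat) (h : m ∈ H (iota0 w0) (iota0 w1)) :
    rm m h (colE w0) = Cor.single (f := iota0) w0 w1 m h • colE w1 := by
  apply Col.ext
  funext u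
  by_cases hu : u = w0
  · subst hu
    simp [rm_val, ecol_smul_val, colE, Matrix.mulVec, dotProduct]
  · simp [rm_val, ecol_smul_val, colE, Matrix.mulVec, dotProduct, hu, Ne.symm hu]

theorem asCor_rm {w0 w1 : Vtx 2} (m : Mat) (h : m ∈ H (iota0 w0) (iota0 w1))
    (c : Col (iota0 w0)) :
    asCor w1 (rm m h c) = asCor w0 c * Cor.single (f := iota0) w0 w1 m h := by
  conv_lhs => rw [← asCor_smul_colE w0 c, map_smul, rm_colE, map_smul, map_smul, asCor_colE]
  rw [smul_eq_mul, smul_eq_mul]
  congr 1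
  apply Cor.ext
  simp [idem]

theorem idem_mul_single {f : Vtx 2 → Vtx 3} {w0 w1 : Vtx 2} (m : Mat) (h : m ∈ H (f w0) (f w1)) :
    idem f w0 * Cor.single w0 w1 m h = Cor.single w0 w1 m h :=
  Cor.ext (by simp [idem])

theorem ev_col_proj (w : Vtx 2) (Y : ModuleCat.{0} AP) {n : ℕ} (hn : 1 ≤ n) :
    EV n (ModuleCat.of AP (Col (iota0 w))) Y :=
  ev_of_factor_left (ι := Unit) (fun _ => ModuleCat.of AP AP) (fun _ => asCor w)
    (fun _ => LinearMap.toSpanSingleton AP (Col (iota0 w)) (colE w))
    (fun c => by simpa using asCor_smul_colE w c) (fun _ => ev_of_projective hn)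

/-- the data of an Euler sequence `0 → col w0 → col w1 ⊕ col w1 → col t2 → 0` -/
structure EData (w0 w1 : Vtx 2) (t2 : Vtx 3) (Y : Mat) : Prop where
  one01 : (1 : Mat) ∈ H (iota0 w0) (iota0 w1)
  y01 : Y ∈ H (iota0 w0) (iota0 w1)
  one12 : (1 : Mat) ∈ H (iota0 w1) t2
  y12 : Y ∈ H (iota0 w1) t2
  exact' : ∀ u m, m ∈ H (iota0 u) (iota0 w1) → m * Y ∈ H (iota0 u) (iota0 w1) →
    m ∈ H (iota0 u) (iota0 w0)
  surj : ∀ u m, m ∈ H (iota0 u) t2 → ∃ p q, p ∈ H (iota0 u) (iota0 w1) ∧
    q ∈ H (iota0 u) (iota0 w1) ∧ m = p * Y + q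
  dual : ∀ t' q, q ∈ H (iota0 w1) t' → Y * q ∈ H (iota0 w1) t' → q ∈ H t2 t'

namespace EData

variable {w0 w1 : Vtx 2} {t2 : Vtx 3} {Y : Mat} (D : EData w0 w1 t2 Y)
include D

/-- the first map -/
def fE : Col (iota0 w0) →ₗ[AP] Col (iota0 w1) × Col (iota0 w1) :=
  (rm 1 D.one01).prod (-(rm Y D.y01))

/-- the second map -/
def gE : Col (iota0 w1) × Col (iota0 w1) →ₗ[AP] Col t2 :=
  (rm Y D.y12).coprod (rm 1 D.one12)

theorem gE_val (p : Col (iota0 w1) × Col (iota0 w1)) (u : Vtx 2) :
    (D.gE p).val u = p.1.val u * Y + p.2.val u := by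
  simp [gE, rm_val]

theorem fE_inj : Function.Injective D.fE := by
  intro a b h
  have h1 := congrArg (fun p : Col (iota0 w1) × Col (iota0 w1) => p.1.val) h
  simp only [fE, LinearMap.prod_apply] at h1
  exact Col.ext (funext fun u => by simpa [rm_val] using congrFun h1 u)

theorem gE_surj : Function.Surjective D.gE := by
  intro c
  choose p q hp hq hpq using fun u => D.surj u _ (c.mem u)
  exact ⟨(Col.mk p hp, Col.mk q hq), Col.ext (funext fun u => by simp [gE_val, ← hpq])⟩

theorem fg_exact : Function.Exact D.fE D.gE := by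
  intro p
  constructor
  · intro h
    have hu : ∀ u, p.1.val u * Y + p.2.val u = 0 := fun u => by rw [← D.gE_val, h]; rfl
    have he : ∀ u, p.1.val u * Y = -p.2.val u := fun u => eq_neg_of_add_eq_zero_left (hu u)
    refine ⟨Col.mk p.1.val (fun u => D.exact' u _ (p.1.mem u)
      (he u ▸ Submodule.neg_mem _ (p.2.mem u))), Prod.ext (Col.ext (funext fun u => ?_))
      (Col.ext (funext fun u => ?_))⟩
    · simp [fE, rm_val]
    · simp [fE, rm_val, he u]
  · rintro ⟨c, rfl⟩
    exact Col.ext (funext fun u => by simp [gE_val, fE, rm_val])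

omit D in
theorem ev_pair (n : ℕ) (hn : 1 ≤ n) (Z : ModuleCat.{0} AP) :
    EV n (ModuleCat.of AP (Col (iota0 w1) × Col (iota0 w1))) Z :=
  ev_of_factor_left (ι := Fin 2) (fun _ => ModuleCat.of AP (Col (iota0 w1)))
    ![LinearMap.fst AP _ _, LinearMap.snd AP _ _] ![LinearMap.inl AP _ _, LinearMap.inr AP _ _]
    (fun p => by simp [Fin.sum_univ_two]) (fun _ => ev_col_proj w1 Z hn)

theorem ev_ge_two {n : ℕ} (hn : 2 ≤ n) (Z : ModuleCat.{0} AP) :
    EV n (ModuleCat.of AP (Col t2)) Z := by
  obtain ⟨k, rfl⟩ : ∃ k, n = k + 1 := ⟨n - 1, by omega⟩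
  exact ev_right (shortExact_mk (X := ModuleCat.of AP (Col (iota0 w0)))
    (Y := ModuleCat.of AP (Col (iota0 w1) × Col (iota0 w1))) (Z := ModuleCat.of AP (Col t2))
    D.fE D.gE D.fE_inj D.gE_surj D.fg_exact) Z (ev_col_proj w0 Z (by omega))
    (ev_pair (k + 1) (by omega) Z)

theorem ev_one_iff (M : ModuleCat.{0} AP) :
    EV 1 (ModuleCat.of AP (Col t2)) M ↔ ∀ x : M, idem iota0 w0 • x = x → ∃ p q : M,
      x = Cor.single (f := iota0) w0 w1 1 D.one01 • p +
        Cor.single (f := iota0) w0 w1 Y D.y01 • q := by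
  have hS := shortExact_mk (X := ModuleCat.of AP (Col (iota0 w0)))
    (Y := ModuleCat.of AP (Col (iota0 w1) × Col (iota0 w1))) (Z := ModuleCat.of AP (Col t2))
    D.fE D.gE D.fE_inj D.gE_surj D.fg_exact
  constructor
  · intro h x hx
    obtain ⟨g, hg⟩ := extend_of_ev_one hS M h (toM w0 x)
    have h0 : g (D.fE (colE w0)) = x := by
      have := LinearMap.congr_fun hg (colE w0)
      simp only [toM_apply, asCor_colE, hx] at this
      exact this
    refine ⟨g (colE w1, 0), g (0, -colE w1), ?_⟩
    rw [← map_smul, ← map_smul, ← map_add]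
    refine h0.symm.trans (congrArg g ?_)
    simp [fE, rm_colE]
  · intro h
    refine ev_one_of_extend hS M (ev_pair 1 le_rfl M) fun f => ?_
    have hx : idem iota0 w0 • f (colE w0) = f (colE w0) := by
      rw [← map_smul, idem_smul_colE]
    obtain ⟨p, q, hpq⟩ := h _ hx
    refine ⟨(toM w1 p).coprod (-(toM w1 q)), LinearMap.ext fun c => ?_⟩
    show toM w1 p (rm 1 D.one01 c) + -(toM w1 q (-(rm Y D.y01 c))) = f c
    rw [map_neg, neg_neg, toM_apply, toM_apply, asCor_rm, asCor_rm, mul_smul, mul_smul,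
      ← smul_add, ← hpq, ← map_smul, asCor_smul_colE]

end EData

/-- every map out of the column is a right multiplication -/
def HomGood (t : Vtx 3) : Prop :=
  ∀ (t' : Vtx 3) (h : Col t →ₗ[AP] Col t'), ∃ q ∈ H t t', ∀ c u, (h c).val u = c.val u * q

theorem homGood_iota (w : Vtx 2) : HomGood (iota0 w) := by
  intro t' h
  refine ⟨(h (colE w)).val w, (h (colE w)).mem w, fun c u => ?_⟩
  conv_lhs => rw [← asCor_smul_colE w c, map_smul]
  simp [ecol_smul_val, asCor_val, Matrix.mulVec, dotProduct]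

theorem EData.homGood {w0 w1 : Vtx 2} {t2 : Vtx 3} {Y : Mat} (D : EData w0 w1 t2 Y) :
    HomGood t2 := by
  intro t' h
  obtain ⟨p, hp, hp'⟩ := homGood_iota w1 t' (h ∘ₗ rm Y D.y12)
  obtain ⟨q, hq, hq'⟩ := homGood_iota w1 t' (h ∘ₗ rm 1 D.one12)
  have e : rm Y D.y12 (rm 1 D.one01 (colE w0)) = rm 1 D.one12 (rm Y D.y01 (colE w0)) :=
    Col.ext (funext fun u => by simp [rm_val])
  have hpq : p = Y * q := by
    have := congrArg (fun c => (h c).val w0) e
    have h1 := hp' (rm 1 D.one01 (colE w0)) w0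
    have h2 := hq' (rm Y D.y01 (colE w0)) w0
    simp only [LinearMap.comp_apply] at h1 h2
    simp only [h1, h2] at this
    simpa [rm_val, colE] using this
  refine ⟨q, D.dual t' q hq (hpq ▸ hp), fun c u => ?_⟩
  obtain ⟨⟨a, b⟩, rfl⟩ := D.gE_surj c
  have e2 : h (D.gE (a, b)) = h (rm Y D.y12 a) + h (rm 1 D.one12 b) := by
    rw [← map_add]; simp [EData.gE]
  have h1 := hp' a u
  have h2 := hq' b u
  simp only [LinearMap.comp_apply] at h1 h2
  rw [e2, Col.val_add, Pi.add_apply, h1, h2, D.gE_val, hpq, add_mul, mul_assoc]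

variable (g : Vtx 2 → Vtx 3)

/-- projection to a column -/
def prCol (w : Vtx 2) : Blk iota0 g →ₗ[AP] Col (g w) where
  toFun m := Col.mk (fun u => m.val u w) (fun u => m.mem u w)
  map_add' m n := Col.ext rfl
  map_smul' a m := Col.ext (funext fun u => by
    simp [ecol_smul_val, Matrix.mulVec, dotProduct, Matrix.mul_apply])

/-- inclusion of a column -/
def injCol (w : Vtx 2) : Col (g w) →ₗ[AP] Blk iota0 g where
  toFun c := Blk.mk (Matrix.of fun u x => if x = w then c.val u else 0) (fun u x => by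
    rw [Matrix.of_apply]
    split_ifs with h
    · subst h; exact c.mem u
    · exact Submodule.zero_mem _)
  map_add' c c' := Blk.ext <| by
    ext u x : 1
    simp only [Blk.val_mk, Blk.val_add, Matrix.of_apply, Matrix.add_apply, Col.val_add,
      Pi.add_apply]
    split_ifs <;> simp
  map_smul' a c := Blk.ext <| by
    ext u x : 1
    simp only [Blk.val_mk, RingHom.id_apply, blk_smul_val, Matrix.of_apply,
      Matrix.mul_apply, ecol_smul_val, Matrix.mulVec, dotProduct]
    split_ifs <;> simp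

theorem prCol_val (w : Vtx 2) (m : Blk iota0 g) (u : Vtx 2) : (prCol g w m).val u = m.val u w :=
  rfl

theorem injCol_val (w : Vtx 2) (c : Col (g w)) :
    (injCol g w c).val = Matrix.of fun u x => if x = w then c.val u else 0 := rfl

theorem blk_val_sum {f g : Vtx 2 → Vtx 3} {κ : Type} (s : Finset κ) (a : κ → Blk f g) :
    (∑ k ∈ s, a k).val = ∑ k ∈ s, (a k).val :=
  map_sum ({ toFun := Blk.val, map_zero' := rfl, map_add' := fun _ _ => rfl } :
    Blk f g →+ BigMat) a s

theorem sum_injCol (m : Blk iota0 g) : ∑ w, injCol g w (prCol g w m) = m := by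
  apply Blk.ext
  rw [blk_val_sum]
  ext u x : 1
  simp [Matrix.sum_apply, injCol_val, prCol_val]

theorem prCol_injCol (w : Vtx 2) (c : Col (g w)) : prCol g w (injCol g w c) = c :=
  Col.ext (funext fun u => by simp [prCol_val, injCol_val])

theorem ev_blk {n : ℕ} {Z : ModuleCat.{0} AP}
    (h : ∀ w, EV n (ModuleCat.of AP (Col (g w))) Z) : EV n (ModuleCat.of AP (Blk iota0 g)) Z :=
  ev_of_factor_left (fun w => ModuleCat.of AP (Col (g w))) (fun w => prCol g w)
    (fun w => injCol g w) (fun m => sum_injCol g m) h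

theorem ev_col_of_blk {n : ℕ} {Z : ModuleCat.{0} AP}
    (h : EV n (ModuleCat.of AP (Blk iota0 g)) Z) (w : Vtx 2) :
    EV n (ModuleCat.of AP (Col (g w))) Z :=
  ev_of_factor_left (ι := Unit) (fun _ => ModuleCat.of AP (Blk iota0 g)) (fun _ => injCol g w)
    (fun _ => prCol g w) (fun c => by simpa using prCol_injCol g w c) (fun _ => h)

theorem end_blk (hg : ∀ w, HomGood (g w)) (h : Blk iota0 g →ₗ[AP] Blk iota0 g) :
    ∃ a : Cor g, ∀ m, h m = op a • m := by
  choose A hA hA' using fun w w' => hg w (g w') ((prCol g w') ∘ₗ h ∘ₗ (injCol g w))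
  refine ⟨Cor.mk (Matrix.of fun w w' => A w w') (fun w w' => hA w w'), fun m => ?_⟩
  apply Blk.ext
  conv_lhs => rw [← sum_injCol g m, map_sum, blk_val_sum]
  ext u w' : 1
  simp only [Matrix.sum_apply, blk_op_smul_val, MulOpposite.unop_op, Matrix.mul_apply]
  exact Finset.sum_congr rfl fun w _ => hA' w w' (prCol g w m) u

theorem faithful_blk (hg : ∀ w, ∃ w', (1 : Mat) ∈ H (iota0 w') (g w)) (a : Cor g)
    (h : ∀ m : Blk iota0 g, op a • m = 0) : a = 0 := by
  apply Cor.ext
  ext w x : 1
  obtain ⟨w', hw'⟩ := hg w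
  have := congrArg (fun M : Blk iota0 g => M.val w' x)
    (h (Blk.mk (Matrix.single w' w 1) (fun u y => by
      rw [Matrix.single_apply]
      split_ifs with e
      · obtain ⟨rfl, rfl⟩ := e; exact hw'
      · exact Submodule.zero_mem _)))
  simpa using this

theorem idem_smul_blk_eq {w0 u x : Vtx 2} {m : Blk iota0 g} (hm : idem iota0 w0 • m = m)
    (hu : u ≠ w0) : m.val u x = 0 := by
  rw [← hm]
  simp [idem, Matrix.single_mul_apply_of_ne, hu]

/-- decomposition of elements of a block with a single row -/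
theorem blk_decomp {w0 w1 : Vtx 2} {Y : Mat} (h1 : (1 : Mat) ∈ H (iota0 w0) (iota0 w1))
    (hY : Y ∈ H (iota0 w0) (iota0 w1))
    (hdec : ∀ x, ∀ m ∈ H (iota0 w0) (g x), ∃ p q, p ∈ H (iota0 w1) (g x) ∧
      q ∈ H (iota0 w1) (g x) ∧ m = p + Y * q)
    (m : Blk iota0 g) (hm : idem iota0 w0 • m = m) : ∃ P Q : Blk iota0 g,
      m = Cor.single (f := iota0) w0 w1 1 h1 • P + Cor.single (f := iota0) w0 w1 Y hY • Q := by
  choose p q hp hq hpq using fun x => hdec x _ (m.mem w0 x)
  refine ⟨Blk.mk (Matrix.of fun u x => if u = w1 then p x else 0) ?_,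
    Blk.mk (Matrix.of fun u x => if u = w1 then q x else 0) ?_, ?_⟩
  · intro u x
    rw [Matrix.of_apply]
    split_ifs with h
    · subst h; exact hp x
    · exact Submodule.zero_mem _
  · intro u x
    rw [Matrix.of_apply]
    split_ifs with h
    · subst h; exact hq x
    · exact Submodule.zero_mem _
  · apply Blk.ext
    ext u x : 1
    by_cases hu : u = w0
    · subst hu
      simp [Matrix.single_mul_apply_same, hpq x]
    · simp [Matrix.single_mul_apply_of_ne, hu, idem_smul_blk_eq g hm hu]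

/-- decomposition of elements of a fibre with a single row -/
theorem gf_decomp {c : ℂ} {w0 w1 : Vtx 2} {Y : Mat}
    (h1 : (1 : Mat) ∈ H (iota0 w0) (iota0 w1)) (hY : Y ∈ H (iota0 w0) (iota0 w1))
    (hdec : ∀ v, ∀ m ∈ H (iota0 (w0.1, 0)) (topV v), ∃ p q, p ∈ H (iota0 (w1.1, 0)) (topV v) ∧
      q ∈ H (iota0 (w1.1, 0)) (topV v) ∧ m = p + Y * q)
    (M : Gf c) (hM : idem iota0 w0 • M = M) : ∃ P Q : Gf c,
      M = Cor.single (f := iota0) w0 w1 1 h1 • P + Cor.single (f := iota0) w0 w1 Y hY • Q := by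
  choose m hm hm' using fun v => M.mem w0 v
  choose p q hp hq hpq using fun v => hdec v _ (hm v)
  have hmap : ∀ (n : Mat), (Matrix.single w0 w1 n).map (substM (Polynomial.C c)) =
      Matrix.single w0 w1 (substM (Polynomial.C c) n) := by
    intro n
    ext u x : 1
    simp [Matrix.single_apply, apply_ite (substM (Polynomial.C c))]
  refine ⟨Gf.mk (Matrix.of fun u v => if u = w1 then substM (Polynomial.C c) (p v) else 0) ?_,
    Gf.mk (Matrix.of fun u v => if u = w1 then substM (Polynomial.C c) (q v) else 0) ?_, ?_⟩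
  · intro u v
    rw [Matrix.of_apply]
    split_ifs with h
    · subst h; exact ⟨p v, hp v, rfl⟩
    · exact ⟨0, Submodule.zero_mem _, map_zero _⟩
  · intro u v
    rw [Matrix.of_apply]
    split_ifs with h
    · subst h; exact ⟨q v, hq v, rfl⟩
    · exact ⟨0, Submodule.zero_mem _, map_zero _⟩
  · apply Gf.ext
    ext u v : 1
    simp only [Gf.val_add, gf_smul_val, Gf.val_mk, Cor.val_single, hmap, Matrix.add_apply]
    by_cases hu : u = w0
    · subst hu
      simp [Matrix.single_mul_apply_same, ← hm' v, hpq v]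
    · have h0 : M.val u v = 0 := by
        rw [← hM, gf_smul_val, idem, Cor.val_single,
          show (Matrix.single w0 w0 (1 : Mat)).map (substM (Polynomial.C c)) =
            Matrix.single w0 w0 1 by ext a b : 1; simp [Matrix.single_apply,
              apply_ite (substM (Polynomial.C c))]]
        simp [Matrix.single_mul_apply_of_ne, hu]
      simp [Matrix.single_mul_apply_of_ne, hu, h0]

end

end Vale.Agent.P195
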