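import Vale.Agent.P195.EulerPoly
import Vale.Agent.P195.EulerCol

/-!
The Euler sequences of `P_x` and `P_y`, and their consequences (P195, module C).
-/

namespace Vale.Agent.P195

open CategoryTheory Matrix MulOpposite

noncomputable section

/-- multiplication by `y` -/
abbrev yM : Mat := dg yP
/-- multiplication by `x` -/
abbrev xM : Mat := dg xP

theorem mX_eq_dg (v : Fin 2) (F : PP) : mX v v F = dg F := by
  simp [mX_apply, arrX]

theorem mX_mul_dg (v' v : Fin 2) (G F : PP) : mX v' v G * dg F = mX v' v (G * F) := by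
  rw [mX_apply, mX_apply, mul_assoc, arrX_dg, ← mul_assoc, ← map_mul]

theorem dg_mul_mX (v' v : Fin 2) (F G : PP) : dg F * mX v' v G = mX v' v (F * G) := by
  rw [mX_apply, mX_apply, ← mul_assoc, ← map_mul]

theorem eu_mX_injective (v' v : Fin 2) : Function.Injective (mX v' v) := by
  intro G G' h
  have h' := congrArg (fun m : Mat => (m v v).1) h
  fin_cases v' <;> fin_cases v <;> simpa [mX_apply, arrX, dg_apply, Matrix.mul_apply] using h'

theorem eu_mW_injective (v' v : Fin 2) : Function.Injective (mW v' v) := by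
  intro w w' h
  have h1 := congrArg (fun m : Mat => (m 0 1).2) h
  have h2 := congrArg (fun m : Mat => (m 1 0).2) h
  fin_cases v' <;> fin_cases v <;> simp [mW_apply, alW, beW] at h1 h2 <;> assumption

theorem pl_yP : pl yP = qq Polynomial.X + et := by simp [pl]
theorem sg_yP : sg yP = qq Polynomial.X + et := by simp [sg]
theorem pl_xP : pl xP = qq Polynomial.X := by simp [pl]
theorem sg_xP : sg xP = qq Polynomial.X := by simp [sg]

theorem mW_mul_y (v' v : Fin 2) (w : SW) :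
    mW v' v w * yM = mW v' v ((qq Polynomial.X + et) * w) := by
  rw [show yM = mX v v yP from (mX_eq_dg v yP).symm, mW_mul_mX, wmulX, if_pos rfl, pl_yP, sg_yP,
    ite_self]

theorem mW_mul_x (v' v : Fin 2) (w : SW) :
    mW v' v w * xM = mW v' v (qq Polynomial.X * w) := by
  rw [show xM = mX v v xP from (mX_eq_dg v xP).symm, mW_mul_mX, wmulX, if_pos rfl, pl_xP, sg_xP,
    ite_self]

theorem H_XX_iff {a b a' b' : Fin 3} {j j' s' s : Fin 2} {G : PP} :
    mX s' s G ∈ H (Tau.X a b s', j) (Tau.X a' b' s, j') ↔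
      G = 0 ∨ (a ≤ a' ∧ b ≤ b' ∧ j ≤ j' ∧
        G ∈ PX (a'.val - a.val) (b'.val - b.val) (j'.val - j.val)) := by
  rw [H]
  split_ifs with hle
  · constructor
    · rintro ⟨G', hG', e⟩
      obtain rfl := eu_mX_injective _ _ e
      exact .inr ⟨hle.1, hle.2.1, hle.2.2, hG'⟩
    · rintro (rfl | ⟨-, -, -, hG⟩)
      · rw [map_zero]; exact zero_mem _
      · exact ⟨G, hG, rfl⟩
  · rw [Submodule.mem_bot, map_eq_zero_iff _ (eu_mX_injective _ _)]
    constructor
    · exact .inl
    · rintro (h | ⟨h1, h2, h3, -⟩)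
      · exact h
      · exact absurd ⟨h1, h2, h3⟩ hle

theorem H_XX_elim {a b a' b' : Fin 3} {j j' s' s : Fin 2} {m : Mat}
    (h : m ∈ H (Tau.X a b s', j) (Tau.X a' b' s, j')) : ∃ G, m = mX s' s G := by
  rcases H_XX_cases h with rfl | ⟨-, -, G, -, e⟩
  · exact ⟨0, (map_zero _).symm⟩
  · exact ⟨G, e⟩

theorem H_ZX_iff {a b : Fin 3} {i j s' s : Fin 2} {w : SW} :
    mW s' s w ∈ H (Tau.Z s', i) (Tau.X a b s, j) ↔
      w ∈ WW (1 + a.val + b.val) (1 + b.val) (1 + j.val - i.val) := by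
  rw [H]
  constructor
  · rintro ⟨w', hw', e⟩
    obtain rfl := eu_mW_injective _ _ e
    exact hw'
  · exact fun h => ⟨w, h, rfl⟩

section Y

variable (a : Fin 2) (v j : Fin 2)

theorem one_mem_XY (b b' : Fin 3) (h : b ≤ b') :
    (1 : Mat) ∈ H (Tau.X a.castSucc b v, j) (Tau.X a.castSucc b' v, j) := by
  rw [show (1 : Mat) = mX v v 1 by rw [mX_eq_dg, map_one], H_XX_iff]
  exact .inr ⟨le_rfl, h, le_rfl, one_mem_PX _ _ _⟩

theorem yM_mem (b b' : Fin 3) (h : b'.val = b.val + 1) :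
    yM ∈ H (Tau.X a.castSucc b v, j) (Tau.X a.castSucc b' v, j) := by
  rw [yM, ← mX_eq_dg v, H_XX_iff]
  exact .inr ⟨le_rfl, Fin.le_def.2 (by omega), le_rfl, by
    simpa [h] using yP_mem⟩

theorem eDataY :
    EData (Tau.X a 0 v, j) (Tau.X a 1 v, j) (Tau.X a.castSucc 2 v, j) yM where
  one01 := one_mem_XY a v j 0 1 (by decide)
  y01 := yM_mem a v j 0 1 rfl
  one12 := one_mem_XY a v j 1 2 (by decide)
  y12 := yM_mem a v j 1 2 rfl
  exact' := by
    rintro ⟨τ, i⟩ m hm hy
    rcases τ with ⟨a0, b0, v'⟩ | v'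
    · rw [iota0_X, iota0_X] at hm hy ⊢
      obtain ⟨G, rfl⟩ := H_XX_elim hm
      rw [yM, mX_mul_dg, H_XX_iff] at hy
      rw [H_XX_iff] at hm ⊢
      rcases hm with hm | ⟨h1, h2, h3, hG⟩
      · exact .inl hm
      rcases hy with hy | ⟨-, -, -, hy⟩
      · exact .inl ((mul_eq_zero.1 hy).resolve_right Polynomial.X_ne_zero)
      simp only [Fin.val_castSucc, Fin.val_zero, Fin.val_one] at hy hG h2 ⊢
      rcases (by omega : b0 = 0 ∨ b0 = 1) with rfl | rfl
      · exact .inr ⟨h1, le_rfl, h3, by simpa using mem_PX_of_mul_y hy⟩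
      · exact .inl (eq_zero_of_mul_y (by simpa using hy))
    · rw [iota0_Z, iota0_X] at hm hy ⊢
      obtain ⟨w, -, rfl⟩ := H_ZX_cases hm
      rw [mW_mul_y, H_ZX_iff] at hy
      rw [H_ZX_iff] at hm ⊢
      simp only [Fin.val_castSucc, Fin.val_zero, Fin.val_one, add_zero] at hy hm ⊢
      exact WW_exactY (by omega) hm hy
  surj := by
    rintro ⟨τ, i⟩ m hm
    rcases τ with ⟨a0, b0, v'⟩ | v'
    · rw [iota0_X] at hm
      simp only [iota0_X]
      obtain ⟨G, rfl⟩ := H_XX_elim hm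
      rw [H_XX_iff] at hm
      rcases hm with rfl | ⟨h1, h2, h3, hG⟩
      · exact ⟨0, 0, zero_mem _, zero_mem _, by simp⟩
      simp only [Fin.val_castSucc, Fin.val_two] at hG
      rw [show 2 - b0.val = (1 - b0.val) + 1 by omega] at hG
      obtain ⟨P, Q, hP, hQ, rfl⟩ := PX_divY hG
      have hb : b0.castSucc ≤ (1 : Fin 2).castSucc := Fin.castSucc_le_castSucc_iff.2 (by omega)
      refine ⟨mX v' v P, mX v' v Q, ?_, ?_, by rw [yM, mX_mul_dg, map_add]⟩ <;> rw [H_XX_iff]
      · exact .inr ⟨h1, hb, h3, by simpa using hP⟩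
      · exact .inr ⟨h1, hb, h3, by simpa using hQ⟩
    · rw [iota0_Z] at hm
      simp only [iota0_Z, iota0_X]
      obtain ⟨w, hw, rfl⟩ := H_ZX_cases hm
      simp only [Fin.val_castSucc, Fin.val_two] at hw
      obtain ⟨p, q, hp, hq, rfl⟩ := WW_divY (by omega : 1 ≤ 1 + a.val) hw
      refine ⟨mW v' v p, mW v' v q, ?_, ?_, by rw [mW_mul_y, map_add]⟩ <;> rw [H_ZX_iff]
      · simpa using hp
      · simpa using hq
  dual := by
    rintro ⟨τ, j'⟩ m hm hy
    rcases τ with ⟨a', b', v'⟩ | v'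
    · rw [iota0_X] at hm hy
      obtain ⟨G, rfl⟩ := H_XX_elim hm
      rw [yM, dg_mul_mX, H_XX_iff] at hy
      rw [H_XX_iff] at hm ⊢
      rcases hm with hm | ⟨h1, h2, h3, hG⟩
      · exact .inl hm
      rcases hy with hy | ⟨-, -, -, hy⟩
      · exact .inl ((mul_eq_zero.1 hy).resolve_left Polynomial.X_ne_zero)
      rw [mul_comm yP G] at hy
      rw [Fin.le_def] at h2
      simp only [Fin.val_castSucc, Fin.val_one] at hy hG h2
      rcases (by omega : b'.val = 1 ∨ b'.val = 2) with hb | hb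
      · exact .inl (eq_zero_of_mul_y (by simpa [hb] using hy))
      · exact .inr ⟨h1, Fin.le_def.2 (by simp [hb]), h3, by
          simpa [hb] using mem_PX_of_mul_y hy⟩
    · rw [iota0_X] at hm
      rw [H_XZ_cases hm]
      exact zero_mem _

theorem decY (t : Vtx 3) (ht : ∀ a' b' s j', t = (Tau.X a' b' s, j') → b' ≠ 0) {m : Mat}
    (hm : m ∈ H (iota0 (Tau.X a 0 v, j)) t) :
    ∃ p q, p ∈ H (iota0 (Tau.X a 1 v, j)) t ∧ q ∈ H (iota0 (Tau.X a 1 v, j)) t ∧
      m = p + yM * q := by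
  obtain ⟨τ, j'⟩ := t
  rcases τ with ⟨a', b', s⟩ | s
  · have hb : b'.val ≠ 0 := fun h => ht a' b' s j' rfl (Fin.ext h)
    rw [iota0_X] at hm
    simp only [iota0_X]
    obtain ⟨G, rfl⟩ := H_XX_elim hm
    rw [H_XX_iff] at hm
    rcases hm with rfl | ⟨h1, h2, h3, hG⟩
    · exact ⟨0, 0, zero_mem _, zero_mem _, by simp⟩
    simp only [Fin.val_castSucc, Fin.val_zero, Nat.sub_zero] at hG
    rw [show b'.val = (b'.val - 1) + 1 by omega] at hG
    obtain ⟨P, Q, hP, hQ, rfl⟩ := PX_divY hG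
    have hle : (1 : Fin 2).castSucc ≤ b' := Fin.le_def.2 (by simp; omega)
    refine ⟨mX v s Q, mX v s P, ?_, ?_, by rw [yM, dg_mul_mX, map_add, mul_comm yP, add_comm]⟩
      <;> rw [H_XX_iff]
    · exact .inr ⟨h1, hle, h3, by simpa using hQ⟩
    · exact .inr ⟨h1, hle, h3, by simpa using hP⟩
  · rw [iota0_X] at hm
    rw [H_XZ_cases hm]
    exact ⟨0, 0, zero_mem _, zero_mem _, by simp⟩

end Y

section X

variable (b : Fin 2) (v j : Fin 2)

theorem one_mem_XX (a a' : Fin 3) (h : a ≤ a') :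
    (1 : Mat) ∈ H (Tau.X a b.castSucc v, j) (Tau.X a' b.castSucc v, j) := by
  rw [show (1 : Mat) = mX v v 1 by rw [mX_eq_dg, map_one], H_XX_iff]
  exact .inr ⟨h, le_rfl, le_rfl, one_mem_PX _ _ _⟩

theorem xM_mem (a a' : Fin 3) (h : a'.val = a.val + 1) :
    xM ∈ H (Tau.X a b.castSucc v, j) (Tau.X a' b.castSucc v, j) := by
  rw [xM, ← mX_eq_dg v, H_XX_iff]
  exact .inr ⟨Fin.le_def.2 (by omega), le_rfl, le_rfl, by
    simpa [h] using xP_mem⟩

theorem eDataX :
    EData (Tau.X 0 b v, j) (Tau.X 1 b v, j) (Tau.X 2 b.castSucc v, j) xM where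
  one01 := one_mem_XX b v j 0 1 (by decide)
  y01 := xM_mem b v j 0 1 rfl
  one12 := one_mem_XX b v j 1 2 (by decide)
  y12 := xM_mem b v j 1 2 rfl
  exact' := by
    rintro ⟨τ, i⟩ m hm hy
    rcases τ with ⟨a0, b0, v'⟩ | v'
    · rw [iota0_X, iota0_X] at hm hy ⊢
      obtain ⟨G, rfl⟩ := H_XX_elim hm
      rw [xM, mX_mul_dg, H_XX_iff] at hy
      rw [H_XX_iff] at hm ⊢
      rcases hm with hm | ⟨h1, h2, h3, hG⟩
      · exact .inl hm
      rcases hy with hy | ⟨-, -, -, hy⟩
      · exact .inl ((mul_eq_zero.1 hy).resolve_right (by simp [Polynomial.X_ne_zero]))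
      simp only [Fin.val_castSucc, Fin.val_zero, Fin.val_one] at hy hG h1 ⊢
      rcases (by omega : a0 = 0 ∨ a0 = 1) with rfl | rfl
      · exact .inr ⟨le_rfl, h2, h3, by simpa using mem_PX_of_mul_x hy⟩
      · exact .inl (eq_zero_of_mul_x (by simpa using hy))
    · rw [iota0_Z, iota0_X] at hm hy ⊢
      obtain ⟨w, -, rfl⟩ := H_ZX_cases hm
      rw [mW_mul_x, H_ZX_iff] at hy
      rw [H_ZX_iff] at hm ⊢
      simp only [Fin.val_castSucc, Fin.val_zero, Fin.val_one, add_zero] at hy hm ⊢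
      rw [show 1 + 1 + b.val = (1 + b.val) + 1 by omega] at hy hm
      exact WW_exactX (by omega) hm hy
  surj := by
    rintro ⟨τ, i⟩ m hm
    rcases τ with ⟨a0, b0, v'⟩ | v'
    · rw [iota0_X] at hm
      simp only [iota0_X]
      obtain ⟨G, rfl⟩ := H_XX_elim hm
      rw [H_XX_iff] at hm
      rcases hm with rfl | ⟨h1, h2, h3, hG⟩
      · exact ⟨0, 0, zero_mem _, zero_mem _, by simp⟩
      simp only [Fin.val_castSucc, Fin.val_two] at hG
      rw [show 2 - a0.val = (1 - a0.val) + 1 by omega] at hG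
      obtain ⟨P, Q, hP, hQ, rfl⟩ := PX_divX hG
      have ha : a0.castSucc ≤ (1 : Fin 2).castSucc := Fin.castSucc_le_castSucc_iff.2 (by omega)
      refine ⟨mX v' v P, mX v' v Q, ?_, ?_, by rw [xM, mX_mul_dg, map_add]⟩ <;> rw [H_XX_iff]
      · exact .inr ⟨ha, h2, h3, by simpa using hP⟩
      · exact .inr ⟨ha, h2, h3, by simpa using hQ⟩
    · rw [iota0_Z] at hm
      simp only [iota0_Z, iota0_X]
      obtain ⟨w, hw, rfl⟩ := H_ZX_cases hm
      simp only [Fin.val_castSucc, Fin.val_two] at hw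
      rw [show 1 + 2 + b.val = (1 + b.val) + 2 by omega] at hw
      obtain ⟨p, q, hp, hq, rfl⟩ := WW_divX (by omega : 1 ≤ 1 + b.val) hw
      refine ⟨mW v' v p, mW v' v q, ?_, ?_, by rw [mW_mul_x, map_add]⟩ <;> rw [H_ZX_iff] <;>
        simp only [Fin.val_castSucc, Fin.val_one] <;>
        rw [show 1 + 1 + b.val = (1 + b.val) + 1 by omega]
      · exact hp
      · exact hq
  dual := by
    rintro ⟨τ, j'⟩ m hm hy
    rcases τ with ⟨a', b', v'⟩ | v'
    · rw [iota0_X] at hm hy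
      obtain ⟨G, rfl⟩ := H_XX_elim hm
      rw [xM, dg_mul_mX, H_XX_iff] at hy
      rw [H_XX_iff] at hm ⊢
      rcases hm with hm | ⟨h1, h2, h3, hG⟩
      · exact .inl hm
      rcases hy with hy | ⟨-, -, -, hy⟩
      · exact .inl ((mul_eq_zero.1 hy).resolve_left (by simp [Polynomial.X_ne_zero]))
      rw [mul_comm xP G] at hy
      rw [Fin.le_def] at h1
      simp only [Fin.val_castSucc, Fin.val_one] at hy hG h1
      rcases (by omega : a'.val = 1 ∨ a'.val = 2) with ha | ha
      · exact .inl (eq_zero_of_mul_x (by simpa [ha] using hy))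
      · exact .inr ⟨Fin.le_def.2 (by simp [ha]), h2, h3, by
          simpa [ha] using mem_PX_of_mul_x hy⟩
    · rw [iota0_X] at hm
      rw [H_XZ_cases hm]
      exact zero_mem _

theorem decX (t : Vtx 3) (ht : ∀ a' b' s j', t = (Tau.X a' b' s, j') → a' ≠ 0) {m : Mat}
    (hm : m ∈ H (iota0 (Tau.X 0 b v, j)) t) :
    ∃ p q, p ∈ H (iota0 (Tau.X 1 b v, j)) t ∧ q ∈ H (iota0 (Tau.X 1 b v, j)) t ∧
      m = p + xM * q := by
  obtain ⟨τ, j'⟩ := t
  rcases τ with ⟨a', b', s⟩ | s
  · have ha : a'.val ≠ 0 := fun h => ht a' b' s j' rfl (Fin.ext h)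
    rw [iota0_X] at hm
    simp only [iota0_X]
    obtain ⟨G, rfl⟩ := H_XX_elim hm
    rw [H_XX_iff] at hm
    rcases hm with rfl | ⟨h1, h2, h3, hG⟩
    · exact ⟨0, 0, zero_mem _, zero_mem _, by simp⟩
    simp only [Fin.val_castSucc, Fin.val_zero, Nat.sub_zero] at hG
    rw [show a'.val = (a'.val - 1) + 1 by omega] at hG
    obtain ⟨P, Q, hP, hQ, rfl⟩ := PX_divX hG
    have hle : (1 : Fin 2).castSucc ≤ a' := Fin.le_def.2 (by simp; omega)
    refine ⟨mX v s Q, mX v s P, ?_, ?_, by rw [xM, dg_mul_mX, map_add, mul_comm xP, add_comm]⟩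
      <;> rw [H_XX_iff]
    · exact .inr ⟨hle, h2, h3, by simpa using hQ⟩
    · exact .inr ⟨hle, h2, h3, by simpa using hP⟩
  · rw [iota0_X] at hm
    rw [H_XZ_cases hm]
    exact ⟨0, 0, zero_mem _, zero_mem _, by simp⟩

end X

theorem py_zero (a v j : Fin 2) : py (Tau.X a 0 v, j) = iota0 (Tau.X a 1 v, j) := rfl
theorem py_one (a v j : Fin 2) : py (Tau.X a 1 v, j) = (Tau.X a.castSucc 2 v, j) := rfl
theorem py_Z (v j : Fin 2) : py (Tau.Z v, j) = iota0 (Tau.Z v, j) := rfl
theorem px_zero (b v j : Fin 2) : px (Tau.X 0 b v, j) = iota0 (Tau.X 1 b v, j) := rfl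
theorem px_one (b v j : Fin 2) : px (Tau.X 1 b v, j) = (Tau.X 2 b.castSucc v, j) := rfl
theorem px_Z (v j : Fin 2) : px (Tau.Z v, j) = iota0 (Tau.Z v, j) := rfl

theorem px_top (x : Vtx 2) : ∀ a' b' s j', px x = (Tau.X a' b' s, j') → a' ≠ 0 := by
  obtain ⟨τ, i⟩ := x
  intro a' b' s j' h
  rcases τ with ⟨a, b, v⟩ | v
  · simp only [px, Tau.map, Prod.mk.injEq, Tau.X.injEq] at h
    rw [← h.1.1]
    exact Fin.succ_ne_zero a
  · simp [px, Tau.map] at h

theorem py_top (x : Vtx 2) : ∀ a' b' s j', py x = (Tau.X a' b' s, j') → b' ≠ 0 := by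
  obtain ⟨τ, i⟩ := x
  intro a' b' s j' h
  rcases τ with ⟨a, b, v⟩ | v
  · simp only [py, Tau.map, Prod.mk.injEq, Tau.X.injEq] at h
    rw [← h.1.2.1]
    exact Fin.succ_ne_zero b
  · simp [py, Tau.map] at h

theorem topV_top (s : Fin 2) : ∀ a' b' s' j', topV s = (Tau.X a' b' s', j') → b' ≠ 0 := by
  intro a' b' s' j' h
  simp only [topV, Prod.mk.injEq, Tau.X.injEq] at h
  rw [← h.1.2.1]
  decide

/-- the columns of `P_y` are projective or Euler -/
theorem py_cases (w : Vtx 2) :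
    (∃ w', py w = iota0 w') ∨ ∃ a v j : Fin 2, py w = (Tau.X a.castSucc 2 v, j) := by
  obtain ⟨τ, j⟩ := w
  rcases τ with ⟨a, b, v⟩ | v
  · rcases (by omega : b = 0 ∨ b = 1) with rfl | rfl
    · exact .inl ⟨_, py_zero a v j⟩
    · exact .inr ⟨a, v, j, py_one a v j⟩
  · exact .inl ⟨_, py_Z v j⟩

/-- the columns of `P_x` are projective or Euler -/
theorem px_cases (w : Vtx 2) :
    (∃ w', px w = iota0 w') ∨ ∃ b v j : Fin 2, px w = (Tau.X 2 b.castSucc v, j) := by
  obtain ⟨τ, j⟩ := w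
  rcases τ with ⟨a, b, v⟩ | v
  · rcases (by omega : a = 0 ∨ a = 1) with rfl | rfl
    · exact .inl ⟨_, px_zero b v j⟩
    · exact .inr ⟨b, v, j, px_one b v j⟩
  · exact .inl ⟨_, px_Z v j⟩

theorem ev_py {n : ℕ} (hn : 2 ≤ n) (Z : ModuleCat.{0} AP) : EV n (ModuleCat.of AP Py) Z := by
  refine ev_blk py fun w => ?_
  rcases py_cases w with ⟨w', e⟩ | ⟨a, v, j, e⟩ <;> rw [e]
  · exact ev_col_proj w' Z (by omega)
  · exact (eDataY a v j).ev_ge_two hn Z

theorem ev_px {n : ℕ} (hn : 2 ≤ n) (Z : ModuleCat.{0} AP) : EV n (ModuleCat.of AP Px) Z := by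
  refine ev_blk px fun w => ?_
  rcases px_cases w with ⟨w', e⟩ | ⟨b, v, j, e⟩ <;> rw [e]
  · exact ev_col_proj w' Z (by omega)
  · exact (eDataX b v j).ev_ge_two hn Z

theorem ev_one_px_px : EV 1 (ModuleCat.of AP Px) (ModuleCat.of AP Px) := by
  refine ev_blk px fun w => ?_
  rcases px_cases w with ⟨w', e⟩ | ⟨b, v, j, e⟩ <;> rw [e]
  · exact ev_col_proj w' _ le_rfl
  · exact ((eDataX b v j).ev_one_iff _).2 fun m hm =>
      blk_decomp px _ _ (fun x _ h => decX b v j (px x) (px_top x) h) m hm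

theorem ev_one_py_py : EV 1 (ModuleCat.of AP Py) (ModuleCat.of AP Py) := by
  refine ev_blk py fun w => ?_
  rcases py_cases w with ⟨w', e⟩ | ⟨a, v, j, e⟩ <;> rw [e]
  · exact ev_col_proj w' _ le_rfl
  · exact ((eDataY a v j).ev_one_iff _).2 fun m hm =>
      blk_decomp py _ _ (fun x _ h => decY a v j (py x) (py_top x) h) m hm

theorem homGood_py (w : Vtx 2) : HomGood (py w) := by
  rcases py_cases w with ⟨w', e⟩ | ⟨a, v, j, e⟩ <;> rw [e]
  · exact homGood_iota w'
  · exact (eDataY a v j).homGood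

theorem homGood_px (w : Vtx 2) : HomGood (px w) := by
  rcases px_cases w with ⟨w', e⟩ | ⟨b, v, j, e⟩ <;> rw [e]
  · exact homGood_iota w'
  · exact (eDataX b v j).homGood

theorem py_reach (w : Vtx 2) : ∃ w', (1 : Mat) ∈ H (iota0 w') (py w) := by
  rcases py_cases w with ⟨w', e⟩ | ⟨a, v, j, e⟩ <;> rw [e]
  · exact ⟨w', H_one _⟩
  · exact ⟨_, (eDataY a v j).one12⟩

theorem px_reach (w : Vtx 2) : ∃ w', (1 : Mat) ∈ H (iota0 w') (px w) := by
  rcases px_cases w with ⟨w', e⟩ | ⟨b, v, j, e⟩ <;> rw [e]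
  · exact ⟨w', H_one _⟩
  · exact ⟨_, (eDataX b v j).one12⟩

theorem substQ_translate_comp (c : ℂ) (f : Qx) :
    substQ (Polynomial.X + Polynomial.C c) (substQ (Polynomial.X + Polynomial.C (-c)) f) = f := by
  refine Polynomial.ext fun i => ?_
  rw [coeff_substQ, coeff_substQ, Polynomial.comp_assoc]
  simp

theorem substW_translate_comp (c : ℂ) (w : SW) :
    substW (Polynomial.X + Polynomial.C c) (substW (Polynomial.X + Polynomial.C (-c)) w) = w := by
  apply TrivSqZeroExt.ext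
  · rw [substW_fst, substW_fst]
    apply TrivSqZeroExt.ext
    · rw [dmap_fst, dmap_fst, substQ_translate_comp]
    · rw [dmap_snd, dmap_snd, substQ_translate_comp]
  · rw [substW_snd, substW_snd]
    apply TrivSqZeroExt.ext
    · rw [dmap_fst, dmap_fst, substQ_translate_comp]
    · rw [dmap_snd, dmap_snd, substQ_translate_comp]

theorem substM_translate_comp (c : ℂ) (m : Mat) :
    substM (Polynomial.X + Polynomial.C c) (substM (Polynomial.X + Polynomial.C (-c)) m) = m := by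
  ext i k : 1
  simp only [substM, RingHom.mapMatrix_apply, Matrix.map_apply]
  generalize m i k = e
  obtain ⟨G, w⟩ := e
  rw [substS_apply, substS_apply]
  refine Prod.ext (Polynomial.ext fun n => ?_) (substW_translate_comp c w)
  simp only [Polynomial.coe_mapAlgHom, Polynomial.coeff_map]
  exact substQ_translate_comp c _

/-- the inverse shift carries the second frame into the first -/
theorem unshift_H {u w : Vtx 2} {m : Mat} (h : m ∈ H (py u) (py w)) :
    substM (Polynomial.X + Polynomial.C (-1)) m ∈ H (px u) (px w) := by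
  obtain ⟨τ, i⟩ := u
  obtain ⟨τ', i'⟩ := w
  rcases τ with ⟨a, b, v'⟩ | v' <;> rcases τ' with ⟨a', b', v⟩ | v <;>
    simp only [px, py, Tau.map, H, Fin.succ_le_succ_iff, Fin.castSucc_le_castSucc_iff,
      Fin.val_succ, Fin.val_castSucc, Submodule.mem_bot] at h ⊢
  · split_ifs at h with hle
    · obtain ⟨G, hG, rfl⟩ := h
      rw [if_pos hle, substM_mX_translate]
      refine ⟨_, PX_subst (-1) ?_, rfl⟩
      simpa only [SetLike.mem_coe, show a'.val + 1 - (a.val + 1) = a'.val - a.val by omega,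
        show b'.val + 1 - (b.val + 1) = b'.val - b.val by omega] using hG
    · rw [(Submodule.mem_bot ℂ).1 h, map_zero]; exact zero_mem _
  · rw [h, map_zero]
  · obtain ⟨w', hw, rfl⟩ := h
    rw [substM_mW]
    refine ⟨_, ?_, rfl⟩
    rw [show 1 + (a'.val + 1) + b'.val = 1 + a'.val + (b'.val + 1) by omega]
    exact WW_subst (-1) (by push_cast; ring) hw
  · split_ifs at h with hle
    · obtain ⟨G, hG, rfl⟩ := h
      rw [if_pos hle, substM_mZ_translate]
      exact ⟨_, PX_subst (-1) hG, rfl⟩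
    · rw [(Submodule.mem_bot ℂ).1 h, map_zero]; exact zero_mem _

theorem toy_surjective : Function.Surjective toy := by
  intro b
  refine ⟨Cor.mk (substB (Polynomial.X + Polynomial.C (-1)) b.val)
    (fun u w => unshift_H (b.mem u w)), Cor.ext ?_⟩
  ext u w : 1
  simp only [toy_val, substB, Cor.val_mk, RingHom.mapMatrix_apply, Matrix.map_apply]
  exact substM_translate_comp 1 _

theorem toy_eq_zero {a : AX} (h : toy a = 0) : a = 0 := by
  apply Cor.ext
  ext u w : 1
  have := congrArg (fun x : AY => substM (Polynomial.X + Polynomial.C (-1)) (x.val u w)) h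
  simp only [toy_val, substB, RingHom.mapMatrix_apply, Matrix.map_apply, Cor.val_zero,
    Matrix.zero_apply, map_zero] at this
  have e := substM_translate_comp (-1) (a.val u w)
  rw [neg_neg] at e
  rw [e] at this
  rw [this]; rfl

theorem py_generates (M : ModuleCat.{0} AP) (hM : EV 1 (ModuleCat.of AP Py) M) :
    (⨆ h : Py →ₗ[AP] M, LinearMap.range h) = ⊤ := by
  set S := ⨆ h : Py →ₗ[AP] M, LinearMap.range h
  have reach : ∀ w w', py w' = iota0 w → ∀ x : M, idem iota0 w • x = x → x ∈ S := by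
    intro w w' e x hx
    have hr : ∀ h : Col (py w') →ₗ[AP] M, ∀ c, h c ∈ S := fun h c =>
      Submodule.mem_iSup_of_mem (h ∘ₗ prCol py w')
        ⟨injCol py w' c, by simp [prCol_injCol]⟩
    rw [e] at hr
    have := hr (toM w x) (colE w)
    rwa [toM_apply, asCor_colE, hx] at this
  have one : ∀ a v j, ∀ x : M, Cor.single (f := iota0) (Tau.X a 0 v, j) (Tau.X a 1 v, j) 1
      (eDataY a v j).one01 • x ∈ S ∧
      Cor.single (f := iota0) (Tau.X a 0 v, j) (Tau.X a 1 v, j) yM (eDataY a v j).y01 • x ∈ S := by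
    intro a v j x
    have hx : idem iota0 (Tau.X a 1 v, j) • x ∈ S :=
      reach _ _ (py_zero a v j) _ (by rw [← mul_smul, idem_mul_self])
    have key : ∀ (m : Mat) (h : m ∈ H (iota0 (Tau.X a 0 v, j)) (iota0 (Tau.X a 1 v, j))),
        Cor.single (f := iota0) _ _ m h • x ∈ S := fun m h => by
      have := Submodule.smul_mem S (Cor.single (f := iota0) _ _ m h) hx
      rwa [← mul_smul, show Cor.single (f := iota0) _ _ m h * idem iota0 (Tau.X a 1 v, j) =
        Cor.single (f := iota0) _ _ m h from Cor.ext (by simp [idem])] at this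
    exact ⟨key _ _, key _ _⟩
  have all : ∀ u, ∀ x : M, idem iota0 u • x = x → x ∈ S := by
    rintro ⟨τ, j⟩ x hx
    rcases τ with ⟨a, b, v⟩ | v
    · rcases (by omega : b = 0 ∨ b = 1) with rfl | rfl
      · have hc := ev_col_of_blk py hM (Tau.X a 1 v, j)
        rw [py_one] at hc
        obtain ⟨p, q, rfl⟩ := ((eDataY a v j).ev_one_iff M).1 hc x hx
        exact Submodule.add_mem S (one a v j p).1 (one a v j q).2
      · exact reach _ _ (py_zero a v j) x hx
    · exact reach _ _ (py_Z v j) x hx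
  refine eq_top_iff.2 fun x _ => ?_
  have h1 : (∑ u, idem iota0 u : AP) = 1 := Cor.ext (by
    rw [Cor.val_sum, Cor.val_one, ← single_sum_one]
    rfl)
  rw [← one_smul AP x, ← h1, Finset.sum_smul]
  exact Submodule.sum_mem S fun u _ => all u _ (by rw [← mul_smul, idem_mul_self])

/-- EULER -/
theorem specEuler : SpecEuler := by
  refine ⟨fun n hn Y => ⟨ev_px hn Y, ev_py hn Y⟩, ev_one_px_px, ev_one_py_py,
    fun h => end_blk px homGood_px h, fun a h => faithful_blk px px_reach a h, ?_, ?_, py_generates⟩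
  · intro h
    obtain ⟨b, hb⟩ := end_blk py homGood_py h
    obtain ⟨a, rfl⟩ := toy_surjective b
    exact ⟨a, fun m => by rw [py_op_smul]; exact hb m⟩
  · intro a h
    exact toy_eq_zero (faithful_blk py py_reach (toy a) fun m => by
      have := h m
      rwa [py_op_smul] at this)

theorem ev_one_py_gf (c : ℂ) : EV 1 (ModuleCat.of AP Py) (ModuleCat.of AP (Gf c)) := by
  refine ev_blk py fun w => ?_
  rcases py_cases w with ⟨w', e⟩ | ⟨a, v, j, e⟩ <;> rw [e]
  · exact ev_col_proj w' _ le_rfl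
  · exact ((eDataY a v j).ev_one_iff _).2 fun m hm =>
      gf_decomp _ _ (fun s _ h => decY a v 0 (topV s) (topV_top s) h) m hm

theorem II_toEnd_sum {κ : Type} (s : Finset κ) (a : κ → II) (x : GG) :
    (∑ k ∈ s, a k).toEnd x = ∑ k ∈ s, (a k).toEnd x :=
  map_sum ({ toFun := fun f => f.toEnd x, map_zero' := rfl, map_add' := fun _ _ => rfl } :
    II →+ GG) a s

/-- `Ext¹(P_y, G) = Ext¹(P_y, I) = Ext¹(P_y, N') = 0` -/
theorem specEulerJunk (hF : SpecFinite) : SpecEulerJunk := by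
  have hG : EV 1 (ModuleCat.of AP Py) (ModuleCat.of AP GG) :=
    ev_of_factor (fun i => ModuleCat.of AP (Gf (cpt i))) (fun i => LinearMap.proj i)
      (fun i => LinearMap.single AP (fun i => Gf (cpt i)) i)
      (fun y => by simpa using Finset.univ_sum_single y) (fun i => ev_one_py_gf _)
  have : Module.Finite ℂ GG := hF.2.2.2.2
  have : Fintype (Module.Free.ChooseBasisIndex ℂ GG) := inferInstance
  set B := Module.Free.chooseBasis ℂ GG
  have hI : EV 1 (ModuleCat.of AP Py) (ModuleCat.of AP II) := by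
    refine ev_of_factor (ι := Module.Free.ChooseBasisIndex ℂ GG) (fun _ => ModuleCat.of AP GG)
      (fun k => { toFun := fun f => f.toEnd (B k), map_add' := fun _ _ => rfl,
                  map_smul' := fun _ _ => rfl })
      (fun k => { toFun := fun y => II.ofEnd ((B.coord k).smulRight y),
                  map_add' := fun y y' => II.ext fun x => smul_add _ y y',
                  map_smul' := fun a y => II.ext fun x => smul_comm _ a y })
      (fun f => ?_) (fun _ => hG)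
    refine II.ext fun x => ?_
    rw [II_toEnd_sum]
    show ∑ k, B.coord k x • f.toEnd (B k) = f.toEnd x
    conv_rhs => rw [← B.sum_repr x, map_sum]
    simp [map_smul, Module.Basis.coord_apply]
  exact ⟨hG, hI, ev_right' (shortExact_sub (Y := ModuleCat.of AP II) IIsub) (ModuleCat.of AP Py)
    hI (ev_py le_rfl _)⟩

end

end Vale.Agent.P195
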