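import Vale.Agent.P195.JunkBase

/-!
Module D: `specJunk`, `specJunkKer`, `specCosyz`.
-/

namespace Vale.Agent.P195

open CategoryTheory MulOpposite

noncomputable section

theorem rho_mem (a : AP) : rho a ∈ IIsub := mem_IIsub.2 ⟨a, rfl⟩

theorem mk_rho_smul (a : AP) (f : II) :
    a • (Submodule.Quotient.mk f : NP) = Submodule.Quotient.mk (rho a * f) := rfl

theorem op_smul_mk (a : AP) (f : II) :
    op a • (Submodule.Quotient.mk f : NP) = Submodule.Quotient.mk (f * rho a) := rfl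

/-- `g` inverts the pencil on the two components of `G` -/
def IsPenInv (τ : Tau 2) (q : ℂ) (g : II) : Prop :=
  rho (sysP.f1 τ) * g = g ∧ g * rho (sysP.f0 τ) = g ∧
    rho (sysP.pen τ q) * g = rho (sysP.f0 τ) ∧ g * rho (sysP.pen τ q) = rho (sysP.f1 τ)

theorem exists_penInv (τ : Tau 2) {q : ℂ} (hq : q ∈ natSet) : ∃ g, IsPenInv τ q g := by
  obtain ⟨hinj, hsurj⟩ := gg_bij τ hq
  have f00 : ∀ x : GG, sysP.f0 τ • sysP.f0 τ • x = sysP.f0 τ • x := fun x => by
    rw [← mul_smul, sysP.f0_idem]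
  have f11 : ∀ x : GG, sysP.f1 τ • sysP.f1 τ • x = sysP.f1 τ • x := fun x => by
    rw [← mul_smul, sysP.f1_idem]
  choose g hg hg' using fun x : GG => hsurj (sysP.f0 τ • x) (f00 x)
  have key : ∀ (x : GG) (y : GG), sysP.f1 τ • y = y → sysP.pen τ q • y = sysP.f0 τ • x →
      g x = y := fun x y hy hy' => by
    have h1 : sysP.f1 τ • (g x - y) = g x - y := by
      rw [smul_sub, hy]; exact congrArg (· - y) (hg x)
    have h2 : sysP.pen τ q • (g x - y) = 0 := by
      rw [smul_sub, hy']; exact sub_eq_zero.2 (hg' x)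
    exact sub_eq_zero.1 (hinj (g x - y) h1 h2)
  have hadd : ∀ x y, g (x + y) = g x + g y := fun x y =>
    key _ (g x + g y) (by rw [smul_add]; exact congrArg₂ (· + ·) (hg x) (hg y))
      (by rw [smul_add, smul_add]; exact congrArg₂ (· + ·) (hg' x) (hg' y))
  have hsmul : ∀ (r : ℂ) x, g (r • x) = r • g x := fun r x =>
    key _ (r • g x) (by rw [smul_comm]; exact congrArg (r • ·) (hg x))
      (by rw [smul_comm, smul_comm (sysP.f0 τ) r x]; exact congrArg (r • ·) (hg' x))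
  let G : Module.End ℂ GG := { toFun := g, map_add' := hadd, map_smul' := hsmul }
  refine ⟨II.ofEnd G, II.ext fun x => ?_, II.ext fun x => ?_, II.ext fun x => ?_,
    II.ext fun x => ?_⟩
  · exact hg x
  · show g (sysP.f0 τ • x) = g x
    exact key _ _ (hg x) ((hg' x).trans (f00 x).symm)
  · exact hg' x
  · show g (sysP.pen τ q • x) = sysP.f1 τ • x
    refine key _ _ (f11 x) ?_
    rw [← mul_smul, ← mul_smul, sysP.right_pen, sysP.left_pen]

theorem specJunk : SpecJunk := by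
  refine ⟨fun τ q hq => gg_bij τ hq, rho_inj, fun τ q hq x hx => ?_⟩
  obtain ⟨g, h1, -, h3, -⟩ := exists_penInv τ hq
  obtain ⟨f, rfl⟩ := Submodule.Quotient.mk_surjective IIsub x
  refine ⟨Submodule.Quotient.mk (g * f), ?_, ?_⟩
  · rw [mk_rho_smul, ← mul_assoc, h1]
  · rw [mk_rho_smul, ← mul_assoc, h3]
    exact (mk_rho_smul _ f).symm.trans hx

theorem isKerGen_mk {τ : Tau 2} {q : ℂ} {g : II} (hg : IsPenInv τ q g) :
    IsKerGen τ q (Submodule.Quotient.mk g) := by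
  obtain ⟨h1, h2, h3, h4⟩ := hg
  have hz : ∀ a : AP, (Submodule.Quotient.mk (rho a) : NP) = 0 := fun a =>
    (Submodule.Quotient.mk_eq_zero _).2 (rho_mem a)
  refine ⟨?_, ?_, ?_, ?_, fun x hx hx' => ?_, fun a => ⟨fun ha => ?_, ?_⟩, fun y hy => ?_⟩
  · rw [mk_rho_smul, h1]
  · rw [op_smul_mk, h2]
  · rw [op_smul_mk, h4, hz]
  · rw [mk_rho_smul, h3, hz]
  · obtain ⟨f, rfl⟩ := Submodule.Quotient.mk_surjective IIsub x
    rw [op_smul_mk, Submodule.Quotient.mk_eq_zero] at hx'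
    obtain ⟨b, hb⟩ := mem_IIsub.1 hx'
    refine ⟨b, ?_⟩
    rw [mk_rho_smul, hb, mul_assoc, h3, ← op_smul_mk, hx]
  · rw [mk_rho_smul, Submodule.Quotient.mk_eq_zero] at ha
    obtain ⟨b, hb⟩ := mem_IIsub.1 ha
    refine ⟨b, rho_inj ?_⟩
    rw [map_mul, map_mul, hb, mul_assoc, h4]
  · rintro ⟨b, hb⟩
    rw [← h1, ← mk_rho_smul (sysP.f1 τ) g, ← mul_smul, hb, mul_smul, mk_rho_smul, h3, hz,
      smul_zero]
  · obtain ⟨h, rfl⟩ := Submodule.Quotient.mk_surjective IIsub y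
    refine ⟨Submodule.Quotient.mk (h * rho (sysP.f1 τ) * g), ?_, ?_⟩
    · rw [op_smul_mk, mul_assoc, h2]
    · rw [op_smul_mk, mul_assoc, h4, mul_assoc, ← map_mul, sysP.f1_idem, ← op_smul_mk, hy]

theorem specJunkKer : SpecJunkKer := fun τ _ hq =>
  let ⟨_, hg⟩ := exists_penInv τ hq
  ⟨_, isKerGen_mk hg⟩

/-! ### The chase -/

/-- a map from a cyclic submodule to an injective module extends -/
theorem extend_cyclic {N : Type} [AddCommGroup N] [Module AP N] (E : ModuleCat.{0} AP)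
    (hE : Injective E) (n : N) (w : E) (h : ∀ a : AP, a • n = 0 → a • w = 0) :
    ∃ φ : N →ₗ[AP] E, φ n = w := by
  have : Injective E := hE
  let K := LinearMap.ker (LinearMap.toSpanSingleton AP N n)
  let ι : ModuleCat.of AP (AP ⧸ K) ⟶ ModuleCat.of AP N :=
    ModuleCat.ofHom (K.liftQ (LinearMap.toSpanSingleton AP N n) le_rfl)
  have : Mono ι := (ModuleCat.mono_iff_injective ι).2
    (LinearMap.ker_eq_bot.1 (Submodule.ker_liftQ_eq_bot _ _ _ le_rfl))
  let f : ModuleCat.of AP (AP ⧸ K) ⟶ E :=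
    ModuleCat.ofHom (K.liftQ (LinearMap.toSpanSingleton AP E w) fun a ha => h a ha)
  refine ⟨(Injective.factorThru f ι).hom, ?_⟩
  have e := LinearMap.congr_fun (congrArg ModuleCat.Hom.hom (Injective.comp_factorThru f ι))
    (Submodule.Quotient.mk (1 : AP))
  change (Injective.factorThru f ι).hom ((1 : AP) • n) = (1 : AP) • w at e
  rwa [one_smul, one_smul] at e

theorem smul_pen_zero {τ : Tau 2} {q : ℂ} (hq : q ∈ natSet) {a : AP}
    (h : a * sysP.pen τ q = 0) : a * sysP.f0 τ = 0 := by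
  obtain ⟨g, -, -, h3, -⟩ := exists_penInv τ hq
  refine rho_inj ?_
  rw [map_mul, ← h3, ← mul_assoc, ← map_mul, h, map_zero, zero_mul]

/-- pencils are surjective on injective modules -/
theorem pen_surj_inj (E : ModuleCat.{0} AP) (hE : Injective E) {τ : Tau 2} {q : ℂ}
    (hq : q ∈ natSet) (x : E) (hx : sysP.f0 τ • x = x) :
    ∃ y : E, sysP.f1 τ • y = y ∧ sysP.pen τ q • y = x := by
  obtain ⟨φ, hφ⟩ := extend_cyclic E hE (sysP.pen τ q) x fun a ha => by
    rw [← hx, ← mul_smul, smul_pen_zero hq (by simpa using ha), zero_smul]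
  refine ⟨sysP.f1 τ • φ 1, ?_, ?_⟩
  · rw [← mul_smul, sysP.f1_idem]
  · rw [← mul_smul, sysP.right_pen, ← map_smul, smul_eq_mul, mul_one, hφ]

theorem isKerGen_smul_iff {τ : Tau 2} {q : ℂ} {n₀ : NP} (hk : IsKerGen τ q n₀) {M : Type}
    [AddCommGroup M] [Module AP M] {w : M} (h1 : sysP.f1 τ • w = w)
    (hp : sysP.pen τ q • w = 0) (a : AP) (ha : a • n₀ = 0) : a • w = 0 := by
  obtain ⟨b, hb⟩ := (hk.2.2.2.2.2.1 a).1 ha
  rw [← h1, ← mul_smul, hb, mul_smul, hp, smul_zero]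

theorem good_NP : Good (ModuleCat.of AP NP) := fun τ q hq => by
  refine ⟨specJunk.2.2 τ q hq, fun n₀ hn₀ (v : NP) hv hv' => ?_⟩
  obtain ⟨g, hg⟩ := exists_penInv τ hq
  have hk := isKerGen_mk hg
  obtain ⟨a, ha⟩ := hk.2.2.2.2.1 n₀ hn₀.2.1 hn₀.2.2.1
  obtain ⟨b, hb⟩ := hn₀.2.2.2.2.1 (Submodule.Quotient.mk g) hk.2.1 hk.2.2.1
  have hann := fun x => isKerGen_smul_iff hn₀ hv hv' x
  have e1 : sysP.f1 τ • b • v = b • v := by
    refine sub_eq_zero.1 ?_
    rw [← mul_smul, ← sub_smul]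
    exact hann _ (by rw [sub_smul, mul_smul, hb, hk.1, sub_self])
  have e2 : sysP.pen τ q • b • v = 0 := by
    rw [← mul_smul]
    exact hann _ (by rw [mul_smul, hb, hk.2.2.2.1])
  have e3 : a • b • v = v := by
    refine sub_eq_zero.1 ?_
    rw [← mul_smul, ← one_smul AP v, ← mul_smul, ← sub_smul]
    exact hann _ (by rw [sub_smul, mul_one, mul_smul, hb, ha, one_smul, sub_self])
  -- a map sending the class of `g` to `b • v`
  obtain ⟨k, hk'⟩ := Submodule.Quotient.mk_surjective IIsub (b • v)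
  obtain ⟨c, hc⟩ : ∃ c : AP, rho c = rho (sysP.pen τ q) * k := mem_IIsub.1
    ((Submodule.Quotient.mk_eq_zero _).1 (by rw [← mk_rho_smul, hk', e2]))
  let F : II →ₗ[AP] NP :=
    { toFun := fun j => Submodule.Quotient.mk (j * (rho (sysP.pen τ q) * k))
      map_add' := fun x y => by rw [add_mul, Submodule.Quotient.mk_add]
      map_smul' := fun x j => by
        simp only [II_smul_eq, mul_assoc, RingHom.id_apply]; rfl }
  have hF : IIsub ≤ LinearMap.ker F := fun j hj => by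
    obtain ⟨d, rfl⟩ := mem_IIsub.1 hj
    refine LinearMap.mem_ker.2 ((Submodule.Quotient.mk_eq_zero _).2 ?_)
    rw [← hc, ← map_mul]
    exact rho_mem _
  refine ⟨IIsub.liftQ F hF, ?_⟩
  have hg0 : IIsub.liftQ F hF (Submodule.Quotient.mk g) = b • v := by
    show Submodule.Quotient.mk (g * (rho (sysP.pen τ q) * k)) = _
    rw [← mul_assoc, hg.2.2.2, ← mk_rho_smul, hk', e1]
  rw [← ha, map_smul, hg0, e3]

theorem fix_of_smul {M : Type} [AddCommGroup M] [Module AP M] {e : AP} (he : e * e = e) (x : M) :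
    e • e • x = e • x := by rw [← mul_smul, he]

theorem lift_ker (S : ShortComplex (ModuleCat.{0} AP)) (hS : S.ShortExact) (hZ : Good S.X₁)
    {τ : Tau 2} {q : ℂ} (hq : q ∈ natSet) {v : S.X₃} (hv : sysP.f1 τ • v = v)
    (hv' : sysP.pen τ q • v = 0) :
    ∃ w, S.g.hom w = v ∧ sysP.f1 τ • w = w ∧ sysP.pen τ q • w = 0 := by
  have hsurj : Function.Surjective S.g.hom := (ModuleCat.epi_iff_surjective _).1 hS.epi_g
  obtain ⟨w, rfl⟩ := hsurj v
  obtain ⟨z, hz⟩ := (ShortComplex.ShortExact.moduleCat_exact_iff_function_exact S).1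
    hS.exact (sysP.pen τ q • sysP.f1 τ • w) |>.1 (by rw [map_smul, map_smul, hv, hv'])
  have hinj : Function.Injective S.f.hom := (ModuleCat.mono_iff_injective _).1 hS.mono_f
  obtain ⟨y, hy, hy'⟩ := (hZ τ q hq).1 z (hinj (by
    rw [map_smul, hz, ← mul_smul, sysP.left_pen]))
  have hfg : S.g.hom (S.f.hom y) = 0 := by
    have := LinearMap.congr_fun (congrArg ModuleCat.Hom.hom S.zero) y
    exact this
  refine ⟨sysP.f1 τ • w - S.f.hom y, ?_, ?_, ?_⟩
  · rw [map_sub, map_smul, hv, hfg, sub_zero]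
  · rw [smul_sub, fix_of_smul (sysP.f1_idem τ), ← map_smul, hy]
  · rw [smul_sub, ← map_smul S.f.hom, hy', hz, sub_self]

theorem good_cosyz (S : ShortComplex (ModuleCat.{0} AP)) (hS : S.ShortExact)
    (hI : Injective S.X₂) (hZ : Good S.X₁) :
    Good S.X₃ := fun τ q hq => by
  have hsurj : Function.Surjective S.g.hom := (ModuleCat.epi_iff_surjective _).1 hS.epi_g
  refine ⟨fun x hx => ?_, fun n₀ hn₀ v hv hv' => ?_⟩
  · obtain ⟨x', rfl⟩ := hsurj x
    obtain ⟨y, hy, hy'⟩ := pen_surj_inj S.X₂ hI hq (sysP.f0 τ • x')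
      (fix_of_smul (sysP.f0_idem τ) x')
    exact ⟨S.g.hom y, by rw [← map_smul, hy], by rw [← map_smul, hy', map_smul, hx]⟩
  · obtain ⟨w, hw, hw1, hw2⟩ := lift_ker S hS hZ hq hv hv'
    obtain ⟨φ, hφ⟩ := extend_cyclic S.X₂ hI n₀ w (isKerGen_smul_iff hn₀ hw1 hw2)
    exact ⟨S.g.hom ∘ₗ φ, by rw [LinearMap.comp_apply, hφ, hw]⟩

theorem pen_fix (τ : Tau 2) (q : ℂ) (x : NP) :
    op (sysP.pen τ q) • op (sysP.f0 τ) • x = op (sysP.pen τ q) • x := by
  rw [← mul_smul, ← op_mul, sysP.left_pen]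

theorem fix_pen (τ : Tau 2) (q : ℂ) (x : NP) :
    op (sysP.f1 τ) • op (sysP.pen τ q) • x = op (sysP.pen τ q) • x := by
  rw [← mul_smul, ← op_mul, sysP.right_pen]

/-- a map vanishing on the kernel of a right pencil descends along it -/
theorem descend {τ : Tau 2} {q : ℂ} {n₀ : NP} (hk : IsKerGen τ q n₀) {M : Type} [AddCommGroup M]
    [Module AP M] (φ : HomP AP NP M) (h0 : sysP.f0 τ • φ = φ) (hn : φ n₀ = 0) :
    ∃ h : HomP AP NP M, sysP.f1 τ • h = h ∧ sysP.pen τ q • h = φ := by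
  have hfix : ∀ x, φ (op (sysP.f0 τ) • x) = φ x := fun x => by
    rw [← HomP.smul_apply, h0]
  have hsel : ∀ y : NP, ∃ x : NP, op (sysP.pen τ q) • x = op (sysP.f1 τ) • y := fun y => by
    obtain ⟨x, -, hx⟩ := hk.2.2.2.2.2.2 (op (sysP.f1 τ) • y)
      (by rw [← mul_smul, ← op_mul, sysP.f1_idem])
    exact ⟨x, hx⟩
  choose sel hsel using hsel
  have key : ∀ y x : NP, op (sysP.pen τ q) • x = op (sysP.f1 τ) • y → φ (sel y) = φ x := by
    intro y x hx
    obtain ⟨a, ha⟩ := hk.2.2.2.2.1 (op (sysP.f0 τ) • (sel y - x))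
      (by rw [← mul_smul, ← op_mul, sysP.f0_idem])
      (by rw [pen_fix, smul_sub, hsel, hx, sub_self])
    refine sub_eq_zero.1 ?_
    show φ.toLin (sel y) - φ.toLin x = 0
    rw [← map_sub]
    show φ (sel y - x) = 0
    rw [← hfix, ← ha, HomP.map_smul', hn, smul_zero]
  let h : HomP AP NP M := HomP.ofLin
    { toFun := fun y => φ (sel y)
      map_add' := fun y y' => by
        rw [key (y + y') (sel y + sel y') (by rw [smul_add, smul_add, hsel, hsel]), HomP.map_add']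
      map_smul' := fun a y => by
        rw [key (a • y) (a • sel y) (by rw [← smul_comm a, hsel, smul_comm]), HomP.map_smul']
        rfl }
  refine ⟨h, HomP.ext fun y => ?_, HomP.ext fun x => ?_⟩
  · show φ (sel (op (sysP.f1 τ) • y)) = φ (sel y)
    exact key _ _ (by rw [hsel, ← mul_smul, ← op_mul, sysP.f1_idem])
  · show φ (sel (op (sysP.pen τ q) • x)) = φ x
    exact key _ _ (fix_pen τ q x).symm

/-- maps fixed by `f1` are determined by their composite with the right pencil -/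
theorem descend_unique {τ : Tau 2} {q : ℂ} {n₀ : NP} (hk : IsKerGen τ q n₀) {M : Type}
    [AddCommGroup M] [Module AP M] {h h' : HomP AP NP M} (h1 : sysP.f1 τ • h = h)
    (h1' : sysP.f1 τ • h' = h') (hp : sysP.pen τ q • h = sysP.pen τ q • h') : h = h' := by
  refine HomP.ext fun y => ?_
  obtain ⟨x, -, hx⟩ := hk.2.2.2.2.2.2 (op (sysP.f1 τ) • y)
    (by rw [← mul_smul, ← op_mul, sysP.f1_idem])
  rw [← h1, ← h1', HomP.smul_apply, HomP.smul_apply, ← hx, ← HomP.smul_apply,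
    ← HomP.smul_apply, hp]

theorem junk_bij_quot {M : Type} [AddCommGroup M] [Module AP M] (N : Submodule AP M) {τ : Tau 2}
    {q : ℂ} (hinj : ∀ h : M, sysP.f1 τ • h = h → sysP.pen τ q • h ∈ N → h ∈ N)
    (hsurj : ∀ g : M, sysP.f0 τ • g = g →
      ∃ h : M, sysP.f1 τ • h = h ∧ sysP.pen τ q • h - g ∈ N) :
    BijOnComp (sysP.f0 τ) (sysP.f1 τ) (sysP.pen τ q) (ModuleCat.of AP (M ⧸ N)) := by
  refine ⟨fun (y : M ⧸ N) hy hp => ?_, fun (x : M ⧸ N) hx => ?_⟩
  · obtain ⟨h, rfl⟩ := Submodule.Quotient.mk_surjective N y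
    rw [← hy] at hp
    refine hy.symm.trans ((Submodule.Quotient.mk_eq_zero N).2
      (hinj (sysP.f1 τ • h) (fix_of_smul (sysP.f1_idem τ) h) ?_))
    exact (Submodule.Quotient.mk_eq_zero N).1 hp
  · obtain ⟨g, rfl⟩ := Submodule.Quotient.mk_surjective N x
    obtain ⟨h, h1, h2⟩ := hsurj (sysP.f0 τ • g) (fix_of_smul (sysP.f0_idem τ) g)
    exact ⟨Submodule.Quotient.mk h, congrArg Submodule.Quotient.mk h1,
      ((Submodule.Quotient.eq N).2 h2).trans hx⟩

theorem disj_cosyz (S : ShortComplex (ModuleCat.{0} AP)) (hS : S.ShortExact)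
    (hI : Injective S.X₂) (hZ : Good S.X₁) :
    sysP.Disj (fun _ => natSet)
      (ModuleCat.of AP (HomP AP NP S.X₃ ⧸
        LinearMap.range (HomP.map (A := AP) (B := AP) (P := NP) S.g.hom))) := by
  intro τ q hq
  obtain ⟨n₀, hk⟩ := specJunkKer τ q hq
  refine junk_bij_quot _ (fun h h1 hp => ?_) (fun g hg => ?_)
  · obtain ⟨φ, hφ⟩ := LinearMap.mem_range.1 hp
    have hφ' : ∀ x, S.g.hom ((sysP.f0 τ • φ) x) = h (op (sysP.pen τ q) • x) := fun x => by
      rw [HomP.smul_apply]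
      calc S.g.hom (φ (op (sysP.f0 τ) • x))
          = (sysP.pen τ q • h) (op (sysP.f0 τ) • x) := by rw [← hφ]; rfl
        _ = _ := by rw [HomP.smul_apply, pen_fix]
    have hz : S.g.hom ((sysP.f0 τ • φ) n₀) = 0 := by
      rw [hφ', hk.2.2.1, HomP.map_zero']
    obtain ⟨z, hz'⟩ := (ShortComplex.ShortExact.moduleCat_exact_iff_function_exact S).1
      hS.exact _ |>.1 hz
    have hinj : Function.Injective S.f.hom := (ModuleCat.mono_iff_injective _).1 hS.mono_f
    obtain ⟨ψ, hψ⟩ := (hZ τ q hq).2 n₀ hk z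
      (hinj (by rw [map_smul, hz', ← HomP.map_smul', hk.1]))
      (hinj (by rw [map_smul, hz', ← HomP.map_smul', hk.2.2.2.1, HomP.map_zero', map_zero]))
    let Φ : HomP AP NP S.X₂ :=
      sysP.f0 τ • φ - sysP.f0 τ • HomP.ofLin (S.f.hom ∘ₗ ψ)
    have hΦn : Φ n₀ = 0 := by
      show (sysP.f0 τ • φ) n₀ - S.f.hom (ψ (op (sysP.f0 τ) • n₀)) = 0
      rw [hk.2.1, hψ, hz', sub_self]
    obtain ⟨Ψ, hΨ1, hΨ⟩ := descend hk Φ
      (by simp only [Φ, smul_sub, fix_of_smul (sysP.f0_idem τ)]) hΦn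
    refine LinearMap.mem_range.2 ⟨Ψ, descend_unique hk ?_ h1 ?_⟩
    · rw [← map_smul, hΨ1]
    · rw [← map_smul, hΨ]
      refine HomP.ext fun x => ?_
      show S.g.hom ((sysP.f0 τ • φ) x - S.f.hom (ψ (op (sysP.f0 τ) • x))) =
        h (op (sysP.pen τ q) • x)
      have hfg : S.g.hom (S.f.hom (ψ (op (sysP.f0 τ) • x))) = 0 :=
        LinearMap.congr_fun (congrArg ModuleCat.Hom.hom S.zero) (ψ (op (sysP.f0 τ) • x))
      rw [map_sub, hφ', hfg, sub_zero]
  · obtain ⟨ψ, hψ⟩ : ∃ ψ : HomP AP NP S.X₂, S.g.hom (ψ n₀) = g n₀ := by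
      obtain ⟨w, hw, hw1, hw2⟩ : ∃ w, S.g.hom w = g n₀ ∧ sysP.f1 τ • w = w ∧
          sysP.pen τ q • w = 0 := by
        have hv : sysP.f1 τ • g n₀ = g n₀ := by rw [← HomP.map_smul', hk.1]
        have hv' : sysP.pen τ q • g n₀ = 0 := by
          rw [← HomP.map_smul', hk.2.2.2.1, HomP.map_zero']
        exact lift_ker S hS hZ hq hv hv'
      obtain ⟨ψ, hψ⟩ := extend_cyclic S.X₂ hI n₀ w (isKerGen_smul_iff hk hw1 hw2)
      exact ⟨HomP.ofLin ψ, (congrArg S.g.hom hψ).trans hw⟩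
    let g1 : HomP AP NP S.X₃ :=
      g - sysP.f0 τ • HomP.map (A := AP) (B := AP) (P := NP) S.g.hom ψ
    have hg1 : g1 n₀ = 0 := by
      show g n₀ - S.g.hom (ψ (op (sysP.f0 τ) • n₀)) = 0
      rw [hk.2.1, hψ, sub_self]
    obtain ⟨h, h1, h2⟩ := descend hk g1
      (by simp only [g1, smul_sub, fix_of_smul (sysP.f0_idem τ), hg]) hg1
    refine ⟨h, h1, ?_⟩
    rw [h2, sub_sub_cancel_left]
    exact Submodule.neg_mem _ (Submodule.smul_mem _ _ (LinearMap.mem_range_self _ ψ))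

theorem phiNP_apply (a : AP) (x : NP) : phiNP a x = op a • x := rfl

/-- lifting an element of the kernel of `phiNP n₀` along the pencil -/
theorem lift_pen {τ : Tau 2} {q : ℂ} {g : II} (hg : IsPenInv τ q g) {a : AP}
    (h0 : sysP.f0 τ * a = a) (ha : op a • (Submodule.Quotient.mk g : NP) = 0) :
    ∃ b : AP, sysP.f1 τ * b = b ∧ sysP.pen τ q * b = a := by
  rw [op_smul_mk, Submodule.Quotient.mk_eq_zero] at ha
  obtain ⟨b, hb⟩ := mem_IIsub.1 ha
  refine ⟨b, rho_inj ?_, rho_inj ?_⟩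
  · rw [map_mul, hb, ← mul_assoc, hg.1]
  · rw [map_mul, hb, ← mul_assoc, hg.2.2.1, ← map_mul, h0]

theorem disj_ker_phi : sysP.Disj (fun _ => natSet) (ModuleCat.of AP (LinearMap.ker phiNP)) := by
  intro τ q hq
  obtain ⟨g, hg⟩ := exists_penInv τ hq
  have hk := isKerGen_mk hg
  refine ⟨fun (y : LinearMap.ker phiNP) hy hp => Subtype.ext (rho_inj ?_),
    fun (x : LinearMap.ker phiNP) hx => ?_⟩
  · have h1 : sysP.f1 τ * y.1 = y.1 := congrArg Subtype.val hy
    have h2 : sysP.pen τ q * y.1 = 0 := congrArg Subtype.val hp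
    rw [← h1, map_mul, ← hg.2.2.2, mul_assoc, ← map_mul, h2, map_zero, mul_zero]
    exact (map_zero rho).symm
  · have h1 : sysP.f0 τ * x.1 = x.1 := congrArg Subtype.val hx
    have hker : ∀ z : NP, op x.1 • z = 0 := fun z => by
      rw [← phiNP_apply, LinearMap.mem_ker.1 x.2, HomP.zero_apply]
    obtain ⟨b, hb, hb'⟩ := lift_pen hg h1 (hker _)
    refine ⟨(⟨b, LinearMap.mem_ker.2 (HomP.ext fun z => ?_)⟩ : LinearMap.ker phiNP),
      Subtype.ext hb, Subtype.ext hb'⟩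
    rw [phiNP_apply, HomP.zero_apply]
    obtain ⟨w, -, hw⟩ := hk.2.2.2.2.2.2 (op (sysP.f1 τ) • z)
      (by rw [← mul_smul, ← op_mul, sysP.f1_idem])
    rw [← hb, op_mul, mul_smul, ← hw, ← mul_smul, ← op_mul, hb', hker]

theorem disj_coker_phi :
    sysP.Disj (fun _ => natSet) (ModuleCat.of AP (HomP AP NP NP ⧸ LinearMap.range phiNP)) := by
  intro τ q hq
  obtain ⟨g, hg⟩ := exists_penInv τ hq
  have hk := isKerGen_mk hg
  refine junk_bij_quot _ (fun h h1 hp => ?_) (fun ψ hψ => ?_)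
  · obtain ⟨a, ha⟩ := LinearMap.mem_range.1 hp
    have ha0 : phiNP (sysP.f0 τ * a) = sysP.pen τ q • h := by
      rw [← smul_eq_mul, map_smul, ha, ← mul_smul, sysP.left_pen]
    have hker : op (sysP.f0 τ * a) • (Submodule.Quotient.mk g : NP) = 0 := by
      rw [← phiNP_apply, ha0, HomP.smul_apply, hk.2.2.1, HomP.map_zero']
    obtain ⟨b, hb, hb'⟩ := lift_pen hg (by rw [← mul_assoc, sysP.f0_idem]) hker
    refine LinearMap.mem_range.2 ⟨b, descend_unique hk ?_ h1 ?_⟩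
    · rw [← map_smul, smul_eq_mul, hb]
    · rw [← map_smul, smul_eq_mul, hb', ha0]
  · obtain ⟨k, hk0⟩ := Submodule.Quotient.mk_surjective IIsub (ψ (Submodule.Quotient.mk g))
    have hv : sysP.f1 τ • ψ (Submodule.Quotient.mk g) = ψ (Submodule.Quotient.mk g) := by
      rw [← HomP.map_smul', hk.1]
    have hv' : sysP.pen τ q • ψ (Submodule.Quotient.mk g) = 0 := by
      rw [← HomP.map_smul', hk.2.2.2.1, HomP.map_zero']
    obtain ⟨a, ha⟩ := mem_IIsub.1 ((Submodule.Quotient.mk_eq_zero IIsub).1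
      (by rw [← mk_rho_smul, hk0, hv'] :
        (Submodule.Quotient.mk (rho (sysP.pen τ q) * k) : NP) = 0))
    have ha0 : sysP.f0 τ • a = a := rho_inj (by
      rw [smul_eq_mul, map_mul, ha, ← mul_assoc, ← map_mul, sysP.left_pen])
    have hn : (ψ - phiNP a) (Submodule.Quotient.mk g) = 0 := by
      show ψ (Submodule.Quotient.mk g) - op a • (Submodule.Quotient.mk g : NP) = 0
      rw [op_smul_mk, ha, ← mul_assoc, hg.2.2.2, ← mk_rho_smul, hk0, hv, sub_self]
    obtain ⟨h, h1, h2⟩ := descend hk (ψ - phiNP a)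
      (by rw [smul_sub, hψ, ← map_smul, ha0]) hn
    exact ⟨h, h1, LinearMap.mem_range.2 ⟨-a, by rw [h2, sub_sub_cancel_left, map_neg]⟩⟩

theorem specCosyz : SpecCosyz :=
  ⟨good_NP, fun S hS hI hZ => ⟨good_cosyz S hS hI hZ, disj_cosyz S hS hI hZ⟩, disj_ker_phi,
    disj_coker_phi⟩

end

end Vale.Agent.P195
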