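import Vale.Agent.P195.Spec3

/-!
The three properties of `P_x` used for the resolution of `C₀`: all are checked entry by entry.
-/

namespace Vale.Agent.P195

open Polynomial Matrix

noncomputable section

namespace PxAux

theorem mX_self_one (v : Fin 2) : mX v v 1 = 1 := by simp [mX_apply, arrX]

theorem mX_injective (v s : Fin 2) : Function.Injective (mX v s) := by
  intro G G' h
  have e : ∀ F : PP, (mX v s F s s).1 = F := by
    intro F
    rw [mX_apply, dg_apply, arrX]
    fin_cases v <;> fin_cases s <;> simp [Matrix.mul_apply, Matrix.single]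
  rw [← e G, ← e G', h]

theorem mZ_injective (v s : Fin 2) : Function.Injective (mZ v s) := by
  intro G G' h
  have e : ∀ F : PP, (mZ v s F v v).1 = F := by
    intro F
    rw [mZ_apply, dg_apply, arrZ]
    fin_cases v <;> fin_cases s <;> simp [Matrix.mul_apply, Matrix.single]
  rw [← e G, ← e G', h]

theorem mW_eq_zero {a c : Fin 2} {w : SW} (h : mW a c w = 0) : w = 0 := by
  have h1 : alW a c * w = 0 := by
    simpa [mW_apply] using congrArg (fun M : Mat => (M 0 1).2) h
  have h2 : beW a c * w = 0 := by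
    simpa [mW_apply] using congrArg (fun M : Mat => (M 1 0).2) h
  rcases (by omega : a = 0 ∨ a = 1) with rfl | rfl <;>
    rcases (by omega : c = 0 ∨ c = 1) with rfl | rfl <;>
    simp [alW, beW] at h1 h2 <;> assumption

theorem ep_kernel {d e n : ℕ} {w : SW} (hw : w ∈ WW d e n) (h : ep * w = 0) :
    ∃ w' ∈ WW d e n, ep * w' = w := by
  have h1 : w.fst = 0 := by simpa [fst_ep, snd_ep] using congrArg TrivSqZeroExt.snd h
  refine ⟨TrivSqZeroExt.inl w.snd, ⟨by simpa using hw.2, by simp⟩, ?_⟩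
  ext1
  · simp [fst_ep, h1]
  · simp [fst_ep, snd_ep]

/-- an element of `P_x` supported on one row -/
def row (u : Vtx 2) (m : Vtx 2 → Mat) (h : ∀ w, m w ∈ H (iota0 u) (px w)) : Px :=
  Blk.mk (Matrix.of fun u' w => if u' = u then m w else 0) fun u' w => by
    rw [Matrix.of_apply]
    split_ifs with e
    · rw [e]; exact h w
    · exact Submodule.zero_mem _

theorem row_val (u : Vtx 2) (m : Vtx 2 → Mat) (h) (u' w : Vtx 2) :
    (row u m h).val u' w = if u' = u then m w else 0 := rfl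

theorem single_smul_val (u' u : Vtx 2) (c : Mat) (hc) (y : Px) (x w : Vtx 2) :
    (Cor.single (f := iota0) u' u c hc • y).val x w = if x = u' then c * y.val u w else 0 := by
  rw [blk_smul_val, Cor.val_single, Matrix.mul_apply]
  rcases eq_or_ne x u' with rfl | hx
  · rw [if_pos rfl, Finset.sum_eq_single u, Matrix.single_apply_same]
    · intro b _ hb
      rw [Matrix.single_apply_of_ne _ _ _ _ _ (fun h => hb h.2.symm), zero_mul]
    · exact fun h => absurd (Finset.mem_univ u) h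
  · rw [if_neg hx]
    exact Finset.sum_eq_zero fun b _ => by
      rw [Matrix.single_apply_of_ne _ _ _ _ _ (fun h => hx h.1.symm), zero_mul]

theorem idem_smul_val (u : Vtx 2) (y : Px) (x w : Vtx 2) :
    (idem iota0 u • y).val x w = if x = u then y.val u w else 0 := by
  rw [idem, single_smul_val, one_mul]

theorem idem_row (u : Vtx 2) (m : Vtx 2 → Mat) (h) : idem iota0 u • row u m h = row u m h := by
  apply Blk.ext
  funext x w
  rw [idem_smul_val, row_val, row_val, if_pos rfl]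

theorem off_row {u : Vtx 2} {y : Px} (hy : idem iota0 u • y = y) {x : Vtx 2} (hx : x ≠ u)
    (w : Vtx 2) : y.val x w = 0 := by
  rw [← hy, idem_smul_val, if_neg hx]

theorem eq_zero_of_row {u : Vtx 2} {y : Px} (hy : idem iota0 u • y = y)
    (h : ∀ w, y.val u w = 0) : y = 0 := by
  apply Blk.ext
  funext x w
  rw [Blk.val_zero]
  rcases eq_or_ne x u with rfl | hx
  · exact h w
  · exact off_row hy hx w

/-- entries in a row at an `X`-vertex, moved to another colour -/
theorem X_entry {a b : Fin 3} {v j : Fin 2} {a' b' : Fin 3} {s j' : Fin 2} {m : Mat}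
    (h : m ∈ H (Tau.X a b v, j) (Tau.X a' b' s, j')) :
    ∃ G, m = mX v s G ∧ ∀ v', mX v' s G ∈ H (Tau.X a b v', j) (Tau.X a' b' s, j') := by
  rw [H] at h
  split_ifs at h with hc
  · obtain ⟨G, hG, rfl⟩ := h
    refine ⟨G, rfl, fun v' => ?_⟩
    rw [H, if_pos hc]
    exact ⟨G, hG, rfl⟩
  · refine ⟨0, ?_, fun v' => ?_⟩
    · rw [(Submodule.mem_bot ℂ).1 h, map_zero]
    · rw [map_zero]; exact zero_mem _

theorem Z_entry {v i s i' : Fin 2} {m : Mat} (h : m ∈ H (Tau.Z v, i) (Tau.Z s, i')) :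
    ∃ G, m = mZ v s G ∧ ∀ v', mZ v' s G ∈ H (Tau.Z v', i) (Tau.Z s, i') := by
  rw [H] at h
  split_ifs at h with hc
  · obtain ⟨G, hG, rfl⟩ := h
    refine ⟨G, rfl, fun v' => ?_⟩
    rw [H, if_pos hc]
    exact ⟨G, hG, rfl⟩
  · refine ⟨0, ?_, fun v' => ?_⟩
    · rw [(Submodule.mem_bot ℂ).1 h, map_zero]
    · rw [map_zero]; exact zero_mem _

theorem fin2_other {v v' s : Fin 2} (h : v ≠ v') : s = v ∨ s = v' := by omega

theorem arZ_exact (i v v' : Fin 2) (hne : v ≠ v') (w : Vtx 2) (m : Mat)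
    (hm : m ∈ H (iota0 (vZ i v)) (px w)) (h0 : mZ v' v 1 * m = 0) :
    ∃ m' ∈ H (iota0 (vZ i v')) (px w), mZ v v' 1 * m' = m := by
  obtain ⟨τ, k⟩ := w
  cases τ with
  | Z s =>
    replace hm : m ∈ H (Tau.Z v, i) (Tau.Z s, k) := hm
    obtain ⟨G, rfl, hG⟩ := Z_entry hm
    rcases fin2_other (s := s) hne with rfl | rfl
    · rw [mZ_mul_mZ, if_pos (Or.inr rfl), one_mul] at h0
      have : G = 0 := mZ_injective _ _ (h0.trans (map_zero _).symm)
      subst this
      exact ⟨0, zero_mem _, by rw [mul_zero, map_zero]⟩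
    · exact ⟨mZ s s G, hG s, by rw [mZ_mul_mZ, if_pos (Or.inr rfl), one_mul]⟩
  | X a b s =>
    replace hm : m ∈ H (Tau.Z v, i) (Tau.X a.succ b.castSucc s, k) := hm
    obtain ⟨x, hx, rfl⟩ := H_ZX_cases hm
    rw [mZ_mul_mW] at h0
    have h1 := mW_eq_zero h0
    suffices h : ∃ x' ∈ WW (1 + a.succ.val + b.castSucc.val) (1 + b.castSucc.val)
        (1 + k.val - i.val), wmulZ v v' s 1 x' = x by
      obtain ⟨x', hx', hxx⟩ := h
      refine ⟨mW v' s x', ?_, by rw [mZ_mul_mW, hxx]⟩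
      show mW v' s x' ∈ H (Tau.Z v', i) (Tau.X a.succ b.castSucc s, k)
      rw [H]
      exact ⟨x', hx', rfl⟩
    rcases (by omega : v = 0 ∨ v = 1) with rfl | rfl <;>
      rcases (by omega : v' = 0 ∨ v' = 1) with rfl | rfl <;> (try exact absurd rfl hne) <;>
      rcases (by omega : s = 0 ∨ s = 1) with rfl | rfl <;>
      simp [wmulZ, map_one] at h1 ⊢
    all_goals first
      | exact ep_kernel hx h1
      | exact hx
      | exact ⟨⟨x, hx⟩, h1.symm⟩

theorem arX_chase (j v v' : Fin 2) (hne : v ≠ v') (w : Vtx 2) (m₀ m₁ n : Mat)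
    (h₀ : m₀ ∈ H (iota0 (vX 0 0 j v)) (px w)) (h₁ : m₁ ∈ H (iota0 (vX 0 0 j v)) (px w))
    (hn : n ∈ H (iota0 (vX 0 1 j v')) (px w))
    (e₀ : mX v' v 1 * m₀ = mX v' v' Polynomial.X * n)
    (e₁ : mX v' v 1 * m₁ = mX v' v' 1 * n) :
    ∃ p₀ p₁ q : Mat, p₀ ∈ H (iota0 (vX 0 0 j v')) (px w) ∧
      p₁ ∈ H (iota0 (vX 0 0 j v')) (px w) ∧ q ∈ H (iota0 (vX 0 1 j v)) (px w) ∧
      mX v v' 1 * p₀ + mX v v Polynomial.X * q = m₀ ∧
      mX v v' 1 * p₁ + mX v v 1 * q = m₁ := by
  obtain ⟨τ, k⟩ := w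
  cases τ with
  | Z s =>
    replace h₀ : m₀ ∈ H (Tau.X 0 0 v, j) (Tau.Z s, k) := h₀
    replace h₁ : m₁ ∈ H (Tau.X 0 0 v, j) (Tau.Z s, k) := h₁
    exact ⟨0, 0, 0, zero_mem _, zero_mem _, zero_mem _, by simp [H_XZ_cases h₀],
      by simp [H_XZ_cases h₁]⟩
  | X a b s =>
    replace h₀ : m₀ ∈ H (Tau.X 0 0 v, j) (Tau.X a.succ b.castSucc s, k) := h₀
    replace h₁ : m₁ ∈ H (Tau.X 0 0 v, j) (Tau.X a.succ b.castSucc s, k) := h₁
    replace hn : n ∈ H (Tau.X 0 1 v', j) (Tau.X a.succ b.castSucc s, k) := hn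
    obtain ⟨G₀, rfl, g₀⟩ := X_entry h₀
    obtain ⟨G₁, rfl, g₁⟩ := X_entry h₁
    obtain ⟨A, rfl, gA⟩ := X_entry hn
    rcases fin2_other (s := s) hne with rfl | rfl
    · rw [mX_mul_mX, mX_mul_mX, if_pos (Or.inr rfl), if_pos (Or.inl rfl), one_mul] at e₀ e₁
      rw [one_mul] at e₁
      have E₀ : G₀ = Polynomial.X * A := mX_injective _ _ e₀
      have E₁ : G₁ = A := mX_injective _ _ e₁
      refine ⟨0, 0, mX s s A, zero_mem _, zero_mem _, gA s, ?_, ?_⟩
      · rw [mul_zero, zero_add, mX_mul_mX, if_pos (Or.inl rfl), E₀]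
      · rw [mul_zero, zero_add, mX_mul_mX, if_pos (Or.inl rfl), one_mul, E₁]
    · refine ⟨mX s s G₀, mX s s G₁, 0, g₀ s, g₁ s, zero_mem _, ?_, ?_⟩
      · rw [mul_zero, add_zero, mX_mul_mX, if_pos (Or.inr rfl), one_mul]
      · rw [mul_zero, add_zero, mX_mul_mX, if_pos (Or.inr rfl), one_mul]

theorem eq_of_rows {u : Vtx 2} {y y' : Px} (hy : idem iota0 u • y = y)
    (hy' : idem iota0 u • y' = y') (h : ∀ w, y.val u w = y'.val u w) : y = y' := by
  apply Blk.ext
  funext x w
  rcases eq_or_ne x u with rfl | hx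
  · exact h w
  · rw [off_row hy hx, off_row hy' hx]

theorem idem_single_smul (u' u : Vtx 2) (c : Mat) (hc) (y : Px) :
    idem iota0 u' • (Cor.single (f := iota0) u' u c hc • y) =
      Cor.single (f := iota0) u' u c hc • y := by
  apply Blk.ext
  funext x w
  rw [idem_smul_val, single_smul_val, single_smul_val, if_pos rfl]

end PxAux

open PxAux

theorem specPxAux : SpecPxAux := by
  refine ⟨fun j v y hy _ h1 => eq_zero_of_row hy fun w => ?_, fun i v v' hne y hy h0 => ?_,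
    fun j v v' hne y₀ y₁ a hy₀ hy₁ ha e₀ e₁ => ?_⟩
  · have h := congrArg (fun z : Px => z.val (vX 0 0 j v) w) h1
    rwa [euO, single_smul_val, if_pos rfl, mX_self_one, one_mul, Blk.val_zero] at h
  · have key : ∀ w, ∃ m' ∈ H (iota0 (vZ i v')) (px w), mZ v v' 1 * m' = y.val (vZ i v) w := by
      intro w
      refine arZ_exact i v v' hne w _ (y.mem _ w) ?_
      have h := congrArg (fun z : Px => z.val (vZ i v') w) h0
      rwa [arZ, single_smul_val, if_pos rfl, Blk.val_zero] at h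
    choose m hm hmy using key
    refine ⟨row _ m hm, idem_row _ _ _, ?_⟩
    refine eq_of_rows (idem_single_smul _ _ _ _ _) hy fun w => ?_
    rw [arZ, single_smul_val, if_pos rfl, row_val, if_pos rfl, hmy]
  · have key : ∀ w, ∃ p₀ p₁ q : Mat, p₀ ∈ H (iota0 (vX 0 0 j v')) (px w) ∧
        p₁ ∈ H (iota0 (vX 0 0 j v')) (px w) ∧ q ∈ H (iota0 (vX 0 1 j v)) (px w) ∧
        mX v v' 1 * p₀ + mX v v Polynomial.X * q = y₀.val (vX 0 0 j v) w ∧
        mX v v' 1 * p₁ + mX v v 1 * q = y₁.val (vX 0 0 j v) w := by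
      intro w
      refine arX_chase j v v' hne w _ _ (a.val (vX 0 1 j v') w) (y₀.mem _ w) (y₁.mem _ w)
        (a.mem _ w) ?_ ?_
      · have h := congrArg (fun z : Px => z.val (vX 0 0 j v') w) e₀
        rwa [arX, euY, single_smul_val, single_smul_val, if_pos rfl, if_pos rfl] at h
      · have h := congrArg (fun z : Px => z.val (vX 0 0 j v') w) e₁
        rwa [arX, euO, single_smul_val, single_smul_val, if_pos rfl, if_pos rfl] at h
    choose p₀ p₁ q h₀ h₁ hq E₀ E₁ using key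
    refine ⟨row _ p₀ h₀, row _ p₁ h₁, row _ q hq, idem_row _ _ _, idem_row _ _ _,
      idem_row _ _ _, ?_, ?_⟩
    · refine eq_of_rows ?_ hy₀ fun w => ?_
      · rw [smul_add, arX, euY, idem_single_smul, idem_single_smul]
      · rw [Blk.val_add, Matrix.add_apply, arX, euY, single_smul_val, single_smul_val,
          if_pos rfl, if_pos rfl, row_val, row_val, if_pos rfl, if_pos rfl, E₀]
    · refine eq_of_rows ?_ hy₁ fun w => ?_
      · rw [smul_add, arX, euO, idem_single_smul, idem_single_smul]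
      · rw [Blk.val_add, Matrix.add_apply, arX, euO, single_smul_val, single_smul_val,
          if_pos rfl, if_pos rfl, row_val, row_val, if_pos rfl, if_pos rfl, E₁]

end

end Vale.Agent.P195
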