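import Vale.Agent.P195.RMidBase

/-!
Module H: `C` has no extensions by the projective module of the level 4.
-/

namespace Vale.Agent.P195.RMid

open CategoryTheory MulOpposite

noncomputable section

/-! ### Consequences of the tools -/

/-- `Hom(P_y, -)` is bijective on maps out of `N'` -/
def PostBij : Prop := ∀ Z : ModuleCat.{0} AP, Function.Bijective (postU (Z := Z))

/-- `U` is acyclic for the images of injectives -/
def UUAcyclic : Prop :=
  ∀ E : ModuleCat.{0} AP, Injective E → ∀ n, 1 ≤ n → EV n (ModuleCat.of AX UU) (HY E)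

theorem ff_np (hFin : SpecFinite) (hFF : SpecFF) (hEuler : SpecEuler) (hEJ : SpecEulerJunk) :
    PostBij ∧ UUAcyclic := by
  haveI := hFin.1
  haveI := py_finite hFin
  obtain ⟨-, -, h1, -, -, h2, h3, h4⟩ := hEuler
  obtain ⟨hb, hac⟩ := hFF AP AX Py h1 h2 h3 h4 (ModuleCat.of AP NP) (np_finite hFin) hEJ.2.2
  exact ⟨fun Z => hb Z, fun E hE => hac E hE⟩

theorem ev_empty {A : Type} [Ring A] {n : ℕ} {X Y : ModuleCat.{0} A} (h : ∀ x : X, x = 0) :
    EV n X Y :=
  ev_of_factor_left (ι := Empty) (fun i => i.elim) (fun i => i.elim) (fun i => i.elim)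
    (fun x => by rw [Finset.univ_eq_empty, Finset.sum_empty, h x]) (fun i => i.elim)

theorem ev_eR (Y : ModuleCat.{0} AX) (hY : ∀ n, 1 ≤ n → EV n (ModuleCat.of AX UU) Y) {n : ℕ}
    (hn : 1 ≤ n) : EV n (eR jTop) Y := by
  refine ev_of_factor_left (ι := Bool)
    (fun i => if i then ModuleCat.of AX AX else ModuleCat.of AX UU)
    (fun i => match i with
      | true => topcL
      | false => ucL)
    (fun i => match i with
      | true => LinearMap.toSpanSingleton AX (eR jTop) tE
      | false => uEL)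
    (fun x => ?_) (fun i => ?_)
  · rw [Fintype.sum_bool]
    exact (eR_decomp x).symm
  · cases i
    · exact hY n hn
    · exact ev_of_projective (P := ModuleCat.of AX AX) hn

theorem projZero_jTop (a : AX) : projZero (jTop a) = 0 := rfl

theorem modC_top (x : ModC) (hx : jTop 1 • x = x) : x = 0 := by
  rw [← hx]
  show projZero (jTop 1) • (show C0 from x) = (0 : C0)
  rw [projZero_jTop, zero_smul]

theorem ev_theta_injective (hCorner : SpecCorner) (hFin : SpecFinite) (hU : UUAcyclic)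
    (hC : Module.Finite RR ModC) (E : ModuleCat.{0} AP) (hE : Injective E) (n : ℕ) :
    EV n ModC (Theta E) := by
  haveI := rr_noetherian hFin
  refine (hCorner RR AX jTop (HY E) (fun m hm => ev_eR _ (hU E hE) hm) n ModC hC).1 ?_
  exact ev_empty fun x => Subtype.ext (modC_top x.1 x.2)

/-! ### Components of a quotient of `Θ Z` -/

theorem theta_decomp (hb : PostBij) {Z : ModuleCat.{0} AP} (f : Theta Z) :
    ∃ h g, f = thT h + thL g := by
  obtain ⟨g, hg⟩ := (hb Z).2 (clin f ∘ₗ uEL)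
  refine ⟨clin f tE, g, cext2 ?_ fun u => ?_⟩
  · rw [clin_add, thT_tE, thL_tE, add_zero]
  · rw [clin_add, thT_uE, thL_uE, zero_add, hg]
    rfl

theorem thL_injective (hb : PostBij) {Z : ModuleCat.{0} AP} :
    Function.Injective (thL (Z := Z)) := fun g g' h =>
  (hb Z).1 (LinearMap.ext fun u => congrArg (fun f => clin f (uE u)) h)

theorem disj_quot (hb : PostBij) {Z : ModuleCat.{0} AP} (W : Submodule RR (Theta Z))
    (L : Submodule AP (HomP AP NP Z)) (htop : ∀ h, thT h ∈ W) (hL : ∀ g, thL g ∈ W ↔ g ∈ L)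
    (hD : sysP.Disj (fun _ => natSet) (ModuleCat.of AP (HomP AP NP Z ⧸ L))) :
    sysR.Disj (fun x => sig x.1) (ModuleCat.of RR (Theta Z ⧸ W)) := by
  have hsur : ∀ x : Theta Z ⧸ W, ∃ g, W.mkQ (thL g) = x := by
    intro x
    obtain ⟨f, rfl⟩ := W.mkQ_surjective x
    obtain ⟨h, g, rfl⟩ := theta_decomp hb f
    refine ⟨g, ?_⟩
    rw [map_add, show W.mkQ (thT h) = 0 from (Submodule.Quotient.mk_eq_zero W).2 (htop h),
      zero_add]
  have hle : L ≤ LinearMap.ker (levQ W) := fun g hg => LinearMap.mem_ker.2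
    (Subtype.ext ((Submodule.Quotient.mk_eq_zero W).2 ((hL g).2 hg)))
  refine disj_sig _ ?_ ?_ _ (L.liftQ (levQ W) hle) ⟨?_, ?_⟩ hD
  · intro x hx
    obtain ⟨g, rfl⟩ := hsur x
    rw [← hx, ← map_smul, jTop_smul_thL, map_zero]
  · intro l hl x hx
    obtain ⟨g, rfl⟩ := hsur x
    rw [← hx, ← map_smul, jLev_smul_thL hl, map_zero]
  · refine (injective_iff_map_eq_zero _).2 fun q hq => ?_
    obtain ⟨g, rfl⟩ := L.mkQ_surjective q
    exact (Submodule.Quotient.mk_eq_zero L).2
      ((hL g).1 ((Submodule.Quotient.mk_eq_zero W).1 (congrArg Subtype.val hq)))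
  · rintro ⟨x, hx⟩
    obtain ⟨g, hg⟩ := hsur x
    exact ⟨L.mkQ g, Subtype.ext hg⟩

/-- no extensions of `C` by modules disjoint from the spectral sets -/
def OrthC : Prop :=
  ∀ V : ModuleCat.{0} RR, sysR.Disj (fun x => sig x.1) V → ∀ n, EV n ModC V

theorem orthC (hFin : SpecFinite) (hOrth : SpecOrth) (hRR : SpecRRegular) (hCCl : SpecCCl) :
    OrthC := fun V hV n =>
  haveI := rr_finite' hFin
  hOrth RR (Option (Fin 5) × Tau 2) sysR (fun x => sig x.1) (hRR sig sig_closed) ModC V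
    (hCCl sig sig_closed ⟨0, Nat.cast_zero⟩) hV n

/-! ### The cosyzygy step -/

theorem disj_step (hb : PostBij) {S : ShortComplex (ModuleCat.{0} AP)} (hS : S.ShortExact)
    (h1 : EV 1 (ModuleCat.of AP Py) S.X₁)
    (hD : sysP.Disj (fun _ => natSet) (ModuleCat.of AP (HomP AP NP S.X₃ ⧸
        LinearMap.range (HomP.map (A := AP) (B := AP) (P := NP) S.g.hom)))) :
    sysR.Disj (fun x => sig x.1) (ModuleCat.of RR
      (Theta S.X₃ ⧸ LinearMap.range (coindMap (hyMap S.g.hom)))) := by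
  refine disj_quot hb _ _ (fun h => ?_) (fun g => ⟨?_, ?_⟩) hD
  · obtain ⟨h', hh'⟩ := lift_of_ev_one hS (ModuleCat.of AP Py) h1 (HomP.toLin h)
    refine ⟨thT (HomP.ofLin h'), ?_⟩
    rw [coindMap_thT]
    exact congrArg thT (HomP.ext fun p => congrArg (fun q => q p) hh')
  · rintro ⟨f, hf⟩
    obtain ⟨h', g', rfl⟩ := theta_decomp hb f
    rw [map_add, coindMap_thT, coindMap_thL] at hf
    have e := congrArg (fun z => jLev (Fin.last 4) 1 • z) hf
    simp only [smul_add, jLev_smul_thT, jLev_last_smul_thL, one_smul, zero_add] at e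
    exact ⟨g', thL_injective hb e⟩
  · rintro ⟨g', rfl⟩
    exact ⟨thL g', coindMap_thL _ _⟩

theorem function_exact_of_shortExact {S : ShortComplex (ModuleCat.{0} AP)} (hS : S.ShortExact) :
    Function.Exact S.f.hom S.g.hom :=
  (ShortComplex.ShortExact.moduleCat_exact_iff_function_exact S).1 hS.exact

/-- the vanishing of all `Ext^n(C, Θ Z)` for the relevant `Z` -/
def VanTheta (n : ℕ) : Prop :=
  ∀ Z : ModuleCat.{0} AP, Good Z → EV 1 (ModuleCat.of AP Py) Z → EV n ModC (Theta Z)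

theorem coindMap_hy_injective {S : ShortComplex (ModuleCat.{0} AP)} (hS : S.ShortExact) :
    Function.Injective (coindMap (hyMap S.f.hom)) :=
  coindMap_injective _ (hyMap_injective _ ((ModuleCat.mono_iff_injective S.f).1 hS.mono_f))

theorem coindMap_hy_exact {S : ShortComplex (ModuleCat.{0} AP)} (hS : S.ShortExact) :
    Function.Exact (coindMap (hyMap S.f.hom)) (coindMap (hyMap S.g.hom)) :=
  have hi := (ModuleCat.mono_iff_injective S.f).1 hS.mono_f
  coindMap_exact _ _ (hyMap_injective _ hi)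
    (hyMap_exact _ _ hi (function_exact_of_shortExact hS))

theorem shortExact_rangeRestrict {A : Type} [Ring A] {X Y Z : ModuleCat.{0} A} (f : X →ₗ[A] Y)
    (g : Y →ₗ[A] Z) (h : Function.Exact f g) : Function.Exact f g.rangeRestrict :=
  fun y => Iff.trans ⟨fun e => congrArg Subtype.val e, fun e => Subtype.ext e⟩ (h y)

theorem ev_ker_zero {A : Type} [Ring A] {X Y Z C : ModuleCat.{0} A} (f : X →ₗ[A] Y)
    (g : Y →ₗ[A] Z) (hf : Function.Injective f) (h : Function.Exact f g) (h₂ : EV 0 C Y) :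
    EV 0 C X :=
  ev_left_zero' (shortExact_mk (Z := ModuleCat.of A (LinearMap.range g)) f g.rangeRestrict hf
    g.surjective_rangeRestrict (shortExact_rangeRestrict f g h)) C h₂

theorem ev_ker_succ {A : Type} [Ring A] {X Y Z C : ModuleCat.{0} A} (f : X →ₗ[A] Y)
    (g : Y →ₗ[A] Z) (hf : Function.Injective f) (h : Function.Exact f g) {n : ℕ}
    (h₃ : EV n C (ModuleCat.of A (LinearMap.range g))) (h₂ : EV (n + 1) C Y) :
    EV (n + 1) C X :=
  ev_left' (shortExact_mk (Z := ModuleCat.of A (LinearMap.range g)) f g.rangeRestrict hf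
    g.surjective_rangeRestrict (shortExact_rangeRestrict f g h)) C h₃ h₂

theorem exists_inj_seq (Z : ModuleCat.{0} AP) :
    ∃ S : ShortComplex (ModuleCat.{0} AP), S.ShortExact ∧ Injective S.X₂ ∧ S.X₁ = Z := by
  obtain ⟨P⟩ := EnoughInjectives.presentation Z
  haveI := P.mono
  exact ⟨_, shortExact_mk (Z := ModuleCat.of AP (P.J ⧸ LinearMap.range P.f.hom)) P.f.hom
    (LinearMap.range P.f.hom).mkQ ((ModuleCat.mono_iff_injective P.f).1 inferInstance)
    (Submodule.mkQ_surjective _) (LinearMap.exact_map_mkQ_range P.f.hom), P.injective, rfl⟩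

theorem van_zero (hCorner : SpecCorner) (hFin : SpecFinite) (hU : UUAcyclic)
    (hC : Module.Finite RR ModC) : VanTheta 0 := by
  intro Z _ _
  obtain ⟨S, hS, hI, rfl⟩ := exists_inj_seq Z
  exact ev_ker_zero _ _ (coindMap_hy_injective hS) (coindMap_hy_exact hS)
    (ev_theta_injective hCorner hFin hU hC _ hI 0)

theorem ev_range (hO : OrthC) (hb : PostBij) {S : ShortComplex (ModuleCat.{0} AP)}
    (hS : S.ShortExact) (h1 : EV 1 (ModuleCat.of AP Py) S.X₁)
    (hD : sysP.Disj (fun _ => natSet) (ModuleCat.of AP (HomP AP NP S.X₃ ⧸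
        LinearMap.range (HomP.map (A := AP) (B := AP) (P := NP) S.g.hom))))
    {n : ℕ} (h3 : EV n ModC (Theta S.X₃)) :
    EV n ModC (ModuleCat.of RR (LinearMap.range (coindMap (hyMap S.g.hom)))) := by
  have hT := shortExact_sub (LinearMap.range (coindMap (hyMap S.g.hom)))
  rcases n with _ | n
  · exact ev_left_zero' hT ModC h3
  · exact ev_left' hT ModC (hO _ (disj_step hb hS h1 hD) n) h3

theorem van_succ (hCorner : SpecCorner) (hFin : SpecFinite) (hU : UUAcyclic) (hb : PostBij)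
    (hC : Module.Finite RR ModC) (hO : OrthC) (hEuler : SpecEuler) (hCosyz : SpecCosyz)
    {n : ℕ} (ih : VanTheta n) : VanTheta (n + 1) := by
  intro Z hG hZ
  obtain ⟨S, hS, hI, rfl⟩ := exists_inj_seq Z
  obtain ⟨hG', hD⟩ := hCosyz.2.1 S hS hI hG
  haveI := hI
  have h3 : EV 1 (ModuleCat.of AP Py) S.X₃ :=
    ev_right' hS _ (ev_of_injective le_rfl) (hEuler.1 2 le_rfl _).2
  have hQ := ev_range hO hb hS hZ hD (ih S.X₃ hG' h3)
  exact ev_ker_succ _ _ (coindMap_hy_injective hS) (coindMap_hy_exact hS) hQ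
    (ev_theta_injective hCorner hFin hU hC _ hI (n + 1))

/-! ### The level 4 column -/

/-- the comparison element -/
def kappa : Theta (ModuleCat.of AP NP) := thL (HomP.ofLin LinearMap.id)

/-- the comparison map -/
def PhiL : levCol (Fin.last 4) →ₗ[RR] Theta (ModuleCat.of AP NP) :=
  LinearMap.toSpanSingleton RR _ kappa ∘ₗ (Submodule.span RR {jLev (Fin.last 4) 1}).subtype

theorem kappa_apply (x : eR jTop) : clin kappa x = uc (rval x) := HomP.ext fun _ => rfl

theorem PhiL_apply (r : levCol (Fin.last 4)) (x : eR jTop) :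
    clin (PhiL r) x = uc (rval x * r.1) := kappa_apply _

theorem col_mul (r : levCol (Fin.last 4)) : r.1 * jLev (Fin.last 4) 1 = r.1 := by
  obtain ⟨s, hs⟩ := Submodule.mem_span_singleton.1 r.2
  rw [← hs, smul_eq_mul, mul_assoc, ← map_mul, one_mul]

theorem col_snd (r : levCol (Fin.last 4)) :
    r.1.snd.id_ = 0 ∧ r.1.snd.pp = 0 ∧
      ∀ l, l ≠ Fin.last 4 → r.1.fst.1 l = 0 := by
  have e := col_mul r
  have e1 := congrArg TrivSqZeroExt.snd e
  have e2 : r.1.fst * (jLev (Fin.last 4) 1).fst = r.1.fst := congrArg TrivSqZeroExt.fst e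
  rw [TrivSqZeroExt.snd_mul,
    show (jLev (Fin.last 4) 1).snd = (0 : RB) from rfl, smul_zero, zero_add,
    show (jLev (Fin.last 4) 1).fst = dLev (Fin.last 4) 1 from rfl, rb_op_smul] at e1
  refine ⟨?_, ?_, fun l hl => ?_⟩
  · rw [← e1, RB.id_mk]
    funext l
    rw [dLev_fst, Pi.single_eq_of_ne (Fin.castSucc_lt_last l).ne, mul_zero]
    rfl
  · rw [← e1, RB.pp_mk, dLev_snd]
    exact zero_smul AXᵐᵒᵖ _
  · rw [← e2, Prod.fst_mul, Pi.mul_apply, fst_jLev, Pi.single_eq_of_ne hl, mul_zero]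

theorem col_top (r : levCol (Fin.last 4)) : topc r.1 = 0 := by
  rw [← col_mul r, topc_mul, topc_jLev, mul_zero]

/-- the level-4 coordinate of a column element -/
def cc (r : levCol (Fin.last 4)) : AP := r.1.fst.1 (Fin.last 4)

theorem col_ext {r s : levCol (Fin.last 4)} (h1 : cc r = cc s) (h2 : uc r.1 = uc s.1) :
    r = s := by
  refine Subtype.ext (TrivSqZeroExt.ext (Prod.ext (funext fun l => ?_) ?_) ?_)
  · rcases eq_or_ne l (Fin.last 4) with rfl | hl
    · exact h1
    · rw [(col_snd r).2.2 l hl, (col_snd s).2.2 l hl]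
  · exact (col_top r).trans (col_top s).symm
  · exact RB.ext ((col_snd r).1.trans (col_snd s).1.symm) h2
      ((col_snd r).2.1.trans (col_snd s).2.1.symm)

theorem PhiL_eq (r : levCol (Fin.last 4)) :
    PhiL r = thT (uc r.1) + thL (phiNP (cc r)) := by
  refine cext fun x => ?_
  rw [PhiL_apply, uc_mul, clin_add, thT_apply, thL_apply]
  refine congrArg₂ (· + ·) rfl ?_
  exact HomP.ext fun _ => rfl

/-- `jLev 4 a` in the column -/
def colLev (a : AP) : levCol (Fin.last 4) :=
  ⟨jLev (Fin.last 4) a, Submodule.mem_span_singleton.2 ⟨jLev (Fin.last 4) a, by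
    rw [smul_eq_mul, ← map_mul, mul_one]⟩⟩

/-- elements of `U` in the column -/
def colU (u : UU) : levCol (Fin.last 4) :=
  ⟨edgeU u, Submodule.mem_span_singleton.2 ⟨edgeU u, by
    rw [smul_eq_mul]
    refine TrivSqZeroExt.ext ?_ ?_
    · rw [TrivSqZeroExt.fst_mul, fst_edgeU, zero_mul]
    · rw [TrivSqZeroExt.snd_mul, fst_edgeU,
        show (jLev (Fin.last 4) 1).snd = (0 : RB) from rfl, smul_zero, zero_add]
      show op (dLev (Fin.last 4) 1) • RB.mk 0 u 0 = RB.mk 0 u 0
      rw [rb_op_smul]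
      refine RB.ext (funext fun l => zero_mul _) ?_ (smul_zero _)
      rw [RB.uu_mk, RB.uu_mk, dLev_fst, Pi.single_eq_same, op_one, one_smul]⟩⟩

theorem cc_colLev (a : AP) : cc (colLev a) = a := Pi.single_eq_same _ a
theorem uc_colLev (a : AP) : uc (colLev a).1 = 0 := rfl
theorem cc_colU (u : UU) : cc (colU u) = 0 := rfl
theorem uc_colU (u : UU) : uc (colU u).1 = u := rfl

theorem range_PhiL_top (h : HY (ModuleCat.of AP NP)) : thT h ∈ LinearMap.range PhiL := by
  refine ⟨colU h, ?_⟩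
  rw [PhiL_eq, cc_colU, uc_colU, map_zero]
  exact (congrArg (thT h + ·) (cext fun _ => HomP.ext fun _ => rfl)).trans (add_zero _)

theorem range_PhiL_lev (hb : PostBij) (g : HomP AP NP NP) :
    thL (Z := ModuleCat.of AP NP) g ∈ LinearMap.range PhiL ↔ g ∈ LinearMap.range phiNP := by
  constructor
  · rintro ⟨r, hr⟩
    rw [PhiL_eq] at hr
    have e := congrArg (fun z => jLev (Fin.last 4) 1 • z) hr
    simp only [smul_add, jLev_smul_thT, jLev_last_smul_thL, one_smul, zero_add] at e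
    exact ⟨cc r, thL_injective hb e⟩
  · rintro ⟨a, rfl⟩
    refine ⟨colLev a, ?_⟩
    rw [PhiL_eq, cc_colLev, uc_colLev, thT_zero, zero_add]

theorem disj_coker (hb : PostBij) (hCosyz : SpecCosyz) :
    sysR.Disj (fun x => sig x.1)
      (ModuleCat.of RR (Theta (ModuleCat.of AP NP) ⧸ LinearMap.range PhiL)) :=
  disj_quot hb _ _ range_PhiL_top (range_PhiL_lev hb) hCosyz.2.2.2

theorem phiL_ker_iff (hb : PostBij) (r : levCol (Fin.last 4)) :
    PhiL r = 0 ↔ uc r.1 = 0 ∧ phiNP (cc r) = 0 := by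
  rw [PhiL_eq]
  constructor
  · intro h
    have hu : uc r.1 = 0 := by
      have e := congrArg (fun f => clin f tE) h
      have e' : clin (thT (uc r.1)) tE + clin (thL (Z := ModuleCat.of AP NP) (phiNP (cc r))) tE
          = (0 : HY (ModuleCat.of AP NP)) := e
      rw [thT_tE, thL_tE, add_zero] at e'
      exact e'
    have hg := @thL_injective hb (ModuleCat.of AP NP) (phiNP (cc r)) 0
    refine ⟨hu, hg ?_⟩
    rw [hu, thT_zero, zero_add] at h
    exact h.trans (cext fun _ => HomP.ext fun _ => rfl)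
  · rintro ⟨h1, h2⟩
    rw [h1, h2, thT_zero, zero_add]
    exact cext fun _ => HomP.ext fun _ => rfl

theorem cc_smul_jLev (l : Fin 5) (a : AP) (r : levCol (Fin.last 4)) :
    cc (jLev l a • r) = Pi.single (M := fun _ : Fin 5 => AP) l a (Fin.last 4) * cc r := rfl

theorem uc_smul_jLev (l : Fin 5) (a : AP) (r : levCol (Fin.last 4)) :
    uc (jLev l a • r).1 = 0 := by
  show uc (jLev l a * r.1) = 0
  rw [uc_mul, topc_jLev, uc_jLev, smul_zero, add_zero]
  exact zero_smul AX _

theorem cc_smul_jTop (a : AX) (r : levCol (Fin.last 4)) : cc (jTop a • r) = 0 := zero_mul _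

theorem colLev_mem_ker (hb : PostBij) (a : LinearMap.ker phiNP) :
    colLev a.1 ∈ LinearMap.ker PhiL :=
  LinearMap.mem_ker.2 ((phiL_ker_iff hb _).2 ⟨uc_colLev _, by rw [cc_colLev]; exact a.2⟩)

/-- the kernel of `phiNP` as the level 4 component of the kernel -/
def kerLev (hb : PostBij) :
    LinearMap.ker phiNP →ₗ[AP]
      resC (jLev (Fin.last 4)) (ModuleCat.of RR (LinearMap.ker PhiL)) where
  toFun a := ⟨⟨colLev a.1, colLev_mem_ker hb a⟩, Subtype.ext (Subtype.ext
    (jLev_one_mul_self _ a.1))⟩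
  map_add' a b := Subtype.ext (Subtype.ext (Subtype.ext (map_add (jLev (Fin.last 4)) a.1 b.1)))
  map_smul' c a := Subtype.ext (Subtype.ext (Subtype.ext (map_mul (jLev (Fin.last 4)) c a.1)))

theorem disj_ker (hb : PostBij) (hCosyz : SpecCosyz) :
    sysR.Disj (fun x => sig x.1) (ModuleCat.of RR (LinearMap.ker PhiL)) := by
  refine disj_sig _ ?_ ?_ _ (kerLev hb) ⟨?_, ?_⟩ hCosyz.2.2.1
  · intro x hx
    have hu := ((phiL_ker_iff hb x.1).1 x.2).1
    rw [← hx]
    refine Subtype.ext (col_ext ?_ ?_)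
    · exact cc_smul_jTop 1 x.1
    · show uc (jTop 1 * x.1.1) = 0
      rw [uc_mul, uc_jTop, hu, smul_zero, smul_zero, add_zero]
  · intro l hl x hx
    rw [← hx]
    refine Subtype.ext (col_ext ?_ ?_)
    · exact (cc_smul_jLev l 1 x.1).trans (by rw [Pi.single_eq_of_ne hl.symm, zero_mul]; rfl)
    · exact uc_smul_jLev l 1 x.1
  · intro a b h
    have := congrArg (fun z => cc z.1.1) h
    refine Subtype.ext ?_
    exact (cc_colLev a.1).symm.trans (this.trans (cc_colLev b.1))
  · rintro ⟨x, hx⟩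
    obtain ⟨hu, hc⟩ := (phiL_ker_iff hb x.1).1 x.2
    exact ⟨⟨cc x.1, LinearMap.mem_ker.2 hc⟩,
      Subtype.ext (Subtype.ext (col_ext (cc_colLev _) ((uc_colLev _).trans hu.symm)))⟩

theorem ev_range_PhiL (hO : OrthC) (hb : PostBij) (hCosyz : SpecCosyz)
    (hT : ∀ n, EV n ModC (Theta (ModuleCat.of AP NP))) (n : ℕ) :
    EV n ModC (ModuleCat.of RR (LinearMap.range PhiL)) := by
  have hS := shortExact_sub (LinearMap.range PhiL)
  rcases n with _ | n
  · exact ev_left_zero' hS ModC (hT 0)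
  · exact ev_left' hS ModC (hO _ (disj_coker hb hCosyz) n) (hT (n + 1))

theorem ev_levCol (hO : OrthC) (hb : PostBij) (hCosyz : SpecCosyz)
    (hT : ∀ n, EV n ModC (Theta (ModuleCat.of AP NP))) (n : ℕ) :
    EV n ModC (levCol (Fin.last 4)) := by
  have hS := shortExact_mk (X := ModuleCat.of RR (LinearMap.ker PhiL))
    (Z := ModuleCat.of RR (LinearMap.range PhiL)) (LinearMap.ker PhiL).subtype
    PhiL.rangeRestrict Subtype.val_injective PhiL.surjective_rangeRestrict
    (fun y => ⟨fun h => ⟨⟨y, LinearMap.mem_ker.2 (congrArg Subtype.val h)⟩, rfl⟩,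
      fun ⟨z, hz⟩ => hz ▸ Subtype.ext (LinearMap.mem_ker.1 z.2)⟩)
  exact ev_mid' hS ModC (hO _ (disj_ker hb hCosyz) n) (ev_range_PhiL hO hb hCosyz hT n)

end

end Vale.Agent.P195.RMid

namespace Vale.Agent.P195

open CategoryTheory

/-- H: no extensions of `C` by the column of the level 4 -/
theorem specCMid (hFin : SpecFinite) (hCorner : SpecCorner) (hFF : SpecFF) (hEuler : SpecEuler)
    (hEJ : SpecEulerJunk) (hCosyz : SpecCosyz) (hOrth : SpecOrth) (hRR : SpecRRegular)
    (hCCl : SpecCCl) : SpecCMid := by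
  obtain ⟨hb, hU⟩ := RMid.ff_np hFin hFF hEuler hEJ
  have hO := RMid.orthC hFin hOrth hRR hCCl
  have hC : Module.Finite RR ModC := (hCCl RMid.sig RMid.sig_closed ⟨0, Nat.cast_zero⟩).1
  have hV : ∀ n, RMid.VanTheta n := by
    intro n
    induction n with
    | zero => exact RMid.van_zero hCorner hFin hU hC
    | succ n ih => exact RMid.van_succ hCorner hFin hU hb hC hO hEuler hCosyz ih
  exact fun n => RMid.ev_levCol hO hb hCosyz (fun m => hV m _ hCosyz.1 hEJ.2.2) n

end Vale.Agent.P195
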