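import Vale.Agent.P195.Pencil

/-!
Module E of P195, generic part: pencils acting from the left on kernels and cokernels of a right
pencil of a bimodule, element by element.
-/

namespace Vale.Agent.P195

open CategoryTheory MulOpposite

/-- Left multiplication by `a` is bijective, from the `e1`- to the `e0`-component, both on the
kernel of the right multiplication `r` (column `f0` to column `f1`) and on its cokernel. -/
structure PenBij {L K : Type} [Ring L] [Ring K] (M : Type) [AddCommGroup M] [Module L M]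
    [Module Kᵐᵒᵖ M] (e0 e1 a : L) (f0 f1 r : K) : Prop where
  kinj : ∀ y : M, e1 • y = y → op f0 • y = y → op r • y = 0 → a • y = 0 → y = 0
  ksurj : ∀ x : M, e0 • x = x → op f0 • x = x → op r • x = 0 →
    ∃ y : M, e1 • y = y ∧ op f0 • y = y ∧ op r • y = 0 ∧ a • y = x
  cinj : ∀ y z : M, e1 • y = y → op f1 • y = y → op f0 • z = z → op r • z = a • y →
    ∃ w : M, op f0 • w = w ∧ op r • w = y
  csurj : ∀ x : M, e0 • x = x → op f1 • x = x →
    ∃ y z : M, e1 • y = y ∧ op f1 • y = y ∧ op f0 • z = z ∧ a • y + op r • z = x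

section Basic

variable {L K M : Type} [Ring L] [Ring K] [AddCommGroup M] [Module L M] [Module Kᵐᵒᵖ M]

theorem PenBij.of_left_zero {e0 e1 a : L} {f0 f1 r : K} (he0 : e0 = 0) (he1 : e1 = 0) :
    PenBij M e0 e1 a f0 f1 r := by
  subst he0 he1
  refine ⟨fun y hy _ _ _ => ?_, fun x hx _ _ => ?_, fun y z hy _ _ _ => ?_, fun x hx _ => ?_⟩
  · rw [← hy, zero_smul]
  · have : x = 0 := by rw [← hx, zero_smul]
    subst this
    exact ⟨0, smul_zero _, smul_zero _, smul_zero _, smul_zero _⟩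
  · have : y = 0 := by rw [← hy, zero_smul]
    subst this
    exact ⟨0, smul_zero _, smul_zero _⟩
  · have : x = 0 := by rw [← hx, zero_smul]
    subst this
    exact ⟨0, 0, smul_zero _, smul_zero _, smul_zero _, by rw [smul_zero, smul_zero, add_zero]⟩

theorem PenBij.of_right_zero {e0 e1 a : L} {f0 f1 r : K} (hf0 : f0 = 0) (hf1 : f1 = 0) :
    PenBij M e0 e1 a f0 f1 r := by
  subst hf0 hf1
  refine ⟨fun y _ hy _ _ => ?_, fun x _ hx _ => ?_, fun y z _ hy _ _ => ?_, fun x _ hx => ?_⟩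
  · rw [← hy, op_zero, zero_smul]
  · have : x = 0 := by rw [← hx, op_zero, zero_smul]
    subst this
    exact ⟨0, smul_zero _, smul_zero _, smul_zero _, smul_zero _⟩
  · have : y = 0 := by rw [← hy, op_zero, zero_smul]
    subst this
    exact ⟨0, smul_zero _, smul_zero _⟩
  · have : x = 0 := by rw [← hx, op_zero, zero_smul]
    subst this
    exact ⟨0, 0, smul_zero _, smul_zero _, smul_zero _, by rw [smul_zero, smul_zero, add_zero]⟩

theorem PenBij.of_inj {e0 e1 a : L} {f0 f1 r : K}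
    (hinj : ∀ y : M, op f0 • y = y → op r • y = 0 → y = 0)
    (cinj : ∀ y z : M, e1 • y = y → op f1 • y = y → op f0 • z = z → op r • z = a • y →
      ∃ w : M, op f0 • w = w ∧ op r • w = y)
    (csurj : ∀ x : M, e0 • x = x → op f1 • x = x →
      ∃ y z : M, e1 • y = y ∧ op f1 • y = y ∧ op f0 • z = z ∧ a • y + op r • z = x) :
    PenBij M e0 e1 a f0 f1 r := by
  refine ⟨fun y _ h1 h2 _ => hinj y h1 h2, fun x _ h1 h2 => ?_, cinj, csurj⟩
  obtain rfl := hinj x h1 h2
  exact ⟨0, smul_zero _, smul_zero _, smul_zero _, smul_zero _⟩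

/-- transport of `PenBij` along a bijection -/
theorem PenBij.of_equiv {L' K' N : Type} [Ring L'] [Ring K'] [AddCommGroup N] [Module L' N]
    [Module K'ᵐᵒᵖ N] (e : M ≃+ N) (φ : L → L') (ψ : K → K')
    (hL : ∀ (l : L) (m : M), e (l • m) = φ l • e m)
    (hR : ∀ (c : K) (m : M), e (op c • m) = op (ψ c) • e m) {e0 e1 a : L} {f0 f1 r : K}
    (h : PenBij N (φ e0) (φ e1) (φ a) (ψ f0) (ψ f1) (ψ r)) : PenBij M e0 e1 a f0 f1 r := by
  have bL : ∀ (l : L) (n : N), e.symm (φ l • n) = l • e.symm n := fun l n => by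
    rw [e.symm_apply_eq, hL, e.apply_symm_apply]
  have bR : ∀ (c : K) (n : N), e.symm (op (ψ c) • n) = op c • e.symm n := fun c n => by
    rw [e.symm_apply_eq, hR, e.apply_symm_apply]
  refine ⟨fun y h1 h2 h3 h4 => ?_, fun x h1 h2 h3 => ?_, fun y z h1 h2 h3 h4 => ?_,
    fun x h1 h2 => ?_⟩
  · refine e.map_eq_zero_iff.1 (h.kinj (e y) ?_ ?_ ?_ ?_) <;> simp only [← hL, ← hR, h1, h2, h3, h4,
      map_zero]
  · obtain ⟨y, k1, k2, k3, k4⟩ := h.ksurj (e x) (by rw [← hL, h1]) (by rw [← hR, h2])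
      (by rw [← hR, h3, map_zero])
    exact ⟨e.symm y, by rw [← bL, k1], by rw [← bR, k2], by rw [← bR, k3, map_zero],
      by rw [← bL, k4, e.symm_apply_apply]⟩
  · obtain ⟨w, k1, k2⟩ := h.cinj (e y) (e z) (by rw [← hL, h1]) (by rw [← hR, h2])
      (by rw [← hR, h3]) (by rw [← hR, h4, hL])
    exact ⟨e.symm w, by rw [← bR, k1], by rw [← bR, k2, e.symm_apply_apply]⟩
  · obtain ⟨y, z, k1, k2, k3, k4⟩ := h.csurj (e x) (by rw [← hL, h1]) (by rw [← hR, h2])
    exact ⟨e.symm y, e.symm z, by rw [← bL, k1], by rw [← bR, k2], by rw [← bR, k3],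
      by rw [← bL, ← bR, ← map_add, k4, e.symm_apply_apply]⟩

/-- transport of `PenBij` along a bijection, the other way round -/
theorem PenBij.map_equiv {L' K' N : Type} [Ring L'] [Ring K'] [AddCommGroup N] [Module L' N]
    [Module K'ᵐᵒᵖ N] (e : M ≃+ N) (φ : L → L') (ψ : K → K')
    (hL : ∀ (l : L) (m : M), e (l • m) = φ l • e m)
    (hR : ∀ (c : K) (m : M), e (op c • m) = op (ψ c) • e m) {e0 e1 a : L} {f0 f1 r : K}
    (h : PenBij M e0 e1 a f0 f1 r) : PenBij N (φ e0) (φ e1) (φ a) (ψ f0) (ψ f1) (ψ r) := by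
  have bL : ∀ (l : L) (n : N), e.symm (φ l • n) = l • e.symm n := fun l n => by
    rw [e.symm_apply_eq, hL, e.apply_symm_apply]
  have bR : ∀ (c : K) (n : N), e.symm (op (ψ c) • n) = op c • e.symm n := fun c n => by
    rw [e.symm_apply_eq, hR, e.apply_symm_apply]
  refine ⟨fun y h1 h2 h3 h4 => ?_, fun x h1 h2 h3 => ?_, fun y z h1 h2 h3 h4 => ?_,
    fun x h1 h2 => ?_⟩
  · refine e.symm.map_eq_zero_iff.1 (h.kinj (e.symm y) ?_ ?_ ?_ ?_) <;>
      simp only [← bL, ← bR, h1, h2, h3, h4, map_zero]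
  · obtain ⟨y, k1, k2, k3, k4⟩ := h.ksurj (e.symm x) (by rw [← bL, h1]) (by rw [← bR, h2])
      (by rw [← bR, h3, map_zero])
    exact ⟨e y, by rw [← hL, k1], by rw [← hR, k2], by rw [← hR, k3, map_zero],
      by rw [← hL, k4, e.apply_symm_apply]⟩
  · obtain ⟨w, k1, k2⟩ := h.cinj (e.symm y) (e.symm z) (by rw [← bL, h1]) (by rw [← bR, h2])
      (by rw [← bR, h3]) (by rw [← bR, h4, bL])
    exact ⟨e w, by rw [← hR, k1], by rw [← hR, k2, e.apply_symm_apply]⟩
  · obtain ⟨y, z, k1, k2, k3, k4⟩ := h.csurj (e.symm x) (by rw [← bL, h1]) (by rw [← bR, h2])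
    exact ⟨e y, e z, by rw [← hL, k1], by rw [← hR, k2], by rw [← hR, k3],
      by rw [← hL, ← hR, ← map_add, k4, e.apply_symm_apply]⟩

/-- a central unit does not change `PenBij` -/
theorem PenBij.unit_mul [SMulCommClass L Kᵐᵒᵖ M] {e0 e1 a : L} {f0 f1 r : K} (u v : L)
    (huv : v * u = 1) (hvu : u * v = 1) (hu : ∀ x, u * x = x * u) (hv : ∀ x, v * x = x * v)
    (h : PenBij M e0 e1 a f0 f1 r) : PenBij M e0 e1 (u * a) f0 f1 r := by
  refine ⟨fun y h1 h2 h3 h4 => h.kinj y h1 h2 h3 ?_, fun x h1 h2 h3 => ?_,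
    fun y z h1 h2 h3 h4 => ?_, fun x h1 h2 => ?_⟩
  · have := congrArg (fun m => v • m) h4
    simpa [← mul_smul, ← mul_assoc, huv] using this
  · obtain ⟨y, k1, k2, k3, k4⟩ := h.ksurj x h1 h2 h3
    refine ⟨v • y, ?_, ?_, ?_, ?_⟩
    · rw [← mul_smul, ← hv, mul_smul, k1]
    · rw [← smul_comm v (op f0) y, k2]
    · rw [← smul_comm v (op r) y, k3, smul_zero]
    · rw [← mul_smul, hu, mul_assoc, hvu, mul_one, k4]
  · refine h.cinj y (v • z) h1 h2 ?_ ?_
    · rw [← smul_comm v (op f0) z, h3]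
    · rw [← smul_comm v (op r) z, h4, ← mul_smul, ← mul_assoc, huv, one_mul]
  · obtain ⟨y, z, k1, k2, k3, k4⟩ := h.csurj x h1 h2
    refine ⟨v • y, z, ?_, ?_, k3, ?_⟩
    · rw [← mul_smul, ← hv, mul_smul, k1]
    · rw [← smul_comm v (op f1) y, k2]
    · rw [← mul_smul, hu, mul_assoc, hvu, mul_one, k4]

/-- `PenBij` for a product of two bimodules -/
theorem PenBij.split {L₁ L₂ K₁ K₂ N₁ N₂ : Type} [Ring L₁] [Ring L₂] [Ring K₁] [Ring K₂]
    [AddCommGroup N₁] [Module L₁ N₁] [Module K₁ᵐᵒᵖ N₁]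
    [AddCommGroup N₂] [Module L₂ N₂] [Module K₂ᵐᵒᵖ N₂]
    (e : M ≃+ N₁ × N₂) (φ₁ : L → L₁) (φ₂ : L → L₂) (ψ₁ : K → K₁) (ψ₂ : K → K₂)
    (hL : ∀ (l : L) (m : M), e (l • m) = (φ₁ l • (e m).1, φ₂ l • (e m).2))
    (hR : ∀ (c : K) (m : M), e (op c • m) = (op (ψ₁ c) • (e m).1, op (ψ₂ c) • (e m).2))
    {e0 e1 a : L} {f0 f1 r : K}
    (h₁ : PenBij N₁ (φ₁ e0) (φ₁ e1) (φ₁ a) (ψ₁ f0) (ψ₁ f1) (ψ₁ r))
    (h₂ : PenBij N₂ (φ₂ e0) (φ₂ e1) (φ₂ a) (ψ₂ f0) (ψ₂ f1) (ψ₂ r)) :
    PenBij M e0 e1 a f0 f1 r := by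
  have fL : ∀ {l : L} {m m' : M}, l • m = m' →
      φ₁ l • (e m).1 = (e m').1 ∧ φ₂ l • (e m).2 = (e m').2 :=
    fun h => by subst h; rw [hL]; exact ⟨rfl, rfl⟩
  have fR : ∀ {c : K} {m m' : M}, op c • m = m' →
      op (ψ₁ c) • (e m).1 = (e m').1 ∧ op (ψ₂ c) • (e m).2 = (e m').2 :=
    fun h => by subst h; rw [hR]; exact ⟨rfl, rfl⟩
  have bL : ∀ {l : L} {n : N₁ × N₂} {m' : M}, φ₁ l • n.1 = (e m').1 → φ₂ l • n.2 = (e m').2 →
      l • e.symm n = m' := fun {l n m'} p q => e.injective <| by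
    rw [hL, e.apply_symm_apply, p, q]
  have bR : ∀ {c : K} {n : N₁ × N₂} {m' : M}, op (ψ₁ c) • n.1 = (e m').1 →
      op (ψ₂ c) • n.2 = (e m').2 → op c • e.symm n = m' := fun {c n m'} p q => e.injective <| by
    rw [hR, e.apply_symm_apply, p, q]
  have z1 : (e (0 : M)).1 = 0 := by rw [map_zero, Prod.fst_zero]
  have z2 : (e (0 : M)).2 = 0 := by rw [map_zero, Prod.snd_zero]
  refine ⟨fun y h1 h2 h3 h4 => ?_, fun x h1 h2 h3 => ?_, fun y z h1 h2 h3 h4 => ?_,
    fun x h1 h2 => ?_⟩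
  · exact e.map_eq_zero_iff.1 (Prod.ext
      (h₁.kinj _ (fL h1).1 (fR h2).1 ((fR h3).1.trans z1) ((fL h4).1.trans z1))
      (h₂.kinj _ (fL h1).2 (fR h2).2 ((fR h3).2.trans z2) ((fL h4).2.trans z2)))
  · obtain ⟨p, p1, p2, p3, p4⟩ := h₁.ksurj _ (fL h1).1 (fR h2).1 ((fR h3).1.trans z1)
    obtain ⟨q, q1, q2, q3, q4⟩ := h₂.ksurj _ (fL h1).2 (fR h2).2 ((fR h3).2.trans z2)
    exact ⟨e.symm (p, q), bL (by simpa using p1) (by simpa using q1),
      bR (by simpa using p2) (by simpa using q2), bR (p3.trans z1.symm) (q3.trans z2.symm),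
      bL p4 q4⟩
  · obtain ⟨p, p1, p2⟩ := h₁.cinj _ _ (fL h1).1 (fR h2).1 (fR h3).1
      ((fR h4).1.trans (fL rfl).1.symm)
    obtain ⟨q, q1, q2⟩ := h₂.cinj _ _ (fL h1).2 (fR h2).2 (fR h3).2
      ((fR h4).2.trans (fL rfl).2.symm)
    exact ⟨e.symm (p, q), bR (by simpa using p1) (by simpa using q1), bR p2 q2⟩
  · obtain ⟨p, p', p1, p2, p3, p4⟩ := h₁.csurj _ (fL h1).1 (fR h2).1
    obtain ⟨q, q', q1, q2, q3, q4⟩ := h₂.csurj _ (fL h1).2 (fR h2).2
    refine ⟨e.symm (p, q), e.symm (p', q'), bL (by simpa using p1) (by simpa using q1),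
      bR (by simpa using p2) (by simpa using q2), bR (by simpa using p3) (by simpa using q3),
      e.injective ?_⟩
    rw [map_add, hL, hR, e.apply_symm_apply, e.apply_symm_apply, Prod.mk_add_mk]
    exact Prod.ext p4 q4

/-- `PenBij` for a power of a bimodule -/
theorem PenBij.splitPi {κ L' K' N : Type} [Ring L'] [Ring K'] [AddCommGroup N] [Module L' N]
    [Module K'ᵐᵒᵖ N] (e : M ≃+ (κ → N)) (φ : κ → L → L') (ψ : κ → K → K')
    (hL : ∀ (l : L) (m : M) (k : κ), e (l • m) k = φ k l • e m k)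
    (hR : ∀ (c : K) (m : M) (k : κ), e (op c • m) k = op (ψ k c) • e m k)
    {e0 e1 a : L} {f0 f1 r : K}
    (h : ∀ k, PenBij N (φ k e0) (φ k e1) (φ k a) (ψ k f0) (ψ k f1) (ψ k r)) :
    PenBij M e0 e1 a f0 f1 r := by
  have fL : ∀ {l : L} {m m' : M}, l • m = m' → ∀ k, φ k l • e m k = e m' k :=
    fun h k => by subst h; rw [hL]
  have fR : ∀ {c : K} {m m' : M}, op c • m = m' → ∀ k, op (ψ k c) • e m k = e m' k :=
    fun h k => by subst h; rw [hR]
  have bL : ∀ {l : L} {n : κ → N} {m' : M}, (∀ k, φ k l • n k = e m' k) → l • e.symm n = m' :=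
    fun {l n m'} p => e.injective <| funext fun k => by rw [hL, e.apply_symm_apply, p k]
  have bR : ∀ {c : K} {n : κ → N} {m' : M}, (∀ k, op (ψ k c) • n k = e m' k) →
      op c • e.symm n = m' :=
    fun {c n m'} p => e.injective <| funext fun k => by rw [hR, e.apply_symm_apply, p k]
  have z : ∀ k, e (0 : M) k = 0 := fun k => by rw [map_zero]; rfl
  refine ⟨fun y h1 h2 h3 h4 => ?_, fun x h1 h2 h3 => ?_, fun y w h1 h2 h3 h4 => ?_,
    fun x h1 h2 => ?_⟩
  · exact e.map_eq_zero_iff.1 (funext fun k =>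
      (h k).kinj _ (fL h1 k) (fR h2 k) ((fR h3 k).trans (z k)) ((fL h4 k).trans (z k)))
  · choose p p1 p2 p3 p4 using fun k =>
      (h k).ksurj _ (fL h1 k) (fR h2 k) ((fR h3 k).trans (z k))
    exact ⟨e.symm p, bL fun k => by rw [e.apply_symm_apply]; exact p1 k,
      bR fun k => by rw [e.apply_symm_apply]; exact p2 k,
      bR fun k => (p3 k).trans (z k).symm, bL p4⟩
  · choose p p1 p2 using fun k => (h k).cinj _ _ (fL h1 k) (fR h2 k) (fR h3 k)
      ((fR h4 k).trans (fL rfl k).symm)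
    exact ⟨e.symm p, bR fun k => by rw [e.apply_symm_apply]; exact p1 k, bR p2⟩
  · choose p p' p1 p2 p3 p4 using fun k => (h k).csurj _ (fL h1 k) (fR h2 k)
    refine ⟨e.symm p, e.symm p', bL fun k => by rw [e.apply_symm_apply]; exact p1 k,
      bR fun k => by rw [e.apply_symm_apply]; exact p2 k,
      bR fun k => by rw [e.apply_symm_apply]; exact p3 k, e.injective (funext fun k => ?_)⟩
    rw [map_add, Pi.add_apply, hL, hR, e.apply_symm_apply, e.apply_symm_apply]
    exact p4 k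

end Basic

section Column

variable (L K : Type) [Ring L] [Ring K] (M : Type) [AddCommGroup M] [Module L M] [Module Kᵐᵒᵖ M]
  [SMulCommClass L Kᵐᵒᵖ M]

/-- a column of a bimodule -/
def colG (f : K) : Submodule L M where
  carrier := {m | op f • m = m}
  zero_mem' := smul_zero (op f)
  add_mem' := fun {a b} ha hb => by
    show op f • (a + b) = a + b
    rw [smul_add, ha, hb]
  smul_mem' := fun a m hm => by
    show op f • a • m = a • m
    rw [← smul_comm a (op f) m, hm]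

/-- the kernel of a right multiplication inside a column -/
def kerG (f r : K) : Submodule L M where
  carrier := {m | op f • m = m ∧ op r • m = 0}
  zero_mem' := ⟨smul_zero _, smul_zero _⟩
  add_mem' := fun {a b} ha hb => by
    refine ⟨?_, ?_⟩
    · rw [smul_add, ha.1, hb.1]
    · rw [smul_add, ha.2, hb.2, add_zero]
  smul_mem' := fun a m hm => by
    refine ⟨?_, ?_⟩
    · rw [← smul_comm a (op f) m, hm.1]
    · rw [← smul_comm a (op r) m, hm.2, smul_zero]

variable {L K M}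

theorem mem_colG {f : K} {m : M} : m ∈ colG L K M f ↔ op f • m = m := Iff.rfl

theorem mem_kerG {f r : K} {m : M} : m ∈ kerG L K M f r ↔ op f • m = m ∧ op r • m = 0 := Iff.rfl

/-- right multiplication from column to column -/
def rmG (f0 f1 r : K) (hr : r * f1 = r) : colG L K M f0 →ₗ[L] colG L K M f1 where
  toFun m := ⟨op r • m.1, by rw [mem_colG, ← mul_smul, ← op_mul, hr]⟩
  map_add' m n := Subtype.ext (smul_add _ m.1 n.1)
  map_smul' a m := Subtype.ext (smul_comm a (op r) m.1).symm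

/-- the cokernel of a right multiplication -/
abbrev cokG (f0 f1 r : K) (hr : r * f1 = r) :=
  colG L K M f1 ⧸ LinearMap.range (rmG (L := L) (M := M) f0 f1 r hr)

theorem PenBij.bijOnComp_cokG {e0 e1 a : L} {f0 f1 r : K} (hr : r * f1 = r) (he0 : e0 * e0 = e0)
    (he1 : e1 * e1 = e1) (hr' : a * e1 = a)
    (h : PenBij M e0 e1 a f0 f1 r) :
    BijOnComp e0 e1 a (ModuleCat.of L (cokG (L := L) (M := M) f0 f1 r hr)) := by
  constructor
  · intro q hq hq0
    obtain ⟨y, rfl⟩ := Submodule.Quotient.mk_surjective _ q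
    rw [← hq]
    change Submodule.Quotient.mk (e1 • y) = 0
    rw [Submodule.Quotient.mk_eq_zero]
    have h0 : Submodule.Quotient.mk (p := LinearMap.range (rmG (L := L) (M := M) f0 f1 r hr))
        (a • y) = 0 := hq0
    rw [Submodule.Quotient.mk_eq_zero, LinearMap.mem_range] at h0
    obtain ⟨z, hz⟩ := h0
    have hz' : op r • z.1 = a • y.1 := congrArg Subtype.val hz
    obtain ⟨w, hw, hw'⟩ := h.cinj (e1 • y.1) z.1 (by rw [← mul_smul, he1])
      (by rw [← smul_comm e1 (op f1) y.1, mem_colG.1 y.2]) (mem_colG.1 z.2)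
      (by rw [← mul_smul, hr', hz'])
    exact LinearMap.mem_range.2 ⟨⟨w, mem_colG.2 hw⟩, Subtype.ext hw'⟩
  · intro q hq
    obtain ⟨x, rfl⟩ := Submodule.Quotient.mk_surjective _ q
    obtain ⟨y, z, hy, hy', hz, hx⟩ := h.csurj (e0 • x.1) (by rw [← mul_smul, he0])
      (by rw [← smul_comm e0 (op f1) x.1, mem_colG.1 x.2])
    refine ⟨Submodule.Quotient.mk ⟨y, mem_colG.2 hy'⟩, ?_, ?_⟩
    · change Submodule.Quotient.mk (e1 • (⟨y, mem_colG.2 hy'⟩ : colG L K M f1)) = _
      exact congrArg _ (Subtype.ext hy)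
    · rw [← hq]
      change Submodule.Quotient.mk (a • (⟨y, mem_colG.2 hy'⟩ : colG L K M f1)) =
        Submodule.Quotient.mk (e0 • x)
      rw [Submodule.Quotient.eq, LinearMap.mem_range]
      refine ⟨⟨-z, mem_colG.2 (by rw [smul_neg, hz])⟩, Subtype.ext ?_⟩
      show op r • -z = a • y - e0 • x.1
      rw [smul_neg, ← hx]
      abel

end Column

namespace PencilSystem

variable {A : Type} [Ring A] [Algebra ℂ A] {ι : Type} [Fintype ι] (P : PencilSystem A ι)

/-- the pencil with a parameter in the projective line, `none` standing for infinity -/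
def penO (i : ι) : Option ℂ → A
  | none => P.s i
  | some q => P.pen i q

theorem left_penO (i : ι) (o : Option ℂ) : P.f0 i * P.penO i o = P.penO i o := by
  cases o
  · exact P.left_s i
  · exact P.left_pen i _

theorem right_penO (i : ι) (o : Option ℂ) : P.penO i o * P.f1 i = P.penO i o := by
  cases o
  · exact P.right_s i
  · exact P.right_pen i _

theorem mem_kerPen {i : ι} {p : ℂ} {r : A} :
    r ∈ P.kerPen i p ↔ r * P.f0 i = r ∧ r * P.pen i p = 0 := by
  simp only [kerPen, Submodule.mem_inf, Submodule.mem_span_singleton, LinearMap.mem_ker,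
    LinearMap.toSpanSingleton_apply, smul_eq_mul]
  constructor
  · rintro ⟨⟨c, rfl⟩, h⟩
    exact ⟨by rw [mul_assoc, P.f0_idem], h⟩
  · rintro ⟨h1, h2⟩
    exact ⟨⟨r, h1⟩, h2⟩

theorem bijOnComp_kerPen {i : ι} {p : ℂ} {e0 e1 a : A}
    (h : PenBij A e0 e1 a (P.f0 i) (P.f1 i) (P.pen i p)) :
    BijOnComp e0 e1 a (ModuleCat.of A (P.kerPen i p)) := by
  constructor
  · intro y hy hy0
    obtain ⟨k1, k2⟩ := P.mem_kerPen.1 y.2
    exact Subtype.ext (h.kinj y.1 (congrArg Subtype.val hy)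
      (by rw [op_smul_eq_mul, k1]) (by rw [op_smul_eq_mul, k2])
      (congrArg Subtype.val hy0))
  · intro x hx
    obtain ⟨k1, k2⟩ := P.mem_kerPen.1 x.2
    obtain ⟨y, h1, h2, h3, h4⟩ := h.ksurj x.1 (congrArg Subtype.val hx)
      (by rw [op_smul_eq_mul, k1]) (by rw [op_smul_eq_mul, k2])
    rw [op_smul_eq_mul] at h2 h3
    exact ⟨⟨y, P.mem_kerPen.2 ⟨h2, h3⟩⟩, Subtype.ext h1, Subtype.ext h4⟩

omit [Algebra ℂ A] in
theorem mem_span_idem {e r : A} (he : e * e = e) :
    r ∈ Submodule.span A {e} ↔ r * e = r := by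
  rw [Submodule.mem_span_singleton]
  constructor
  · rintro ⟨c, rfl⟩
    rw [smul_eq_mul, mul_assoc, he]
  · exact fun h => ⟨r, h⟩

theorem bijOnComp_cokPen {i : ι} {p : ℂ} {e0 e1 a : A} (he0 : e0 * e0 = e0)
    (he1 : e1 * e1 = e1) (hr : a * e1 = a)
    (h : PenBij A e0 e1 a (P.f0 i) (P.f1 i) (P.pen i p)) :
    BijOnComp e0 e1 a (ModuleCat.of A (P.cokPen i p)) := by
  constructor
  · intro q hq hq0
    obtain ⟨y, rfl⟩ := Submodule.Quotient.mk_surjective _ q
    rw [← hq]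
    change Submodule.Quotient.mk (e1 • y) = 0
    rw [Submodule.Quotient.mk_eq_zero, Submodule.mem_comap, Submodule.mem_span_singleton]
    have h0 : Submodule.Quotient.mk (p := (Submodule.span A {P.pen i p}).comap
        (Submodule.span A {P.f1 i}).subtype) (a • y) = 0 := hq0
    rw [Submodule.Quotient.mk_eq_zero, Submodule.mem_comap, Submodule.mem_span_singleton] at h0
    obtain ⟨z, hz⟩ := h0
    have hz' : z * P.pen i p = a * y.1 := hz
    obtain ⟨w, -, hw'⟩ := h.cinj (e1 * y.1) (z * P.f0 i)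
      (show e1 * (e1 * y.1) = e1 * y.1 by rw [← mul_assoc, he1])
      (by rw [op_smul_eq_mul, mul_assoc, (mem_span_idem (P.f1_idem i)).1 y.2])
      (by rw [op_smul_eq_mul, mul_assoc, P.f0_idem])
      (by rw [op_smul_eq_mul, mul_assoc, P.left_pen, hz', smul_eq_mul, ← mul_assoc, hr])
    exact ⟨w, by rw [op_smul_eq_mul] at hw'; exact hw'⟩
  · intro q hq
    obtain ⟨x, rfl⟩ := Submodule.Quotient.mk_surjective _ q
    obtain ⟨y, z, hy, hy', -, hx⟩ := h.csurj (e0 * x.1)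
      (show e0 * (e0 * x.1) = e0 * x.1 by rw [← mul_assoc, he0])
      (by rw [op_smul_eq_mul, mul_assoc, (mem_span_idem (P.f1_idem i)).1 x.2])
    rw [op_smul_eq_mul] at hy' hx
    refine ⟨Submodule.Quotient.mk ⟨y, (mem_span_idem (P.f1_idem i)).2 hy'⟩, ?_, ?_⟩
    · change Submodule.Quotient.mk (e1 • (⟨y, _⟩ : Submodule.span A {P.f1 i})) = _
      exact congrArg _ (Subtype.ext hy)
    · rw [← hq]
      change Submodule.Quotient.mk (a • (⟨y, _⟩ : Submodule.span A {P.f1 i})) =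
        Submodule.Quotient.mk (e0 • x)
      rw [Submodule.Quotient.eq, Submodule.mem_comap, Submodule.mem_span_singleton]
      refine ⟨-z, ?_⟩
      show -z * P.pen i p = a * y - e0 * x.1
      rw [neg_mul, ← hx, smul_eq_mul]
      abel

/-- a criterion for regularity, element by element -/
theorem regular_of_penBij [IsNoetherianRing A] (S : ι → Set ℂ)
    (h : ∀ i, ∀ p ∈ S i, ∀ i' o, (∀ q, o = some q → q ∉ S i') →
      PenBij A (P.f0 i') (P.f1 i') (P.penO i' o) (P.f0 i) (P.f1 i) (P.pen i p)) :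
    P.Regular S := by
  intro i p hp
  refine ⟨⟨Module.IsNoetherian.finite A (P.kerPen i p), fun i' => ?_, fun i' q hq => ?_⟩,
    ⟨?_, fun i' => ?_, fun i' q hq => ?_⟩⟩
  · exact P.bijOnComp_kerPen (h i p hp i' none (fun q hq => by simp at hq))
  · exact P.bijOnComp_kerPen (h i p hp i' (some q) (fun q' h' => Option.some.inj h' ▸ hq))
  · exact Module.IsNoetherian.finite A (P.cokPen i p)
  · exact P.bijOnComp_cokPen (P.f0_idem i') (P.f1_idem i') (P.right_s i')
      (h i p hp i' none (fun q hq => by simp at hq))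
  · exact P.bijOnComp_cokPen (P.f0_idem i') (P.f1_idem i') (P.right_pen i' q)
      (h i p hp i' (some q) (fun q' h' => Option.some.inj h' ▸ hq))

end PencilSystem

end Vale.Agent.P195
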