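import Vale.Agent.P195.HomP
import Vale.Agent.P195.RRegularPen

/-!
Module E of P195: pencils acting by precomposition on `Hom_A(P, N)`.
-/

namespace Vale.Agent.P195.RReg

open CategoryTheory Abelian MulOpposite

noncomputable section

section Projection

variable {A B P : Type} [Ring A] [Ring B] [AddCommGroup P] [Module A P] [Module Bᵐᵒᵖ P]
  [SMulCommClass A Bᵐᵒᵖ P]

/-- the projection onto a column -/
def prG (e : B) (he : e * e = e) : P →ₗ[A] colG A B P e where
  toFun p := ⟨op e • p, by rw [mem_colG, ← mul_smul, ← op_mul, he]⟩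
  map_add' p q := Subtype.ext (smul_add _ p q)
  map_smul' a p := Subtype.ext (smul_comm a (op e) p).symm

theorem prG_coe (e : B) (he : e * e = e) (p : colG A B P e) : prG (A := A) e he p.1 = p :=
  Subtype.ext (mem_colG.1 p.2)

theorem ev_col {n : ℕ} {N : Type} [AddCommGroup N] [Module A N] {C : Type} [Ring C]
    [Module Cᵐᵒᵖ N] [SMulCommClass A Cᵐᵒᵖ N] (e : B) (he : e * e = e) (f : C) (hf : f * f = f)
    (h : EV n (ModuleCat.of A P) (ModuleCat.of A N)) :
    EV n (ModuleCat.of A (colG A B P e)) (ModuleCat.of A (colG A C N f)) := by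
  refine ev_of_factor (ι := Unit) (fun _ => ModuleCat.of A N) (fun _ => (colG A C N f).subtype)
    (fun _ => prG f hf) (fun y => by simpa using prG_coe f hf y) (fun _ => ?_)
  exact ev_of_factor_left (ι := Unit) (fun _ => ModuleCat.of A P) (fun _ => (colG A B P e).subtype)
    (fun _ => prG e he) (fun y => by simpa using prG_coe e he y) (fun _ => h)

end Projection

variable {A B C P N : Type} [Ring A] [Ring B] [Ring C] [AddCommGroup P] [Module A P]
  [Module Bᵐᵒᵖ P] [SMulCommClass A Bᵐᵒᵖ P] [AddCommGroup N] [Module A N] [Module Cᵐᵒᵖ N]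
  [SMulCommClass A Cᵐᵒᵖ N]

/-- If the cokernel of `a` (between columns of `P`) has no maps or extensions of degree at most
two into the kernel of `r` (between columns of `N`), then `a` is bijective on the kernel and on
the cokernel of `r` in `Hom_A(P,N)`. -/
theorem penBij_homP {e0 e1 a : B} {f0 f1 r : C} (he0 : e0 * e0 = e0) (he1 : e1 * e1 = e1)
    (hla : e0 * a = a) (hra : a * e1 = a) (hf0 : f0 * f0 = f0)
    (hrr : r * f1 = r)
    (hinj : ∀ y : P, op e0 • y = y → op a • y = 0 → y = 0)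
    (hsurj : ∀ y : N, op f1 • y = y → ∃ x : N, op f0 • x = x ∧ op r • x = y)
    (hPN : EV 1 (ModuleCat.of A P) (ModuleCat.of A N))
    (hEV : ∀ n, EV n (ModuleCat.of A (cokG (L := A) (M := P) e0 e1 a hra))
      (ModuleCat.of A (kerG A C N f0 r))) :
    PenBij (HomP A P N) e0 e1 a f0 f1 r := by
  -- the two short exact sequences
  let α : colG A B P e0 →ₗ[A] colG A B P e1 := rmG e0 e1 a hra
  let β : colG A C N f0 →ₗ[A] colG A C N f1 := rmG f0 f1 r hrr
  let ι : kerG A C N f0 r →ₗ[A] colG A C N f0 :=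
    Submodule.inclusion (fun m hm => mem_colG.2 (mem_kerG.1 hm).1)
  have hα : Function.Injective α := by
    rw [injective_iff_map_eq_zero]
    intro y hy
    exact Subtype.ext (hinj y.1 y.2 (congrArg Subtype.val hy))
  have hβ : Function.Surjective β := fun y => by
    obtain ⟨x, hx, hx'⟩ := hsurj y.1 y.2
    exact ⟨⟨x, hx⟩, Subtype.ext hx'⟩
  have hιβ : Function.Exact ι β := fun x => by
    constructor
    · intro hx
      exact ⟨⟨x.1, mem_kerG.2 ⟨x.2, congrArg Subtype.val hx⟩⟩, Subtype.ext rfl⟩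
    · rintro ⟨w, rfl⟩
      exact Subtype.ext (mem_kerG.1 w.2).2
  have S1 := shortExact_mk (X := ModuleCat.of A (colG A B P e0))
    (Y := ModuleCat.of A (colG A B P e1))
    (Z := ModuleCat.of A (cokG (L := A) (M := P) e0 e1 a hra)) α (Submodule.mkQ _) hα
    (Submodule.mkQ_surjective _) (fun y => by
      rw [Submodule.mkQ_apply, Submodule.Quotient.mk_eq_zero]; rfl)
  have S2 := shortExact_mk (X := ModuleCat.of A (kerG A C N f0 r))
    (Y := ModuleCat.of A (colG A C N f0)) (Z := ModuleCat.of A (colG A C N f1))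
    ι β (Submodule.inclusion_injective _) hβ hιβ
  refine ⟨fun u h1 h2 h3 h4 => ?_, fun x h1 h2 h3 => ?_, fun u v h1 h2 h3 h4 => ?_,
    fun x h1 h2 => ?_⟩
  · -- kernel, injectivity
    let uB : colG A B P e1 →ₗ[A] kerG A C N f0 r :=
      (HomP.toLin u ∘ₗ (colG A B P e1).subtype).codRestrict _ fun p =>
        mem_kerG.2 ⟨congrArg (fun w : HomP A P N => w p.1) h2,
          congrArg (fun w : HomP A P N => w p.1) h3⟩
    have hk : LinearMap.range α ≤ LinearMap.ker uB := by
      rintro _ ⟨q, rfl⟩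
      exact LinearMap.mem_ker.2 (Subtype.ext (congrArg (fun w : HomP A P N => w q.1) h4))
    have h0 := (ev_zero_iff.1 (hEV 0)) ((LinearMap.range α).liftQ uB hk)
    refine HomP.ext fun p => ?_
    rw [← h1, HomP.smul_apply]
    exact congrArg Subtype.val (congrArg (fun w => w (Submodule.Quotient.mk (prG e1 he1 p))) h0)
  · -- kernel, surjectivity
    let xB : colG A B P e0 →ₗ[A] kerG A C N f0 r :=
      (HomP.toLin x ∘ₗ (colG A B P e0).subtype).codRestrict _ fun p =>
        mem_kerG.2 ⟨congrArg (fun w : HomP A P N => w p.1) h2,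
          congrArg (fun w : HomP A P N => w p.1) h3⟩
    obtain ⟨g, hg⟩ := extend_of_ev_one S1 _ (hEV 1) xB
    let g' : colG A B P e1 →ₗ[A] kerG A C N f0 r := g
    refine ⟨HomP.ofLin ((kerG A C N f0 r).subtype ∘ₗ g' ∘ₗ prG e1 he1), ?_, ?_, ?_, ?_⟩
    · refine HomP.ext fun p => ?_
      show (g' (prG e1 he1 (op e1 • p))).1 = (g' (prG e1 he1 p)).1
      rw [show prG (A := A) e1 he1 (op e1 • p) = prG e1 he1 p from
        prG_coe e1 he1 (prG (A := A) e1 he1 p)]
    · exact HomP.ext fun p => (mem_kerG.1 (g' (prG e1 he1 p)).2).1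
    · exact HomP.ext fun p => (mem_kerG.1 (g' (prG e1 he1 p)).2).2
    · refine HomP.ext fun p => ?_
      show (g' (prG e1 he1 (op a • p))).1 = x p
      have e : prG (A := A) e1 he1 (op a • p) = α (prG e0 he0 p) := Subtype.ext (by
        show op e1 • op a • p = op a • op e0 • p
        rw [← mul_smul, ← mul_smul, ← op_mul, ← op_mul, hra, hla])
      rw [e, show g' (α (prG e0 he0 p)) = xB (prG e0 he0 p) from
        congrArg (fun w => w (prG e0 he0 p)) hg]
      show x (op e0 • p) = x p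
      exact congrArg (fun w : HomP A P N => w p) h1
  · -- cokernel, injectivity
    let uB : colG A B P e1 →ₗ[A] colG A C N f1 :=
      (HomP.toLin u ∘ₗ (colG A B P e1).subtype).codRestrict _ fun p =>
        mem_colG.2 (congrArg (fun w : HomP A P N => w p.1) h2)
    let vB : colG A B P e0 →ₗ[A] colG A C N f0 :=
      (HomP.toLin v ∘ₗ (colG A B P e0).subtype).codRestrict _ fun p =>
        mem_colG.2 (congrArg (fun w : HomP A P N => w p.1) h3)
    have hc : ModuleCat.ofHom α ≫ ModuleCat.ofHom uB = ModuleCat.ofHom vB ≫ ModuleCat.ofHom β :=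
      ModuleCat.hom_ext (LinearMap.ext fun p => Subtype.ext
        (congrArg (fun w : HomP A P N => w p.1) h4).symm)
    set δ := (Ext.mk₀ (ModuleCat.ofHom uB)).comp S2.extClass (zero_add 1) with hδ
    have hαδ : (Ext.mk₀ (ModuleCat.ofHom α)).comp δ (zero_add 1) = 0 := by
      rw [hδ, Ext.mk₀_comp_mk₀_assoc, hc, ← Ext.mk₀_comp_mk₀_assoc, S2.comp_extClass,
        Ext.comp_zero]
    obtain ⟨η, hη⟩ := Ext.contravariant_sequence_exact₂ S1 _ δ hαδ
    have hδ0 : δ = 0 := by rw [← hη, (hEV 1).eq_zero η, Ext.comp_zero]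
    obtain ⟨x₂, hx₂⟩ := Ext.covariant_sequence_exact₃ _ S2
      (Ext.mk₀ (ModuleCat.ofHom uB)) (zero_add 1) hδ0
    obtain ⟨w, rfl⟩ := Ext.addEquiv₀.symm.surjective x₂
    simp [Ext.addEquiv₀, Ext.mk₀_comp_mk₀] at hx₂
    have hw : w ≫ ModuleCat.ofHom β = ModuleCat.ofHom uB := (Ext.mk₀_bijective _ _).1 hx₂
    let w' : colG A B P e1 →ₗ[A] colG A C N f0 := w.hom
    refine ⟨HomP.ofLin ((colG A C N f0).subtype ∘ₗ w' ∘ₗ prG e1 he1),
      HomP.ext fun p => mem_colG.1 (w' (prG e1 he1 p)).2, HomP.ext fun p => ?_⟩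
    show op r • (w' (prG e1 he1 p)).1 = u p
    have k : (β (w' (prG e1 he1 p))).1 = (uB (prG e1 he1 p)).1 :=
      congrArg Subtype.val (congrArg (fun m => m.hom (prG e1 he1 p)) hw)
    exact k.trans (congrArg (fun w : HomP A P N => w p) h1)
  · -- cokernel, surjectivity
    let xB : colG A B P e0 →ₗ[A] colG A C N f1 :=
      (HomP.toLin x ∘ₗ (colG A B P e0).subtype).codRestrict _ fun p =>
        mem_colG.2 (congrArg (fun w : HomP A P N => w p.1) h2)
    set δ := (Ext.mk₀ (ModuleCat.ofHom xB)).comp S2.extClass (zero_add 1) with hδ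
    obtain ⟨η, hη⟩ := Ext.contravariant_sequence_exact₁ S1 _ δ (by omega : 1 + 1 = 2)
      ((hEV 2).eq_zero _)
    obtain ⟨y₃, hy₃⟩ := Ext.covariant_sequence_exact₁ _ S2 η
      ((ev_col e1 he1 f0 hf0 hPN).eq_zero _) (zero_add 1)
    obtain ⟨y, rfl⟩ := Ext.addEquiv₀.symm.surjective y₃
    let y' : colG A B P e1 →ₗ[A] colG A C N f1 := y.hom
    let d : colG A B P e0 →ₗ[A] colG A C N f1 := xB - y' ∘ₗ α
    have hd : (Ext.mk₀ (ModuleCat.ofHom d)).comp S2.extClass (zero_add 1) = 0 := by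
      have : ModuleCat.ofHom d = ModuleCat.ofHom xB - ModuleCat.ofHom α ≫ y :=
        ModuleCat.hom_ext rfl
      rw [this, sub_eq_add_neg, Ext.mk₀_add, Ext.add_comp, Ext.mk₀_neg, Ext.neg_comp, ← sub_eq_add_neg,
        sub_eq_zero, ← Ext.mk₀_comp_mk₀_assoc]
      exact hη.symm.trans (by rw [← hy₃]; rfl)
    obtain ⟨x₂, hx₂⟩ := Ext.covariant_sequence_exact₃ _ S2
      (Ext.mk₀ (ModuleCat.ofHom d)) (zero_add 1) hd
    obtain ⟨z, rfl⟩ := Ext.addEquiv₀.symm.surjective x₂
    simp [Ext.addEquiv₀, Ext.mk₀_comp_mk₀] at hx₂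
    have hz : z ≫ ModuleCat.ofHom β = ModuleCat.ofHom d := (Ext.mk₀_bijective _ _).1 hx₂
    let z' : colG A B P e0 →ₗ[A] colG A C N f0 := z.hom
    refine ⟨HomP.ofLin ((colG A C N f1).subtype ∘ₗ y' ∘ₗ prG e1 he1),
      HomP.ofLin ((colG A C N f0).subtype ∘ₗ z' ∘ₗ prG e0 he0), ?_, ?_, ?_, ?_⟩
    · refine HomP.ext fun p => ?_
      show (y' (prG e1 he1 (op e1 • p))).1 = (y' (prG e1 he1 p)).1
      rw [show prG (A := A) e1 he1 (op e1 • p) = prG e1 he1 p from
        prG_coe e1 he1 (prG (A := A) e1 he1 p)]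
    · exact HomP.ext fun p => mem_colG.1 (y' (prG e1 he1 p)).2
    · exact HomP.ext fun p => mem_colG.1 (z' (prG e0 he0 p)).2
    · refine HomP.ext fun p => ?_
      show (y' (prG e1 he1 (op a • p))).1 + op r • (z' (prG e0 he0 p)).1 = x p
      have e : prG (A := A) e1 he1 (op a • p) = α (prG e0 he0 p) := Subtype.ext (by
        show op e1 • op a • p = op a • op e0 • p
        rw [← mul_smul, ← mul_smul, ← op_mul, ← op_mul, hra, hla])
      have k : (β (z' (prG e0 he0 p))).1 = (d (prG e0 he0 p)).1 :=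
        congrArg Subtype.val (congrArg (fun m => m.hom (prG e0 he0 p)) hz)
      rw [e, show op r • (z' (prG e0 he0 p)).1 = (d (prG e0 he0 p)).1 from k]
      show (y' (α (prG e0 he0 p))).1 + (x (op e0 • p) - (y' (α (prG e0 he0 p))).1) = x p
      rw [show x (op e0 • p) = x p from congrArg (fun w : HomP A P N => w p) h1]
      abel

end

end Vale.Agent.P195.RReg
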