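import Vale.Agent.P195.RRegularInf
import Vale.Agent.P195.RRegularHom

/-!
Module E of P195: finiteness of `R`, regularity of the columns of `R`, the spectrum of `C`.
-/

namespace Vale.Agent.P195.RReg

open CategoryTheory MulOpposite

noncomputable section

/-! ### finiteness -/

/-- coordinates on `R` by finite dimensional spaces -/
def rrCoord {n : ℕ} (y : Fin n → Py) :
    RB →ₗ[ℂ] (Fin 4 → AP) × (Fin n → NP) × Px where
  toFun b := (b.id_, fun k => b.uu (y k), b.pp)
  map_add' _ _ := rfl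
  map_smul' c b := by
    refine Prod.ext (funext fun l => ?_) (Prod.ext (funext fun k => ?_) ?_)
    · exact (Algebra.smul_def c (b.id_ l)).symm
    · show b.uu (op (algebraMap ℂ AX c) • y k) = c • b.uu (y k)
      rw [← py_central, HomP.map_smul', algebraMap_smul]
    · exact algebraMap_smul AP c b.pp

theorem ii_finite (hGG : Module.Finite ℂ GG) : Module.Finite ℂ II :=
  inferInstanceAs (Module.Finite ℂ (Module.End ℂ GG))

theorem np_finite (hII : Module.Finite ℂ II) : Module.Finite ℂ NP :=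
  Module.Finite.quotient ℂ IIsub

theorem rrCoord_injective {n : ℕ} (y : Fin n → Py) (hy : Submodule.span AP (Set.range y) = ⊤) :
    Function.Injective (rrCoord y) := by
  intro a b h
  refine RB.ext (congrArg (fun t => t.1) h) ?_ (congrArg (fun t => t.2.2) h)
  exact LinearMap.ext_on_range hy (f := HomP.toLin a.uu) (g := HomP.toLin b.uu)
    (fun k => congrFun (congrArg (fun t => t.2.1) h) k)

theorem rb_finite (hAP : Module.Finite ℂ AP) (hPx : Module.Finite ℂ Px)
    (hPy : Module.Finite ℂ Py) (hNP : Module.Finite ℂ NP) : Module.Finite ℂ RB := by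
  obtain ⟨n, y, hy⟩ := Module.Finite.exists_fin (R := ℂ) (M := Py)
  have hy' : Submodule.span AP (Set.range y) = ⊤ :=
    top_le_iff.1 fun p _ => Submodule.span_le_restrictScalars ℂ AP _ (hy ▸ Submodule.mem_top)
  exact Module.Finite.of_injective (rrCoord y) (rrCoord_injective y hy')

/-- `R` as a quotient of the sum of its two parts -/
def rrMk : RD × RB →ₗ[ℂ] RR where
  toFun x := TrivSqZeroExt.inl x.1 + TrivSqZeroExt.inr x.2
  map_add' x x' := by ext1 <;> simp
  map_smul' c x := by ext1 <;> simp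

theorem _root_.Vale.Agent.P195.rr_finite (hF : SpecFinite) : Module.Finite ℂ RR := by
  obtain ⟨hAP, hAX, hPx, hPy, hGG⟩ := hF
  have := rb_finite hAP hPx hPy (np_finite (ii_finite hGG))
  exact Module.Finite.of_surjective rrMk (fun z => ⟨(z.fst, z.snd), by ext1 <;> simp [rrMk]⟩)

theorem isNoetherianRing_RR (hF : SpecFinite) : IsNoetherianRing RR :=
  have := rr_finite hF
  IsNoetherianRing.of_finite ℂ RR

/-! ### the corners -/

/-- a corner algebra as a bimodule over itself -/
def corBlk (f : Vtx 2 → Vtx 3) : Cor f ≃+ Blk f f where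
  toFun a := Blk.mk a.val a.mem
  invFun b := Cor.mk b.val b.mem
  left_inv _ := rfl
  right_inv _ := rfl
  map_add' _ _ := rfl

theorem penBij_cor (hB : SpecBlocks) {f : Vtx 2 → Vtx 3} (hf : IsShift f)
    (τ σ : Tau 2) (p : ℂ) (o : Option ℂ) (ho : o ≠ some p) :
    PenBij (Cor f) ((sys f hf).f0 σ) ((sys f hf).f1 σ) ((sys f hf).penO σ o)
      ((sys f hf).f0 τ) ((sys f hf).f1 τ) ((sys f hf).pen τ p) :=
  PenBij.of_equiv (corBlk f) id id (fun _ _ => rfl) (fun _ _ => rfl) (penBij_blk hB hf hf τ σ p o ho)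

theorem isNoetherianRing_AP (hF : SpecFinite) : IsNoetherianRing AP :=
  have := hF.1
  IsNoetherianRing.of_finite ℂ AP

theorem regular_sysP (hB : SpecBlocks) (hF : SpecFinite) (r : ℂ) :
    sysP.Regular (fun _ => ({r} : Set ℂ)) := by
  have := isNoetherianRing_AP hF
  refine sysP.regular_of_penBij _ fun i p hp i' o ho => penBij_cor hB IsShift.iota0 i i' p o ?_
  rintro rfl
  exact ho p rfl hp

/-- the pencils with the roles of `0` and infinity exchanged -/
def swapP : PencilSystem AP (Tau 2) :=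
  { sysP with
    s := sysP.t
    t := sysP.s
    left_s := sysP.left_t
    right_s := sysP.right_t
    left_t := sysP.left_s
    right_t := sysP.right_s }

theorem swapP_pen_zero (σ : Tau 2) : swapP.pen σ 0 = sysP.s σ := by
  simp [PencilSystem.pen, swapP]

theorem swapP_penO_none (σ : Tau 2) : swapP.penO σ none = sysP.pen σ 0 := by
  simp [PencilSystem.penO, PencilSystem.pen, swapP]

theorem swapP_pen (σ : Tau 2) {q : ℂ} (hq : q ≠ 0) :
    swapP.pen σ q = algebraMap ℂ AP (-q) * sysP.pen σ q⁻¹ := by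
  rw [← Algebra.smul_def]
  simp [PencilSystem.pen, swapP, smul_sub, smul_smul, hq]
  abel

/-- left pencils of the swapped system, against a right pencil at infinity -/
theorem penBij_swap {M K : Type} [Ring K] [AddCommGroup M] [Module AP M] [Module Kᵐᵒᵖ M]
    [SMulCommClass AP Kᵐᵒᵖ M] {f0 f1 r : K} (σ : Tau 2) (o : Option ℂ)
    (ho : ∀ q, o = some q → q ≠ 0)
    (h : ∀ c, PenBij M (sysP.f0 σ) (sysP.f1 σ) (sysP.pen σ c) f0 f1 r) :
    PenBij M (swapP.f0 σ) (swapP.f1 σ) (swapP.penO σ o) f0 f1 r := by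
  cases o with
  | none => rw [swapP_penO_none]; exact h 0
  | some q =>
    have hq := ho q rfl
    rw [show swapP.penO σ (some q) = swapP.pen σ q from rfl, swapP_pen σ hq]
    refine (h q⁻¹).unit_mul (algebraMap ℂ AP (-q)) (algebraMap ℂ AP (-q)⁻¹) ?_ ?_
      (Algebra.commutes _) (Algebra.commutes _)
    · rw [← map_mul, inv_mul_cancel₀ (neg_ne_zero.2 hq), map_one]
    · rw [← map_mul, mul_inv_cancel₀ (neg_ne_zero.2 hq), map_one]

theorem regular_swapP (hF : SpecFinite) : swapP.Regular (fun _ => ({0} : Set ℂ)) := by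
  have := isNoetherianRing_AP hF
  refine swapP.regular_of_penBij _ fun i p hp i' o ho => ?_
  obtain rfl : p = 0 := hp
  rw [swapP_pen_zero]
  refine penBij_swap i' o (fun q hq h0 => ho q hq h0) fun c => ?_
  exact PenBij.of_equiv (corBlk iota0) id id (fun _ _ => rfl) (fun _ _ => rfl)
    (penBij_inf IsShift.iota0 IsShift.iota0 i i' c)

/-! ### the kernels on `N'` -/

/-- the kernel of a right pencil on `N'` -/
abbrev kerN (τ : Tau 2) (p : ℂ) : Submodule AP NP :=
  kerG AP AP NP (sysP.f0 τ) (sysP.pen τ p)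

theorem bijOnComp_kerN (hB : SpecBlocks) {τ : Tau 2} {p : ℂ} {n₀ : NP} (hk : IsKerGen τ p n₀)
    (σ : Tau 2) (o : Option ℂ) (ho : o ≠ some p) :
    BijOnComp (sysP.f0 σ) (sysP.f1 σ) (sysP.penO σ o) (ModuleCat.of AP (kerN τ p)) := by
  obtain ⟨h1, h2, h3, -, hgen, hann, -⟩ := hk
  have hB' := penBij_cor hB IsShift.iota0 τ σ p o ho
  have hn₀ : n₀ ∈ kerN τ p := mem_kerG.2 ⟨h2, h3⟩
  have hkill : ∀ z : AP, (z * sysP.pen τ p) • n₀ = 0 := fun z =>
    (hann _).2 ⟨z, by rw [mul_assoc, sysP.right_pen]⟩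
  constructor
  · intro y hy hy0
    obtain ⟨k1, k2⟩ := mem_kerG.1 y.2
    obtain ⟨b, hb⟩ := hgen y.1 k1 k2
    have hy' : sysP.f1 σ • y.1 = y.1 := congrArg Subtype.val hy
    have hb' : (sysP.f1 σ * b * sysP.f1 τ) • n₀ = y.1 := by
      rw [mul_smul, h1, mul_smul, hb, hy']
    have ha : (sysP.penO σ o * (sysP.f1 σ * b * sysP.f1 τ)) • n₀ = 0 := by
      rw [mul_smul, hb']; exact congrArg Subtype.val hy0
    obtain ⟨c, hc⟩ := (hann _).1 ha
    obtain ⟨w, -, hw⟩ := hB'.cinj (sysP.f1 σ * b * sysP.f1 τ) (c * sysP.f0 τ)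
      (by rw [smul_eq_mul, ← mul_assoc, ← mul_assoc, sysP.f1_idem])
      (by rw [op_smul_eq_mul, mul_assoc, sysP.f1_idem])
      (by rw [op_smul_eq_mul, mul_assoc, sysP.f0_idem])
      (by rw [op_smul_eq_mul, mul_assoc, sysP.left_pen, smul_eq_mul, ← hc, mul_assoc,
            mul_assoc, sysP.f1_idem])
    rw [op_smul_eq_mul] at hw
    refine Subtype.ext ?_
    rw [← hb', ← hw, hkill]
    rfl
  · intro x hx
    obtain ⟨k1, k2⟩ := mem_kerG.1 x.2
    obtain ⟨b, hb⟩ := hgen x.1 k1 k2
    have hx' : sysP.f0 σ • x.1 = x.1 := congrArg Subtype.val hx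
    obtain ⟨y, z, e1, -, -, e4⟩ := hB'.csurj (sysP.f0 σ * b * sysP.f1 τ)
      (by rw [smul_eq_mul, ← mul_assoc, ← mul_assoc, sysP.f0_idem])
      (by rw [op_smul_eq_mul, mul_assoc, sysP.f1_idem])
    rw [smul_eq_mul] at e1
    refine ⟨⟨y • n₀, Submodule.smul_mem _ y hn₀⟩, Subtype.ext ?_, Subtype.ext ?_⟩
    · show sysP.f1 σ • y • n₀ = y • n₀
      rw [← mul_smul, e1]
    · show sysP.penO σ o • y • n₀ = x.1
      have := congrArg (fun a => a • n₀) e4
      simp only [op_smul_eq_mul, smul_eq_mul, add_smul, hkill, add_zero, mul_smul, h1, hb, hx']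
        at this
      exact this

/-! ### the second frame -/

theorem toy_single (u w : Vtx 2) (m m' : Mat) (h : m ∈ H (px u) (px w)) (h' : m' ∈ H (py u) (py w))
    (e : substM (Polynomial.X + Polynomial.C 1) m = m') :
    toy (Cor.single u w m h) = Cor.single u w m' h' := by
  refine Cor.ext ?_
  rw [toy_val, Cor.val_single, Cor.val_single, ← e]
  exact Matrix.map_single u w m (substM (Polynomial.X + Polynomial.C 1)).toAddMonoidHom

theorem toy_f0 (τ : Tau 2) : toy (sysX.f0 τ) = sysY.f0 τ := toy_single _ _ 1 1 (H_one _) (H_one _) (map_one _)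
theorem toy_f1 (τ : Tau 2) : toy (sysX.f1 τ) = sysY.f1 τ := toy_single _ _ 1 1 (H_one _) (H_one _) (map_one _)
theorem toy_s (τ : Tau 2) : toy (sysX.s τ) = sysY.s τ :=
  toy_single _ _ 1 1 (H_s IsShift.px τ) (H_s IsShift.py τ) (map_one _)

theorem toy_t (τ : Tau 2) : toy (sysX.t τ) = sysY.t τ + sysY.s τ := by
  refine Cor.ext ?_
  rw [toy_val, Cor.val_add]
  show substB _ (Matrix.single (τ, 0) (τ, 1) (dg zP)) =
    Matrix.single (τ, 0) (τ, 1) (dg zP) + Matrix.single (τ, 0) (τ, 1) 1
  rw [← Matrix.single_add]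
  refine (Matrix.map_single _ _ _ (substM (Polynomial.X + Polynomial.C 1)).toAddMonoidHom).trans ?_
  refine congrArg _ ?_
  show substM (Polynomial.X + Polynomial.C 1) (dg zP) = dg zP + 1
  rw [substM_dg_translate]
  simp [zP, substQ]

theorem toy_penO (τ : Tau 2) (o : Option ℂ) :
    toy (sysX.penO τ o) = sysY.penO τ (o.map (· - 1)) := by
  cases o with
  | none => exact toy_s τ
  | some q =>
    simp only [Option.map_some, PencilSystem.penO, PencilSystem.pen]
    rw [Algebra.smul_def, map_sub, map_mul, toy_algebraMap, toy_s, toy_t, ← Algebra.smul_def,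
      sub_smul, one_smul]
    abel

theorem penBij_uu (hB : SpecBlocks) (hO : SpecOrth) (hEJ : SpecEulerJunk) (hF : SpecFinite)
    (τ : Tau 2) (p : ℂ) {n₀ : NP} (hk : IsKerGen τ p n₀) (τ' : Tau 2) (o : Option ℂ)
    (ho : o.map (· - 1) ≠ some p) :
    PenBij UU (sysX.f0 τ') (sysX.f1 τ') (sysX.penO τ' o)
      (sysP.f0 τ) (sysP.f1 τ) (sysP.pen τ p) := by
  have := hF.1
  have := isNoetherianRing_AP hF
  have := hF.2.2.2.1
  have : Module.Finite AP Py := Module.Finite.of_restrictScalars_finite ℂ AP Py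
  refine penBij_homP (sysX.f0_idem τ') (sysX.f1_idem τ') (sysX.left_penO τ' o)
    (sysX.right_penO τ' o) (sysP.f0_idem τ) (sysP.right_pen τ p) ?_ hk.2.2.2.2.2.2 hEJ.2.2
    fun n => ?_
  · intro y h1 h2
    rw [py_op_smul, unop_op] at h1 h2
    rw [toy_f0] at h1
    rw [toy_penO] at h2
    cases o with
    | none => exact blk_s_inj IsShift.py τ' y h1 h2
    | some q =>
      obtain ⟨hinj, -⟩ := hB iota0 py IsShift.iota0 IsShift.py τ' (q - 1)
      exact congrArg Subtype.val (hinj (a₁ := (⟨y, h1⟩ : colB iota0 py (τ', 0))) (a₂ := 0)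
        ((Subtype.ext h2).trans (map_zero (rpen iota0 py IsShift.py τ' (q - 1))).symm))
  · have hY : ∀ (σ : Tau 2) (a : AP), sysP.f0 σ * a = a → a * sysP.f1 σ = a →
        PenBij Py (sysP.f0 σ) (sysP.f1 σ) a (sysY.f0 τ') (sysY.f1 τ')
          (sysY.penO τ' (o.map (· - 1))) →
        BijOnComp (sysP.f0 σ) (sysP.f1 σ) a (ModuleCat.of AP (cokG (L := AP) (M := Py)
          (sysX.f0 τ') (sysX.f1 τ') (sysX.penO τ' o) (sysX.right_penO τ' o))) := by
      intro σ a hl hr h
      refine PenBij.bijOnComp_cokG _ (sysP.f0_idem σ) (sysP.f1_idem σ) hr ?_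
      refine PenBij.of_equiv (AddEquiv.refl Py) id toy (fun _ _ => rfl) (fun _ _ => rfl) ?_
      rwa [toy_f0, toy_f1, toy_penO]
    cases o with
    | none =>
      refine hO AP (Tau 2) swapP (fun _ => {0}) (regular_swapP hF) _ _
        ⟨Module.IsNoetherian.finite AP _, fun σ => ?_, fun σ q hq => ?_⟩ (fun σ q hq => ?_) n
      · refine hY σ _ (swapP.left_s σ) (swapP.right_s σ) ?_
        exact penBij_swap σ none (fun q h => by simp at h)
          (fun c => penBij_inf IsShift.iota0 IsShift.py τ' σ c)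
      · refine hY σ _ (swapP.left_pen σ q) (swapP.right_pen σ q) ?_
        exact penBij_swap σ (some q) (fun q' h => Option.some.inj h ▸ hq)
          (fun c => penBij_inf IsShift.iota0 IsShift.py τ' σ c)
      · obtain rfl : q = 0 := hq
        rw [swapP_pen_zero]
        exact bijOnComp_kerN hB hk σ none (by simp)
    | some q₀ =>
      have hne : q₀ - 1 ≠ p := fun h => ho (congrArg some h)
      refine hO AP (Tau 2) sysP (fun _ => {q₀ - 1}) (regular_sysP hB hF _) _ _
        ⟨Module.IsNoetherian.finite AP _, fun σ => ?_, fun σ q hq => ?_⟩ (fun σ q hq => ?_) n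
      · exact hY σ _ (sysP.left_s σ) (sysP.right_s σ)
          (penBij_blk hB IsShift.iota0 IsShift.py τ' σ (q₀ - 1) none (by simp))
      · exact hY σ _ (sysP.left_pen σ q) (sysP.right_pen σ q)
          (penBij_blk hB IsShift.iota0 IsShift.py τ' σ (q₀ - 1) (some q)
            (fun h => hq (Option.some.inj h)))
      · obtain rfl : q = q₀ - 1 := hq
        exact bijOnComp_kerN hB hk σ (some (q₀ - 1)) (fun h => hne (Option.some.inj h))

/-! ### the pencils of `R` -/

/-- the diagonal element attached to an element at a level and one at the top -/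
def dAt : Option (Fin 5) → AP → AX → RD
  | some l, a, _ => dLev l a
  | none, _, b => dTop b

theorem dAt_fst (x : Option (Fin 5)) (a : AP) (b : AX) (k : Fin 5) :
    (dAt x a b).1 k = if x = some k then a else 0 := by
  cases x with
  | none => rw [if_neg (by simp)]; rfl
  | some l =>
    by_cases h : l = k
    · subst h; rw [if_pos rfl]; exact Pi.single_eq_same (M := fun _ : Fin 5 => AP) l a
    · rw [if_neg (fun e => h (Option.some.inj e))]; exact Pi.single_eq_of_ne (M := fun _ : Fin 5 => AP) (Ne.symm h) a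

theorem dAt_snd (x : Option (Fin 5)) (a : AP) (b : AX) :
    (dAt x a b).2 = if x = none then b else 0 := by
  cases x <;> rfl

/-- `penO` in the diagonal part -/
abbrev dPen (x : Option (Fin 5)) (τ : Tau 2) (o : Option ℂ) : RD :=
  dAt x (sysP.penO τ o) (sysX.penO τ o)

theorem dLev_smul (l : Fin 5) (c : ℂ) (a : AP) : dLev l (c • a) = c • dLev l a :=
  Prod.ext (Pi.single_smul (f := fun _ : Fin 5 => AP) l c a) (smul_zero c).symm

theorem dTop_smul (c : ℂ) (a : AX) : dTop (c • a) = c • dTop a :=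
  Prod.ext (smul_zero c).symm rfl

theorem sysR_f0 (x : Option (Fin 5)) (τ : Tau 2) :
    sysR.f0 (x, τ) = TrivSqZeroExt.inl (dAt x (sysP.f0 τ) (sysX.f0 τ)) := by cases x <;> rfl
theorem sysR_f1 (x : Option (Fin 5)) (τ : Tau 2) :
    sysR.f1 (x, τ) = TrivSqZeroExt.inl (dAt x (sysP.f1 τ) (sysX.f1 τ)) := by cases x <;> rfl

theorem sysR_penO (x : Option (Fin 5)) (τ : Tau 2) (o : Option ℂ) :
    sysR.penO (x, τ) o = TrivSqZeroExt.inl (dPen x τ o) := by
  cases o with
  | none => cases x <;> rfl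
  | some q =>
    cases x with
    | none =>
      show jTop _ - q • jTop _ = jTop (_ - q • _)
      rw [map_sub, jTop_apply, jTop_apply, jTop_apply, dTop_smul, TrivSqZeroExt.inl_smul]
    | some l =>
      show jLev l _ - q • jLev l _ = jLev l (_ - q • _)
      rw [map_sub, jLev_apply, jLev_apply, jLev_apply, dLev_smul, TrivSqZeroExt.inl_smul]

section Assembly

variable {σ : Option (Fin 5) → Set ℂ} {x x' : Option (Fin 5)} {τ τ' : Tau 2} {p : ℂ}
  {o : Option ℂ}

theorem penBij_rd (hB : SpecBlocks) (hp : p ∈ σ x) (ho : ∀ q, o = some q → q ∉ σ x') :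
    PenBij RD (dAt x' (sysP.f0 τ') (sysX.f0 τ')) (dAt x' (sysP.f1 τ') (sysX.f1 τ'))
      (dPen x' τ' o) (dAt x (sysP.f0 τ) (sysX.f0 τ)) (dAt x (sysP.f1 τ) (sysX.f1 τ))
      (dPen x τ (some p)) := by
  have hne : ∀ y, x' = y → x = y → o ≠ some p := by
    rintro y rfl rfl rfl
    exact ho p rfl hp
  refine PenBij.split (AddEquiv.refl RD) (φ₁ := Prod.fst) (φ₂ := Prod.snd) (ψ₁ := Prod.fst)
    (ψ₂ := Prod.snd) (fun _ _ => rfl) (fun _ _ => rfl) ?_ ?_
  · refine PenBij.splitPi (AddEquiv.refl (Fin 5 → AP)) (φ := fun k d => d k) (ψ := fun k d => d k)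
      (fun _ _ _ => rfl) (fun _ _ _ => rfl) fun k => ?_
    simp only [dPen, dAt_fst]
    by_cases h' : x' = some k
    · by_cases h : x = some k
      · simp only [if_pos h, if_pos h']
        exact penBij_cor hB IsShift.iota0 τ τ' p o (hne _ h' h)
      · simp only [if_neg h]; exact PenBij.of_right_zero rfl rfl
    · simp only [if_neg h']; exact PenBij.of_left_zero rfl rfl
  · simp only [dPen, dAt_snd]
    by_cases h' : x' = none
    · by_cases h : x = none
      · simp only [if_pos h, if_pos h']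
        exact penBij_cor hB IsShift.px τ τ' p o (hne _ h' h)
      · simp only [if_neg h]; exact PenBij.of_right_zero rfl rfl
    · simp only [if_neg h']; exact PenBij.of_left_zero rfl rfl

theorem penBij_rb (hB : SpecBlocks) (hJK : SpecJunkKer) (hEJ : SpecEulerJunk) (hO : SpecOrth)
    (hF : SpecFinite) (hσ : Closed σ) (hp : p ∈ σ x) (ho : ∀ q, o = some q → q ∉ σ x') :
    PenBij RB (dAt x' (sysP.f0 τ') (sysX.f0 τ')) (dAt x' (sysP.f1 τ') (sysX.f1 τ'))
      (dPen x' τ' o) (dAt x (sysP.f0 τ) (sysX.f0 τ)) (dAt x (sysP.f1 τ) (sysX.f1 τ))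
      (dPen x τ (some p)) := by
  let : Module RD UU := Module.compHom UU (RingHom.snd (Fin 5 → AP) AX)
  let : Module RD Px := Module.compHom Px
    ((Pi.evalRingHom (fun _ : Fin 5 => AP) 0).comp (RingHom.fst (Fin 5 → AP) AX))
  let : Module RDᵐᵒᵖ UU := Module.compHom UU
    ((Pi.evalRingHom (fun _ : Fin 5 => AP) (Fin.last 4)).comp (RingHom.fst (Fin 5 → AP) AX)).op
  let : Module RDᵐᵒᵖ Px := Module.compHom Px (RingHom.snd (Fin 5 → AP) AX).op
  let e : RB ≃+ (Fin 4 → AP) × (UU × Px) :=
    { toFun := fun b => (b.id_, b.uu, b.pp)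
      invFun := fun t => RB.mk t.1 t.2.1 t.2.2
      left_inv := fun _ => rfl
      right_inv := fun _ => rfl
      map_add' := fun _ _ => rfl }
  refine PenBij.split e (φ₁ := fun (d : RD) (k : Fin 4) => d.1 k.succ) (φ₂ := id)
    (ψ₁ := fun (d : RD) (k : Fin 4) => d.1 k.castSucc) (ψ₂ := id) (fun _ _ => rfl) (fun _ _ => rfl) ?_ ?_
  · refine PenBij.splitPi (AddEquiv.refl (Fin 4 → AP)) (φ := fun k d => d k) (ψ := fun k d => d k)
      (fun _ _ _ => rfl) (fun _ _ _ => rfl) fun k => ?_
    simp only [dPen, dAt_fst]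
    by_cases h' : x' = some k.succ
    · by_cases h : x = some k.castSucc
      · simp only [if_pos h, if_pos h']
        refine penBij_cor hB IsShift.iota0 τ τ' p o ?_
        rintro rfl
        exact ho p rfl (h' ▸ hσ.1 k (h ▸ hp))
      · simp only [if_neg h]; exact PenBij.of_right_zero rfl rfl
    · simp only [if_neg h']; exact PenBij.of_left_zero rfl rfl
  · refine PenBij.split (AddEquiv.refl (UU × Px)) (φ₁ := fun d => d.2) (φ₂ := fun d => d.1 0)
      (ψ₁ := fun d => d.1 (Fin.last 4)) (ψ₂ := fun d => d.2) (fun _ _ => rfl) (fun _ _ => rfl) ?_ ?_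
    · simp only [id, dPen, dAt_fst, dAt_snd]
      by_cases h' : x' = none
      · by_cases h : x = some (Fin.last 4)
        · simp only [if_pos h, if_pos h']
          obtain ⟨n₀, hn₀⟩ := hJK τ p (hσ.2.2.2 _ hp)
          refine penBij_uu hB hO hEJ hF τ p hn₀ τ' o ?_
          intro he
          cases o with
          | none => simp at he
          | some q =>
            have hq : q = p + 1 := by
              have := Option.some.inj he
              rw [← this]; ring
            exact ho q rfl (h' ▸ hq ▸ hσ.2.1 p (h ▸ hp))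
        · simp only [if_neg h]; exact PenBij.of_right_zero rfl rfl
      · simp only [if_neg h']; exact PenBij.of_left_zero rfl rfl
    · simp only [id, dPen, dAt_fst, dAt_snd]
      by_cases h' : x' = some 0
      · by_cases h : x = none
        · simp only [if_pos h, if_pos h']
          refine penBij_blk hB IsShift.iota0 IsShift.px τ τ' p o ?_
          rintro rfl
          exact ho p rfl (h' ▸ hσ.2.2.1 (h ▸ hp))
        · simp only [if_neg h]; exact PenBij.of_right_zero rfl rfl
      · simp only [if_neg h']; exact PenBij.of_left_zero rfl rfl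

end Assembly

theorem _root_.Vale.Agent.P195.specRRegular (hB : SpecBlocks) (hJK : SpecJunkKer) (hEJ : SpecEulerJunk) (hO : SpecOrth)
    (hF : SpecFinite) : SpecRRegular := by
  intro σ hσ
  have := isNoetherianRing_RR hF
  refine sysR.regular_of_penBij _ ?_
  rintro ⟨x, τ⟩ p hp ⟨x', τ'⟩ o ho
  rw [sysR_f0, sysR_f0, sysR_f1, sysR_f1, sysR_penO,
    show sysR.pen (x, τ) p = TrivSqZeroExt.inl (dPen x τ (some p)) from sysR_penO x τ (some p)]
  let e : RD × RB ≃+ RR :=
    { toFun := fun t => TrivSqZeroExt.inl t.1 + TrivSqZeroExt.inr t.2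
      invFun := fun z => (z.fst, z.snd)
      left_inv := fun t => by ext1 <;> simp
      right_inv := fun z => TrivSqZeroExt.inl_fst_add_inr_snd_eq z
      map_add' := fun s t => by ext1 <;> simp }
  refine PenBij.map_equiv e (TrivSqZeroExt.inl : RD → RR) (TrivSqZeroExt.inl : RD → RR) ?_ ?_ ?_
  · intro l t
    show _ = TrivSqZeroExt.inl l * (TrivSqZeroExt.inl t.1 + TrivSqZeroExt.inr t.2)
    rw [mul_add, ← TrivSqZeroExt.inl_mul, TrivSqZeroExt.inl_mul_inr]
    rfl
  · intro c t
    show _ = (TrivSqZeroExt.inl t.1 + TrivSqZeroExt.inr t.2) * TrivSqZeroExt.inl c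
    rw [add_mul, ← TrivSqZeroExt.inl_mul, TrivSqZeroExt.inr_mul_inl]
    rfl
  · exact PenBij.split (AddEquiv.refl (RD × RB)) (φ₁ := id) (φ₂ := id) (ψ₁ := id) (ψ₂ := id)
      (fun _ _ => rfl) (fun _ _ => rfl) (penBij_rd hB hp ho) (penBij_rb hB hJK hEJ hO hF hσ hp ho)

/-! ### the module `C` -/

theorem lamM_smul_one (p : Fin 2) (c : ℂ) : lamM p p (c • (1 : Mat)) = c := by
  rw [map_smul, lamM_one, smul_eq_mul, mul_one]

theorem chi_single (u w : Vtx 2) (m : Mat) (h : m ∈ H (iota0 u) (iota0 w))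
    (p q : Fin 2 × Fin 2) :
    chi (Cor.single u w m h) p q =
      if supp0 p = u ∧ supp0 q = w then lamM p.1 q.1 m else 0 := by
  rw [chi_apply, Cor.val_single, Matrix.single_apply]
  by_cases hh : supp0 p = u ∧ supp0 q = w
  · rw [if_pos hh, if_pos ⟨hh.1.symm, hh.2.symm⟩]
  · rw [if_neg hh, if_neg (fun e => hh ⟨e.1.symm, e.2.symm⟩), map_zero]

theorem chi_idem (u : Vtx 2) :
    chi (idem iota0 u) = Matrix.diagonal (fun p => if supp0 p = u then 1 else 0) := by
  ext p q
  rw [idem, chi_single, Matrix.diagonal_apply]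
  by_cases h : p = q
  · subst h; simp [lamM_one]
  · rw [if_neg h, if_neg]
    exact fun e => h (supp0_injective (e.1.trans e.2.symm))

theorem chi_algebraMap (c : ℂ) : chi (algebraMap ℂ AP c) = c • 1 := by
  ext p q
  rw [chi_apply, cor_algebraMap_val, Matrix.algebraMap_matrix_apply, Matrix.smul_apply,
    Matrix.one_apply]
  by_cases h : p = q
  · subst h
    rw [if_pos rfl, if_pos rfl, Algebra.algebraMap_eq_smul_one, lamM_smul_one, smul_eq_mul, mul_one]
  · rw [if_neg h, if_neg (fun e => h (supp0_injective e)), map_zero, smul_zero]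

theorem lamM_dg_zP (p : Fin 2) : lamM p p (dg zP) = 0 := by
  fin_cases p <;> simp [lamM, dg_apply, ev0, zP]

theorem supp0_pair (r : Fin 2 × Fin 2) : ∃ τ, ∀ i, supp0 (r.1, i) = (τ, i) := by
  obtain ⟨t, j⟩ := r
  fin_cases t
  · exact ⟨Tau.X 0 1 0, fun i => rfl⟩
  · exact ⟨Tau.Z 0, fun i => rfl⟩

/-- the action of an element from (τ,1) to (τ,0) -/
theorem chi_arrow (τ : Tau 2) (m : Mat) (h : m ∈ H (iota0 (τ, 0)) (iota0 (τ, 1))) (v : ℂ)
    (hv : ∀ p, lamM p p m = v) (x : Fin 2 × Fin 2 → ℂ) (r : Fin 2 × Fin 2) :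
    (chi (Cor.single (τ, 0) (τ, 1) m h)).mulVec x r =
      if supp0 r = (τ, 0) then v * x (r.1, 1) else 0 := by
  rw [Matrix.mulVec, dotProduct]
  by_cases hr : supp0 r = (τ, 0)
  · obtain ⟨τ', hτ'⟩ := supp0_pair r
    have e := hτ' r.2
    rw [Prod.mk.eta, hr] at e
    obtain rfl : τ = τ' := congrArg Prod.fst e
    rw [if_pos hr, Finset.sum_eq_single (r.1, (1 : Fin 2))]
    · rw [chi_single, if_pos ⟨hr, hτ' 1⟩, hv]
    · intro q _ hq
      rw [chi_single, if_neg, zero_mul]
      exact fun e => hq (supp0_injective (e.2.trans (hτ' 1).symm))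
    · exact fun h' => absurd (Finset.mem_univ _) h'
  · rw [if_neg hr]
    exact Finset.sum_eq_zero fun q _ => by rw [chi_single, if_neg (fun e => hr e.1), zero_mul]

theorem chi_idem_fix {u : Vtx 2} {y : C0} (h : idem iota0 u • y = y) (r : Fin 2 × Fin 2)
    (hr : supp0 r ≠ u) : y.vec r = 0 := by
  have := congrArg (fun z : C0 => z.vec r) h
  simp only [c0_smul, chi_idem, Matrix.mulVec_diagonal, if_neg hr, zero_mul] at this
  exact this.symm

theorem bijOnComp_arrow (τ : Tau 2) (a : AP) (v : ℂ) (hv : v ≠ 0)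
    (hact : ∀ (x : Fin 2 × Fin 2 → ℂ) r,
      (chi a).mulVec x r = if supp0 r = (τ, 0) then v * x (r.1, 1) else 0) :
    BijOnComp (sysP.f0 τ) (sysP.f1 τ) a (ModuleCat.of AP C0) := by
  have hpartner : ∀ r i, supp0 r = (τ, i) → ∀ j, supp0 (r.1, j) = (τ, j) := by
    intro r i hr j
    obtain ⟨τ', hτ'⟩ := supp0_pair r
    have e := hτ' r.2
    rw [Prod.mk.eta, hr] at e
    obtain rfl : τ = τ' := congrArg Prod.fst e
    exact hτ' j
  constructor
  · intro y hy hy0
    refine funext (α := Fin 2 × Fin 2) (f := C0.vec y) (g := 0) fun r => ?_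
    by_cases hr : supp0 r = (τ, 1)
    · have h0 := congrArg (fun z : C0 => z.vec (r.1, 0)) hy0
      simp only [c0_smul, hact, if_pos (hpartner r 1 hr 0)] at h0
      have e : r = (r.1, 1) := supp0_injective (hr.trans (hpartner r 1 hr 1).symm)
      rw [e]
      exact (mul_eq_zero.1 h0).resolve_left hv
    · exact chi_idem_fix hy r hr
  · intro x hx
    refine ⟨C0.of fun r => if supp0 r = (τ, 1) then v⁻¹ * C0.vec x (r.1, 0) else 0,
      funext (α := Fin 2 × Fin 2) fun r => ?_, funext (α := Fin 2 × Fin 2) fun r => ?_⟩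
    · show (chi (idem iota0 (τ, 1))).mulVec _ r = _
      rw [chi_idem, Matrix.mulVec_diagonal]
      show _ * (if supp0 r = (τ, 1) then _ else 0) = if supp0 r = (τ, 1) then _ else 0
      split_ifs <;> simp
    · show (chi a).mulVec _ r = C0.vec x r
      rw [hact]
      show (if supp0 r = (τ, 0) then v * (if supp0 (r.1, 1) = (τ, 1) then _ else 0) else 0) = _
      by_cases hr : supp0 r = (τ, 0)
      · rw [if_pos hr, if_pos (hpartner r 0 hr 1), ← mul_assoc, mul_inv_cancel₀ hv, one_mul]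
        rw [show r = (r.1, 0) from supp0_injective (hr.trans (hpartner r 0 hr 0).symm)]
      · rw [if_neg hr]
        exact (chi_idem_fix hx r hr).symm

theorem projZero_inl (d : RD) : projZero (TrivSqZeroExt.inl d) = d.1 0 := rfl

theorem bijOnComp_c0 (τ : Tau 2) (o : Option ℂ) (ho : o ≠ some 0) :
    BijOnComp (sysP.f0 τ) (sysP.f1 τ) (sysP.penO τ o) (ModuleCat.of AP C0) := by
  cases o with
  | none =>
    exact bijOnComp_arrow τ _ 1 one_ne_zero
      (chi_arrow τ 1 (H_s IsShift.iota0 τ) 1 lamM_one)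
  | some q =>
    refine bijOnComp_arrow τ _ (-q) (neg_ne_zero.2 fun h => ho (by rw [h])) fun x r => ?_
    show (chi (sysP.t τ - q • sysP.s τ)).mulVec x r = _
    have ht : (chi (sysP.t τ)).mulVec x r = _ :=
      chi_arrow τ (dg zP) (H_z IsShift.iota0 τ) 0 lamM_dg_zP x r
    have hs : (chi (sysP.s τ)).mulVec x r = _ :=
      chi_arrow τ 1 (H_s IsShift.iota0 τ) 1 lamM_one x r
    rw [map_sub, Algebra.smul_def, map_mul, chi_algebraMap, smul_one_mul, Matrix.sub_mulVec,
      Matrix.smul_mulVec, Pi.sub_apply, Pi.smul_apply, ht, hs]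
    split_ifs <;> simp

/-- an element of `C` as an element of `C₀` -/
def crToC0 (y : CR) : C0 := y
/-- an element of `C₀` as an element of `C` -/
def crOfC0 (y : C0) : CR := y

theorem inl_smul_cr (d : RD) (y : CR) :
    crToC0 ((TrivSqZeroExt.inl d : RR) • y) = d.1 0 • crToC0 y := rfl

theorem cr_finite : Module.Finite RR CR := by
  let F : (Fin 2 × Fin 2 → RR) →ₗ[RR] CR :=
    Fintype.linearCombination RR (fun r => crOfC0 (C0.of (Pi.single r 1)))
  refine Module.Finite.of_surjective F fun x => ?_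
  refine ⟨fun r => jLev 0 (algebraMap ℂ AP (C0.vec (crToC0 x) r)), ?_⟩
  simp only [F, Fintype.linearCombination_apply]
  have : ∀ r : Fin 2 × Fin 2, jLev 0 (algebraMap ℂ AP (C0.vec (crToC0 x) r)) •
      crOfC0 (C0.of (Pi.single r 1)) = crOfC0 (C0.of (Pi.single r (C0.vec (crToC0 x) r))) :=
      fun r => by
    show crToC0 (jLev 0 _ • crOfC0 _) = crToC0 (crOfC0 _)
    rw [jLev_apply, inl_smul_cr, dLev_fst, Pi.single_eq_same]
    refine funext fun r' => ?_
    show (chi _).mulVec (Pi.single r (1 : ℂ)) r' = (Pi.single r (C0.vec (crToC0 x) r) : Fin 2 × Fin 2 → ℂ) r'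
    rw [chi_algebraMap, Matrix.smul_mulVec, Matrix.one_mulVec]
    refine congrFun ?_ r'
    show C0.vec (crToC0 x) r • (Pi.single r (1 : ℂ) : Fin 2 × Fin 2 → ℂ) = _
    rw [← Pi.single_smul, smul_eq_mul, mul_one]
  simp only [this]
  exact Finset.univ_sum_single (C0.vec (crToC0 x))

theorem _root_.Vale.Agent.P195.specCCl : SpecCCl := by
  intro σ _ h0
  have key : ∀ (x : Option (Fin 5)) (τ : Tau 2) (o : Option ℂ), (∀ q, o = some q → q ∉ σ x) →
      BijOnComp (sysR.f0 (x, τ)) (sysR.f1 (x, τ)) (sysR.penO (x, τ) o) ModC := by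
    intro x τ o ho
    rw [sysR_f0, sysR_f1, sysR_penO]
    by_cases hx : x = some 0
    · subst hx
      have := bijOnComp_c0 τ o (fun h => ho 0 h h0)
      constructor
      · intro y hy hy0
        have k1 := congrArg crToC0 hy
        have k2 := congrArg crToC0 hy0
        rw [inl_smul_cr, dAt_fst, if_pos rfl] at k1
        rw [inl_smul_cr, dAt_fst, if_pos rfl] at k2
        exact this.1 (crToC0 y) k1 k2
      · intro z hz
        have k := congrArg crToC0 hz
        rw [inl_smul_cr, dAt_fst, if_pos rfl] at k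
        obtain ⟨y, e1, e2⟩ := this.2 (crToC0 z) k
        refine ⟨crOfC0 y, ?_, ?_⟩
        · show crToC0 _ = crToC0 _
          rw [inl_smul_cr, dAt_fst, if_pos rfl]
          exact e1
        · show crToC0 _ = crToC0 _
          rw [inl_smul_cr, dAt_fst, if_pos rfl]
          exact e2
    · constructor
      · intro y hy _
        have k := congrArg crToC0 hy
        rw [inl_smul_cr, dAt_fst, if_neg hx, zero_smul] at k
        exact k.symm
      · intro z hz
        have k := congrArg crToC0 hz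
        rw [inl_smul_cr, dAt_fst, if_neg hx, zero_smul] at k
        exact ⟨0, smul_zero _, (smul_zero _).trans k⟩
  exact ⟨cr_finite, fun i => key i.1 i.2 none (fun q h => by simp at h),
    fun i q hq => key i.1 i.2 (some q) (fun q' h => Option.some.inj h ▸ hq)⟩

end

end Vale.Agent.P195.RReg
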