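import Mathlib

/-!
The functor `Hom_A(P, -)` for a bimodule `P`, as left modules over the ring acting on the right.
-/

namespace Vale.Agent.P195

/-- `Hom_A(P,M)`, to be considered as a left `B`-module when `B` acts on `P` on the right. -/
def HomP (A : Type) [Ring A] (P M : Type) [AddCommGroup P] [Module A P] [AddCommGroup M]
    [Module A M] : Type := P →ₗ[A] M

variable {A B : Type} [Ring A] [Ring B] {P M : Type} [AddCommGroup P] [Module A P]
  [AddCommGroup M] [Module A M]

noncomputable instance : AddCommGroup (HomP A P M) := inferInstanceAs (AddCommGroup (P →ₗ[A] M))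

instance : FunLike (HomP A P M) P M := inferInstanceAs (FunLike (P →ₗ[A] M) P M)

namespace HomP

def toLin (f : HomP A P M) : P →ₗ[A] M := f
def ofLin (f : P →ₗ[A] M) : HomP A P M := f

@[ext] theorem ext {f g : HomP A P M} (h : ∀ p, f p = g p) : f = g :=
  LinearMap.ext (f := toLin f) (g := toLin g) h

@[simp] theorem add_apply (f g : HomP A P M) (p : P) : (f + g) p = f p + g p := rfl
@[simp] theorem zero_apply (p : P) : (0 : HomP A P M) p = 0 := rfl
@[simp] theorem map_add' (f : HomP A P M) (p q : P) : f (p + q) = f p + f q :=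
  map_add (toLin f) p q
@[simp] theorem map_smul' (f : HomP A P M) (a : A) (p : P) : f (a • p) = a • f p :=
  map_smul (toLin f) a p
@[simp] theorem map_zero' (f : HomP A P M) : f 0 = 0 := map_zero (toLin f)

variable [Module Bᵐᵒᵖ P] [SMulCommClass A Bᵐᵒᵖ P]

noncomputable instance : Module B (HomP A P M) where
  smul b f := ofLin
    { toFun := fun p => f (MulOpposite.op b • p)
      map_add' := fun p q => by simp [smul_add]
      map_smul' := fun a p => by simp [← smul_comm a] }
  one_smul f := HomP.ext fun p => show f (MulOpposite.op (1 : B) • p) = f p by simp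
  mul_smul b c f := HomP.ext fun p =>
    show f (MulOpposite.op (b * c) • p) = f (MulOpposite.op c • MulOpposite.op b • p) by
      simp [mul_smul]
  smul_zero b := HomP.ext fun _ => rfl
  smul_add b f g := HomP.ext fun _ => rfl
  add_smul b c f := HomP.ext fun p =>
    show f (MulOpposite.op (b + c) • p) = f (MulOpposite.op b • p) + f (MulOpposite.op c • p) by
      simp [add_smul]
  zero_smul f := HomP.ext fun p =>
    show f (MulOpposite.op (0 : B) • p) = 0 by simp

theorem smul_apply (b : B) (f : HomP A P M) (p : P) :
    (b • f) p = f (MulOpposite.op b • p) := rfl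

/-- functoriality -/
noncomputable def map {N : Type} [AddCommGroup N] [Module A N] (g : M →ₗ[A] N) :
    HomP A P M →ₗ[B] HomP A P N where
  toFun f := ofLin (g ∘ₗ toLin f)
  map_add' f f' := HomP.ext fun p => map_add g (f p) (f' p)
  map_smul' _ _ := rfl

section Right

variable {C : Type} [Ring C] [Module Cᵐᵒᵖ M] [SMulCommClass A Cᵐᵒᵖ M]

noncomputable instance rightModule : Module Cᵐᵒᵖ (HomP A P M) :=
  inferInstanceAs (Module Cᵐᵒᵖ (P →ₗ[A] M))

theorem op_smul_apply (c : Cᵐᵒᵖ) (f : HomP A P M) (p : P) : (c • f) p = c • f p := rfl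

instance : SMulCommClass B Cᵐᵒᵖ (HomP A P M) := ⟨fun _ _ _ => HomP.ext fun _ => rfl⟩

end Right

end HomP

end Vale.Agent.P195
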