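import Vale.Agent.P195.EV
import Vale.Agent.P195.HomP

/-!
Module A of P195: `Hom(P,-)` on modules without self-extension obstruction, and basic lemmas.
-/

namespace Vale.Agent.P195

open CategoryTheory MulOpposite

noncomputable section

section Basic

variable {A : Type} [Ring A]

theorem ev_of_left_subsingleton {n : ℕ} {X Y : ModuleCat.{0} A} (h : ∀ x : X, x = 0) :
    EV n X Y :=
  ev_of_factor_left (ι := Empty) (fun i => i.elim) (fun i => i.elim) (fun i => i.elim)
    (fun y => by simp [h y]) (fun i => i.elim)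

theorem ev_self {n : ℕ} (hn : 1 ≤ n) (V : ModuleCat.{0} A) : EV n (ModuleCat.of A A) V := by
  have : Module.Projective A (ModuleCat.of A A) := inferInstanceAs (Module.Projective A A)
  exact ev_of_projective hn

theorem ev_span_idem {n : ℕ} (hn : 1 ≤ n) {e : A} (he : e * e = e) (V : ModuleCat.{0} A) :
    EV n (ModuleCat.of A ↥(Submodule.span A {e})) V :=
  ev_of_factor_left (ι := Unit) (fun _ => ModuleCat.of A A)
    (fun _ => (Submodule.span A {e}).subtype)
    (fun _ => LinearMap.codRestrict _ (LinearMap.toSpanSingleton A A e)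
      (fun a => Submodule.mem_span_singleton.2 ⟨a, rfl⟩))
    (fun y => by
      rw [Fintype.sum_unique]
      refine Subtype.ext ?_
      obtain ⟨a, ha⟩ := Submodule.mem_span_singleton.1 y.2
      show (y.1 : A) • e = y.1
      rw [← ha, smul_eq_mul, smul_eq_mul, mul_assoc, he])
    (fun _ => ev_self hn V)

theorem ev_free {n : ℕ} (hn : 1 ≤ n) (b : ℕ) (V : ModuleCat.{0} A) :
    EV n (ModuleCat.of A (Fin b → A)) V :=
  ev_of_factor_left (ι := Fin b) (fun _ => ModuleCat.of A A)
    (fun i => LinearMap.proj i) (fun i => LinearMap.single A (fun _ : Fin b => A) i)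
    (fun y => by
      simp only [LinearMap.proj_apply, LinearMap.coe_single]
      exact Finset.univ_sum_single y)
    (fun _ => ev_self hn V)

/-- If a finite set generates and every map lifts, the kernel has no `Ext^1` from `P`. -/
theorem exists_presentation [Algebra ℂ A] [Module.Finite ℂ A] {P : Type} [AddCommGroup P]
    [Module A P] [Module.Finite A P]
    (hpp : EV 1 (ModuleCat.of A P) (ModuleCat.of A P))
    (htr : ∀ M : ModuleCat.{0} A, EV 1 (ModuleCat.of A P) M →
      (⨆ h : P →ₗ[A] M, LinearMap.range h) = ⊤)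
    (M : ModuleCat.{0} A) (hfin : Module.Finite A M) (hM : EV 1 (ModuleCat.of A P) M) :
    ∃ (b : ℕ) (π : (Fin b → P) →ₗ[A] M), Function.Surjective π ∧
      (∀ h : P →ₗ[A] M, ∃ f : P →ₗ[A] (Fin b → P), π ∘ₗ f = h) ∧
      Module.Finite A (LinearMap.ker π) ∧
      EV 1 (ModuleCat.of A P) (ModuleCat.of A (LinearMap.ker π)) := by
  let : Module ℂ P := Module.compHom P (algebraMap ℂ A)
  let : Module ℂ M := Module.compHom M (algebraMap ℂ A)
  have : IsScalarTower ℂ A P := ⟨fun c a p => by
    show (c • a) • p = algebraMap ℂ A c • a • p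
    rw [Algebra.smul_def, mul_smul]⟩
  have : IsScalarTower ℂ A M := ⟨fun c a p => by
    show (c • a) • p = algebraMap ℂ A c • a • p
    rw [Algebra.smul_def, mul_smul]⟩
  have hcM : SMulCommClass A ℂ M := ⟨fun a c p => by
    show a • algebraMap ℂ A c • p = algebraMap ℂ A c • a • p
    rw [← mul_smul, ← mul_smul, Algebra.commutes]⟩
  have : Module.Finite ℂ P := Module.Finite.trans A P
  have : Module.Finite ℂ M := Module.Finite.trans A M
  let res : (P →ₗ[A] M) →ₗ[ℂ] (P →ₗ[ℂ] M) :=
    { toFun := fun f => f.restrictScalars ℂ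
      map_add' := fun _ _ => rfl
      map_smul' := fun _ _ => rfl }
  have : Module.Finite ℂ (P →ₗ[A] M) := Module.Finite.of_injective res
    (fun f g h => LinearMap.ext fun p => LinearMap.congr_fun h p)
  obtain ⟨b, h, hspan⟩ := Module.Finite.exists_fin (R := ℂ) (M := P →ₗ[A] M)
  let π : (Fin b → P) →ₗ[A] M := ∑ i, (h i) ∘ₗ LinearMap.proj i
  have hπ : ∀ x, π x = ∑ i, h i (x i) := fun x => by simp [π]
  have hlift : ∀ g : P →ₗ[A] M, ∃ f : P →ₗ[A] (Fin b → P), π ∘ₗ f = g := by
    intro g
    obtain ⟨c, hc⟩ := (Submodule.mem_span_range_iff_exists_fun ℂ).1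
      (hspan ▸ Submodule.mem_top : g ∈ Submodule.span ℂ (Set.range h))
    let sc : Fin b → (P →ₗ[A] P) := fun i =>
      { toFun := fun p => algebraMap ℂ A (c i) • p
        map_add' := fun p q => smul_add _ p q
        map_smul' := fun a p => by
          simp only [RingHom.id_apply]
          rw [← mul_smul, ← mul_smul, Algebra.commutes] }
    refine ⟨LinearMap.pi sc, LinearMap.ext fun p => ?_⟩
    rw [LinearMap.comp_apply, hπ, ← hc, LinearMap.sum_apply]
    refine Finset.sum_congr rfl fun i _ => ?_
    show h i (algebraMap ℂ A (c i) • p) = algebraMap ℂ A (c i) • h i p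
    rw [map_smul]
  have hsurj : Function.Surjective π := by
    rw [← LinearMap.range_eq_top, eq_top_iff, ← htr M hM]
    refine iSup_le fun g => ?_
    obtain ⟨f, rfl⟩ := hlift g
    exact LinearMap.range_comp_le_range f π
  have : IsNoetherianRing A := IsNoetherianRing.of_finite ℂ A
  refine ⟨b, π, hsurj, hlift, Module.IsNoetherian.finite A _, ?_⟩
  have hS := shortExact_mk (X := ModuleCat.of A (LinearMap.ker π))
    (Y := ModuleCat.of A (Fin b → P)) (Z := M) (LinearMap.ker π).subtype π
    Subtype.val_injective hsurj (LinearMap.exact_subtype_ker_map π)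
  refine ev_one_of_lift hS (ModuleCat.of A P) ?_ hlift
  exact ev_of_factor (ι := Fin b) (fun _ => ModuleCat.of A P) (fun i => LinearMap.proj i)
    (fun i => LinearMap.single A (fun _ : Fin b => P) i)
    (fun y => by
      simp only [LinearMap.proj_apply, LinearMap.coe_single]
      exact Finset.univ_sum_single y)
    (fun _ => hpp)

end Basic

section FF

variable {A B P : Type} [Ring A] [Algebra ℂ A] [Module.Finite ℂ A] [Ring B] [AddCommGroup P]
  [Module A P] [Module Bᵐᵒᵖ P] [SMulCommClass A Bᵐᵒᵖ P] [Module.Finite A P]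

theorem ff_bijective (hpp : EV 1 (ModuleCat.of A P) (ModuleCat.of A P))
    (hB : ∀ h : P →ₗ[A] P, ∃ b : B, ∀ m, h m = op b • m)
    (htr : ∀ M : ModuleCat.{0} A, EV 1 (ModuleCat.of A P) M →
      (⨆ h : P →ₗ[A] M, LinearMap.range h) = ⊤)
    (M : ModuleCat.{0} A) (hfin : Module.Finite A M) (hM : EV 1 (ModuleCat.of A P) M)
    (E : ModuleCat.{0} A) :
    Function.Bijective (fun g : M →ₗ[A] E => (HomP.map g : HomP A P M →ₗ[B] HomP A P E)) := by
  refine ⟨fun g g' hgg => ?_, fun φ => ?_⟩
  · have h : LinearMap.ker (g - g') = ⊤ := by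
      rw [eq_top_iff, ← htr M hM]
      refine iSup_le fun h => ?_
      rintro _ ⟨p, rfl⟩
      have := congrArg (fun z : HomP A P M →ₗ[B] HomP A P E => z (HomP.ofLin h) p) hgg
      rw [LinearMap.mem_ker, LinearMap.sub_apply, sub_eq_zero]
      exact this
    exact sub_eq_zero.1 (LinearMap.ker_eq_top.1 h)
  obtain ⟨b, π, hsurj, hlift, -, hK⟩ := exists_presentation hpp htr M hfin hM
  let h : Fin b → HomP A P M := fun i =>
    HomP.ofLin (π ∘ₗ LinearMap.single A (fun _ : Fin b => P) i)
  let G : (Fin b → P) →ₗ[A] E := ∑ i, (HomP.toLin (φ (h i))) ∘ₗ LinearMap.proj i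
  have hG : ∀ x, G x = ∑ i, φ (h i) (x i) := fun x => by
    simp only [G, LinearMap.sum_apply, LinearMap.comp_apply, LinearMap.proj_apply]
    rfl
  have hsum : ∀ (F : Fin b → HomP A P E) (p : P), (∑ i, F i) p = ∑ i, F i p := fun F p =>
    map_sum (AddMonoidHom.mk' (fun f : HomP A P E => f p) (fun _ _ => rfl)) F Finset.univ
  have hsum' : ∀ (F : Fin b → HomP A P M) (p : P), (∑ i, F i) p = ∑ i, F i p := fun F p =>
    map_sum (AddMonoidHom.mk' (fun f : HomP A P M => f p) (fun _ _ => rfl)) F Finset.univ
  have key : ∀ f : P →ₗ[A] (Fin b → P), ∀ p, G (f p) = φ (HomP.ofLin (π ∘ₗ f)) p := by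
    intro f p
    choose c hc using fun i => hB ((LinearMap.proj i).comp f)
    have e : HomP.ofLin (π ∘ₗ f) = ∑ i, c i • h i := HomP.ext fun q => by
      rw [hsum']
      show π (f q) = ∑ i, π (Pi.single i (op (c i) • q))
      rw [← map_sum]
      congr 1
      refine (Finset.univ_sum_single (f q)).symm.trans (Finset.sum_congr rfl fun i _ => ?_)
      rw [← hc i q]
      rfl
    rw [e, map_sum, hsum, hG]
    refine Finset.sum_congr rfl fun i _ => ?_
    rw [map_smul, HomP.smul_apply, ← hc i p]
    rfl
  have hker : LinearMap.ker π ≤ LinearMap.ker G := by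
    intro x hx
    have hx' : (⟨x, hx⟩ : LinearMap.ker π) ∈
        (⨆ f : P →ₗ[A] (LinearMap.ker π), LinearMap.range f) := by
      have h' := htr (ModuleCat.of A (LinearMap.ker π)) hK
      exact h' ▸ Submodule.mem_top
    refine Submodule.iSup_induction
      (p := fun f : P →ₗ[A] (LinearMap.ker π) => LinearMap.range f)
      (motive := fun y => G y.1 = 0) hx' ?_ (map_zero G) ?_
    · rintro f y ⟨p, rfl⟩
      show G (((LinearMap.ker π).subtype ∘ₗ f) p) = 0
      rw [key, show π ∘ₗ ((LinearMap.ker π).subtype ∘ₗ f) = 0 from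
        LinearMap.ext fun q => LinearMap.mem_ker.1 (f q).2]
      have : φ (HomP.ofLin (0 : P →ₗ[A] M)) = 0 := map_zero φ
      rw [this]
      rfl
    · intro y z hy hz
      show G (y.1 + z.1) = 0
      rw [map_add, hy, hz, add_zero]
  let e := π.quotKerEquivOfSurjective hsurj
  let g : M →ₗ[A] E := (Submodule.liftQ (LinearMap.ker π) G hker) ∘ₗ e.symm.toLinearMap
  have hg : ∀ x, g (π x) = G x := by
    intro x
    show Submodule.liftQ _ G hker (e.symm (π x)) = G x
    rw [show e.symm (π x) = Submodule.Quotient.mk x from e.symm_apply_eq.2 rfl]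
    rfl
  refine ⟨g, LinearMap.ext fun f => HomP.ext fun p => ?_⟩
  obtain ⟨f', hf'⟩ := hlift (HomP.toLin f)
  show g (f p) = φ f p
  rw [show f p = π (f' p) from (LinearMap.congr_fun hf' p).symm, hg, key, hf']
  rfl

theorem ff_ev (hpp : EV 1 (ModuleCat.of A P) (ModuleCat.of A P))
    (hB : ∀ h : P →ₗ[A] P, ∃ b : B, ∀ m, h m = op b • m)
    (hfaith : ∀ b : B, (∀ m : P, op b • m = 0) → b = 0)
    (htr : ∀ M : ModuleCat.{0} A, EV 1 (ModuleCat.of A P) M →
      (⨆ h : P →ₗ[A] M, LinearMap.range h) = ⊤)
    (E : ModuleCat.{0} A) (hE : Injective E) :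
    ∀ (k : ℕ) (M : ModuleCat.{0} A), Module.Finite A M → EV 1 (ModuleCat.of A P) M →
      EV (k + 1) (ModuleCat.of B (HomP A P M)) (ModuleCat.of B (HomP A P E)) := by
  intro k
  induction k with
  | zero =>
    intro M hfin hM
    exact aux 0 M hfin hM (fun K _ _ => trivial)
  | succ k ih =>
    intro M hfin hM
    exact aux (k + 1) M hfin hM ih
where
  aux : ∀ (k : ℕ) (M : ModuleCat.{0} A), Module.Finite A M → EV 1 (ModuleCat.of A P) M →
      (∀ K : ModuleCat.{0} A, Module.Finite A K → EV 1 (ModuleCat.of A P) K →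
        match k with
        | 0 => True
        | k + 1 => EV (k + 1) (ModuleCat.of B (HomP A P K)) (ModuleCat.of B (HomP A P E))) →
      EV (k + 1) (ModuleCat.of B (HomP A P M)) (ModuleCat.of B (HomP A P E)) := by
    intro k M hfin hM ih
    obtain ⟨b, π, hsurj, hlift, hKfin, hK⟩ := exists_presentation hpp htr M hfin hM
    let K := ModuleCat.of A (LinearMap.ker π)
    let Q := ModuleCat.of A (Fin b → P)
    have hS : (ShortComplex.mk
        (ModuleCat.ofHom (X := HomP A P K) (Y := HomP A P Q) (HomP.map (B := B) (LinearMap.ker π).subtype))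
        (ModuleCat.ofHom (Y := HomP A P M) (HomP.map (B := B) π))
        (ModuleCat.hom_ext (LinearMap.ext fun f => HomP.ext fun p => LinearMap.mem_ker.1 (f p).2))).ShortExact := by
      refine shortExact_mk (X := ModuleCat.of B (HomP A P K)) (Y := ModuleCat.of B (HomP A P Q))
        (Z := ModuleCat.of B (HomP A P M)) _ _ (fun f f' hff => HomP.ext fun p => Subtype.ext ?_) (fun h => ?_) ?_
      · exact congrArg (fun z : HomP A P Q => z p) hff
      · obtain ⟨f, hf⟩ := hlift (HomP.toLin h)
        exact ⟨HomP.ofLin f, hf⟩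
      · intro f
        constructor
        · intro hf
          exact ⟨HomP.ofLin (LinearMap.codRestrict (LinearMap.ker π) (HomP.toLin f)
            (fun p => LinearMap.mem_ker.2 (congrArg (fun z : HomP A P M => z p) hf))),
            HomP.ext fun p => rfl⟩
        · rintro ⟨f', rfl⟩
          exact HomP.ext fun p => LinearMap.mem_ker.1 (f' p).2
    have hQ : ∀ n, 1 ≤ n →
        EV n (ModuleCat.of B (HomP A P Q)) (ModuleCat.of B (HomP A P E)) := by
      intro n hn
      let idP : HomP A P P := HomP.ofLin LinearMap.id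
      have hbij : Function.Bijective (LinearMap.toSpanSingleton B (HomP A P P) idP) := by
        refine ⟨fun x y hxy => sub_eq_zero.1 (hfaith _ fun m => ?_), fun f => ?_⟩
        · have := congrArg (fun z : HomP A P P => z m) hxy
          rw [show op (x - y) = op x - op y from rfl, sub_smul, sub_eq_zero]
          exact this
        · obtain ⟨c, hc⟩ := hB (HomP.toLin f)
          exact ⟨c, HomP.ext fun m => (hc m).symm⟩
      have h1 : EV n (ModuleCat.of B (HomP A P P)) (ModuleCat.of B (HomP A P E)) :=
        ev_of_linearEquiv_left (X' := ModuleCat.of B B) (LinearEquiv.ofBijective _ hbij).symm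
          (ev_self hn _)
      refine ev_of_factor_left (ι := Fin b) (fun _ => ModuleCat.of B (HomP A P P))
        (fun i => HomP.map (LinearMap.proj i))
        (fun i => HomP.map (LinearMap.single A (fun _ : Fin b => P) i)) (fun f => ?_) (fun _ => h1)
      refine HomP.ext fun p => ?_
      rw [show (∑ i : Fin b, (HomP.map (B := B) (LinearMap.single A (fun _ : Fin b => P) i))
          ((HomP.map (B := B) (LinearMap.proj i)) f) : HomP A P Q) p =
          ∑ i : Fin b, Pi.single i ((f p) i) from
        map_sum (AddMonoidHom.mk' (fun z : HomP A P Q => z p) (fun _ _ => rfl)) _ Finset.univ]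
      exact Finset.univ_sum_single (f p)
    rcases k with _ | k
    · refine ev_one_of_extend hS _ (hQ 1 le_rfl) fun φ => ?_
      obtain ⟨g0, hg0⟩ := (ff_bijective hpp hB htr K hKfin hK E).2 φ
      have : Mono (ModuleCat.ofHom (X := K) (Y := Q) (LinearMap.ker π).subtype) :=
        (ModuleCat.mono_iff_injective _).2 Subtype.val_injective
      let g1 : Q ⟶ E := Injective.factorThru (J := E) (ModuleCat.ofHom g0)
        (ModuleCat.ofHom (X := K) (Y := Q) (LinearMap.ker π).subtype)
      have hg1 := Injective.comp_factorThru (J := E) (ModuleCat.ofHom g0)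
        (ModuleCat.ofHom (X := K) (Y := Q) (LinearMap.ker π).subtype)
      refine ⟨HomP.map g1.hom, ?_⟩
      rw [← hg0]
      refine LinearMap.ext fun f => HomP.ext fun p => ?_
      exact congrArg (fun z : K ⟶ E => z.hom (f p)) hg1
    · exact ev_right hS _ (ih K hKfin hK) (hQ _ (by omega))

end FF

end

end Vale.Agent.P195
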