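import Vale.Agent.P195.Spec2
import Vale.Agent.P195.ToolsFF

/-!
Module A of P195: orthogonality of spectral classes, corners, and full faithfulness.
-/

namespace Vale.Agent.P195

open CategoryTheory MulOpposite

noncomputable section

section Orth

variable {A : Type} [Ring A] {e0 e1 a : A}

theorem bij_ker {X Y : ModuleCat.{0} A} (φ : X →ₗ[A] Y)
    (hX : BijOnComp e0 e1 a X) (hY : ∀ y : Y, e1 • y = y → a • y = 0 → y = 0) :
    BijOnComp e0 e1 a (ModuleCat.of A (LinearMap.ker φ)) := by
  refine ⟨fun y hy hay => Subtype.ext (hX.1 _ (congrArg Subtype.val hy) (congrArg Subtype.val hay)),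
    fun x hx => ?_⟩
  obtain ⟨y, hy, hay⟩ := hX.2 _ (congrArg Subtype.val hx)
  refine ⟨⟨y, LinearMap.mem_ker.2 (hY _ ?_ ?_)⟩, Subtype.ext hy, Subtype.ext hay⟩
  · rw [← map_smul, hy]
  · rw [← map_smul, hay]
    exact LinearMap.mem_ker.1 x.2

theorem bij_range {X Y : ModuleCat.{0} A} (φ : X →ₗ[A] Y) (h0 : e0 * e0 = e0)
    (hX : BijOnComp e0 e1 a X) (hY : ∀ y : Y, e1 • y = y → a • y = 0 → y = 0) :
    BijOnComp e0 e1 a (ModuleCat.of A (LinearMap.range φ)) := by
  refine ⟨fun y hy hay => Subtype.ext (hY _ (congrArg Subtype.val hy) (congrArg Subtype.val hay)),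
    fun x hx => ?_⟩
  obtain ⟨z, hz⟩ := x.2
  obtain ⟨y, hy, hay⟩ := hX.2 (e0 • z) (by rw [← mul_smul, h0])
  refine ⟨⟨φ y, y, rfl⟩, Subtype.ext ?_, Subtype.ext ?_⟩
  · show e1 • φ y = φ y
    rw [← map_smul, hy]
  · show a • φ y = x.1
    rw [← map_smul, hay, map_smul, hz]
    exact congrArg Subtype.val hx

theorem bij_quot {Y : ModuleCat.{0} A} (K : Submodule A Y) (hle : e0 * a = a) (hre : a * e1 = a)
    (h0 : e0 * e0 = e0) (h1 : e1 * e1 = e1) (hY : BijOnComp e0 e1 a Y)
    (hK : ∀ x ∈ K, e0 • x = x → ∃ y ∈ K, e1 • y = y ∧ a • y = x) :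
    BijOnComp e0 e1 a (ModuleCat.of A (Y ⧸ K)) := by
  constructor
  · intro q hq haq
    obtain ⟨y, rfl⟩ := Submodule.Quotient.mk_surjective K q
    have h : a • y ∈ K := (Submodule.Quotient.mk_eq_zero K).1 haq
    obtain ⟨y', hy'K, hy', hay'⟩ := hK _ h (by rw [← mul_smul, hle])
    have hz : e1 • y - y' = 0 := by
      refine hY.1 _ ?_ ?_
      · rw [smul_sub, ← mul_smul, h1, hy']
      · rw [smul_sub, ← mul_smul, hre, hay', sub_self]
    rw [sub_eq_zero] at hz
    rw [← hq]
    show Submodule.Quotient.mk (e1 • y) = (0 : Y ⧸ K)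
    rw [Submodule.Quotient.mk_eq_zero, hz]
    exact hy'K
  · intro q hq
    obtain ⟨x, rfl⟩ := Submodule.Quotient.mk_surjective K q
    obtain ⟨y, hy, hay⟩ := hY.2 (e0 • x) (by rw [← mul_smul, h0])
    refine ⟨Submodule.Quotient.mk y, congrArg Submodule.Quotient.mk hy, ?_⟩
    show Submodule.Quotient.mk (a • y) = _
    rw [hay]
    exact hq

variable [Algebra ℂ A] [Module.Finite ℂ A] {ι : Type} [Fintype ι] (P : PencilSystem A ι)
  {S : ι → Set ℂ}

omit [Module.Finite ℂ A] in
theorem orth_cok {n : ℕ} (hreg : P.Regular S)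
    (IH : ∀ m, m < n → ∀ Y V : ModuleCat.{0} A, P.Cl S Y → P.Disj S V → EV m Y V)
    (i : ι) {p : ℂ} (hp : p ∈ S i) (V : ModuleCat.{0} A) (hV : P.Disj S V) :
    EV n (ModuleCat.of A (P.cokPen i p)) V := by
  let W := Submodule.span A {P.f1 i}
  let U : Submodule A W := (Submodule.span A {P.pen i p}).comap W.subtype
  let w1 : W := ⟨P.f1 i, Submodule.mem_span_singleton_self _⟩
  have hw : ∀ w : W, w = (w.1 : A) • w1 := fun w => by
    obtain ⟨b, hb⟩ := Submodule.mem_span_singleton.1 w.2
    refine Subtype.ext ?_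
    show w.1 = w.1 • P.f1 i
    rw [← hb, smul_eq_mul, smul_eq_mul, mul_assoc, P.f1_idem]
  have hfix : P.f1 i • w1 = w1 := Subtype.ext (P.f1_idem i)
  let upen : U := ⟨⟨P.pen i p, Submodule.mem_span_singleton.2 ⟨P.pen i p, P.right_pen i p⟩⟩,
    Submodule.mem_span_singleton_self (P.pen i p)⟩
  have hpenw : P.pen i p • w1 = upen.1 := Subtype.ext (P.right_pen i p)
  rcases n with _ | m
  · refine ev_zero_iff.2 fun h => ?_
    have h0 : h (Submodule.Quotient.mk w1) = 0 := by
      refine (hV i p hp).1 _ ?_ ?_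
      · rw [← map_smul]
        exact congrArg h (congrArg Submodule.Quotient.mk hfix)
      · rw [← map_smul]
        refine (congrArg h ((congrArg Submodule.Quotient.mk hpenw).trans ?_)).trans (map_zero h)
        exact (Submodule.Quotient.mk_eq_zero _).2 upen.2
    refine LinearMap.ext fun q => ?_
    obtain ⟨w, rfl⟩ := Submodule.Quotient.mk_surjective _ q
    rw [hw w]
    show h ((w.1 : A) • Submodule.Quotient.mk w1) = 0
    rw [map_smul, h0, smul_zero]
  have hS := shortExact_sub (Y := ModuleCat.of A W) U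
  have hWev : ∀ k, 1 ≤ k → EV k (ModuleCat.of A W) V := fun k hk =>
    ev_span_idem hk (P.f1_idem i) V
  rcases m with _ | m
  · refine ev_one_of_extend hS V (hWev 1 le_rfl) fun f => ?_
    have hx : P.f0 i • f upen = f upen := by
      rw [← map_smul]
      exact congrArg f (Subtype.ext (Subtype.ext (P.left_pen i p)))
    obtain ⟨v, hv1, hv⟩ := (hV i p hp).2 _ hx
    let g : W →ₗ[A] V :=
      { toFun := fun w => (w.1 : A) • v
        map_add' := fun w w' => add_smul (w.1 : A) w'.1 v
        map_smul' := fun b w => mul_smul b (w.1 : A) v }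
    refine ⟨g, LinearMap.ext fun u => ?_⟩
    obtain ⟨b, hb⟩ := Submodule.mem_span_singleton.1 u.2
    have hu : u = b • upen := Subtype.ext (Subtype.ext hb.symm)
    rw [hu, map_smul, map_smul]
    show b • (P.pen i p • v) = b • f upen
    rw [hv]
  · let Uf := Submodule.span A {P.f0 i}
    have hmemW : ∀ x : A, x ∈ Uf → x * P.pen i p ∈ W := fun x _ =>
      Submodule.mem_span_singleton.2 ⟨x * P.pen i p, by
        rw [smul_eq_mul, mul_assoc, P.right_pen]⟩
    let ψ : Uf →ₗ[A] U :=
      { toFun := fun x => ⟨⟨x.1 * P.pen i p, hmemW x.1 x.2⟩,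
          Submodule.mem_span_singleton.2 ⟨x.1, rfl⟩⟩
        map_add' := fun x y => Subtype.ext (Subtype.ext (add_mul x.1 y.1 _))
        map_smul' := fun b x => Subtype.ext (Subtype.ext (mul_assoc b x.1 _)) }
    let χ : P.kerPen i p →ₗ[A] Uf :=
      { toFun := fun x => ⟨x.1, x.2.1⟩
        map_add' := fun x y => rfl
        map_smul' := fun b x => rfl }
    have hS2 := shortExact_mk (X := ModuleCat.of A (P.kerPen i p)) (Y := ModuleCat.of A Uf)
      (Z := ModuleCat.of A U) χ ψ
      (fun x y h => Subtype.ext (congrArg (fun z : Uf => z.1) h))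
      (fun u => by
        obtain ⟨b, hb⟩ := Submodule.mem_span_singleton.1 u.2
        refine ⟨⟨b * P.f0 i, Submodule.mem_span_singleton.2 ⟨b, rfl⟩⟩, Subtype.ext (Subtype.ext ?_)⟩
        show b * P.f0 i * P.pen i p = _
        rw [mul_assoc, P.left_pen]
        exact hb)
      (fun x => by
        constructor
        · intro hx
          exact ⟨⟨x.1, x.2, congrArg (fun z : U => z.1.1) hx⟩, rfl⟩
        · rintro ⟨y, rfl⟩
          exact Subtype.ext (Subtype.ext y.2.2))
    have hker : EV m (ModuleCat.of A (P.kerPen i p)) V := IH m (by omega) _ _ (hreg i p hp).1 hV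
    have hU : EV (m + 1) (ModuleCat.of A U) V :=
      ev_right hS2 V hker (ev_span_idem (by omega) (P.f0_idem i) V)
    exact ev_right hS V hU (hWev _ (by omega))

theorem orth_aux (hreg : P.Regular S) : ∀ (n : ℕ) (Y V : ModuleCat.{0} A),
    P.Cl S Y → P.Disj S V → EV n Y V := by
  intro n
  induction n using Nat.strong_induction_on with
  | _ n IH =>
  intro Y V hY hV
  suffices H : ∀ (d : ℕ) (Y : ModuleCat.{0} A) (_ : Module ℂ Y) (_ : IsScalarTower ℂ A Y),
      P.Cl S Y → Module.finrank ℂ Y = d → EV n Y V by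
    let : Module ℂ Y := Module.compHom Y (algebraMap ℂ A)
    exact H _ Y this ⟨fun c a p => by
      show (c • a) • p = algebraMap ℂ A c • a • p
      rw [Algebra.smul_def, mul_smul]⟩ hY rfl
  clear hY Y
  intro d
  induction d using Nat.strong_induction_on with
  | _ d ihd =>
  intro Y _ _ hY hd
  obtain ⟨hfinY, hsY, hpY⟩ := hY
  have : Module.Finite ℂ Y := Module.Finite.trans A Y
  by_cases hzero : ∀ y : Y, y = 0
  · exact ev_of_left_subsingleton hzero
  push Not at hzero
  obtain ⟨y0, hy0⟩ := hzero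
  have hex : ∃ i, ∃ v : Y, v ≠ 0 ∧ P.f1 i • v = v := by
    by_contra h
    push Not at h
    apply hy0
    have h1 : ∀ i, P.f1 i • y0 = 0 := fun i => by
      by_contra h'
      exact h i _ h' (by rw [← mul_smul, P.f1_idem])
    have h0 : ∀ i, P.f0 i • y0 = 0 := fun i => by
      obtain ⟨v, hv, hsv⟩ := (hsY i).2 (P.f0 i • y0) (by rw [← mul_smul, P.f0_idem])
      have : v = 0 := by
        by_contra h'
        exact h i v h' hv
      rw [← hsv, this, smul_zero]
    rw [← one_smul A y0, ← P.complete, Finset.sum_smul]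
    exact Finset.sum_eq_zero fun i _ => by rw [add_smul, h0, h1, add_zero]
  obtain ⟨i, v0, hv0, hv0f⟩ := hex
  have hc : ∀ (a : A) (c : ℂ) (y : Y), a • (c • y) = c • (a • y) := fun a c y => by
    rw [← algebraMap_smul A c y, ← algebraMap_smul A c (a • y), ← mul_smul, ← mul_smul,
      Algebra.commutes]
  let E1 : Submodule ℂ Y :=
    { carrier := {y | P.f1 i • y = y}
      zero_mem' := smul_zero _
      add_mem' := fun {a b} ha hb => by
        show _ • (a + b) = a + b
        rw [smul_add, ha, hb]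
      smul_mem' := fun c y hy => by
        show P.f1 i • (c • y) = c • y
        rw [hc, hy] }
  have hT : ∀ y : E1, ∃ z : E1, P.s i • z.1 = P.t i • y.1 := fun y => by
    obtain ⟨z, hz, hsz⟩ := (hsY i).2 (P.t i • y.1) (by rw [← mul_smul, P.left_t])
    exact ⟨⟨z, hz⟩, hsz⟩
  choose T hT using hT
  have huniq : ∀ z z' : E1, P.s i • z.1 = P.s i • z'.1 → z = z' := fun z z' h =>
    Subtype.ext (sub_eq_zero.1 ((hsY i).1 (z.1 - z'.1) (E1.sub_mem z.2 z'.2)
      (by rw [smul_sub, h, sub_self])))
  let TT : E1 →ₗ[ℂ] E1 :=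
    { toFun := T
      map_add' := fun y y' => huniq _ _ (by
        rw [hT, Submodule.coe_add, Submodule.coe_add, smul_add, smul_add, hT, hT])
      map_smul' := fun c y => huniq _ _ (by
        rw [hT, RingHom.id_apply, Submodule.coe_smul, Submodule.coe_smul, hc, hc, hT]) }
  have : Nontrivial E1 := ⟨⟨⟨v0, hv0f⟩, 0, fun h => hv0 (congrArg Subtype.val h)⟩⟩
  obtain ⟨p, hp⟩ := Module.End.exists_eigenvalue (TT : Module.End ℂ E1)
  obtain ⟨y, hy, hyne⟩ := hp.exists_hasEigenvector
  have hy' : TT y = p • y := Module.End.mem_eigenspace_iff.1 hy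
  have hpeny : P.pen i p • y.1 = 0 := by
    have h : P.s i • (T y).1 = P.t i • y.1 := hT y
    rw [show T y = p • y from hy', Submodule.coe_smul, hc] at h
    rw [PencilSystem.pen, sub_smul, smul_assoc, h, sub_self]
  have hne : y.1 ≠ 0 := fun h => hyne (Subtype.ext h)
  have hpS : p ∈ S i := by
    by_contra h
    exact hne ((hpY i p h).1 _ y.2 hpeny)
  -- the map from the cokernel of the pencil
  let W := Submodule.span A {P.f1 i}
  let g : W →ₗ[A] Y :=
    { toFun := fun w => (w.1 : A) • y.1
      map_add' := fun w w' => add_smul (w.1 : A) w'.1 y.1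
      map_smul' := fun b w => mul_smul b (w.1 : A) y.1 }
  let φ : ModuleCat.of A (P.cokPen i p) →ₗ[A] Y :=
    Submodule.liftQ _ g (fun w hw => by
      obtain ⟨b, hb⟩ := Submodule.mem_span_singleton.1 hw
      rw [LinearMap.mem_ker]
      show (w.1 : A) • y.1 = 0
      rw [show (w.1 : A) = b * P.pen i p from hb.symm, mul_smul, hpeny, smul_zero])
  obtain ⟨hfinC, hsC, hpC⟩ := (hreg i p hpS).2
  have : IsNoetherianRing A := IsNoetherianRing.of_finite ℂ A
  have hK : P.Cl S (ModuleCat.of A (LinearMap.ker φ)) :=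
    ⟨Module.IsNoetherian.finite A _,
      fun k => bij_ker φ (hsC k) (hsY k).1,
      fun k q hq => bij_ker φ (hpC k q hq) (hpY k q hq).1⟩
  have hmemY' : y.1 ∈ LinearMap.range φ :=
    ⟨Submodule.Quotient.mk ⟨P.f1 i, Submodule.mem_span_singleton_self _⟩, y.2⟩
  have hR := fun k => bij_range φ (P.f0_idem k) (hsC k) (hsY k).1
  have hR' := fun k q hq => bij_range φ (P.f0_idem k) (hpC k q hq) (hpY k q hq).1
  have hQ : P.Cl S (ModuleCat.of A (Y ⧸ LinearMap.range φ)) := by
    refine ⟨Module.Finite.quotient A _, fun k => ?_, fun k q hq => ?_⟩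
    · refine bij_quot _ (P.left_s k) (P.right_s k) (P.f0_idem k) (P.f1_idem k) (hsY k) ?_
      intro x hx hfx
      obtain ⟨z, hz, haz⟩ := (hR k).2 ⟨x, hx⟩ (Subtype.ext hfx)
      exact ⟨z.1, z.2, congrArg Subtype.val hz, congrArg Subtype.val haz⟩
    · refine bij_quot _ (P.left_pen k q) (P.right_pen k q) (P.f0_idem k) (P.f1_idem k) (hpY k q hq) ?_
      intro x hx hfx
      obtain ⟨z, hz, haz⟩ := (hR' k q hq).2 ⟨x, hx⟩ (Subtype.ext hfx)
      exact ⟨z.1, z.2, congrArg Subtype.val hz, congrArg Subtype.val haz⟩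
  -- the quotient is smaller
  generalize hN : LinearMap.range φ = N at hQ hmemY'
  have hlt : Module.finrank ℂ (Y ⧸ N) < d := by
    have h1 := (Submodule.Quotient.restrictScalarsEquiv ℂ N).finrank_eq
    have h2 := Submodule.finrank_quotient_add_finrank (N.restrictScalars ℂ)
    have h3 : 0 < Module.finrank ℂ (N.restrictScalars ℂ) := by
      refine Nat.pos_of_ne_zero fun h => hne ?_
      rw [Submodule.finrank_eq_zero] at h
      have hm : y.1 ∈ N.restrictScalars ℂ := hmemY'
      rwa [h, Submodule.mem_bot] at hm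
    omega
  have hquot : EV n (ModuleCat.of A (Y ⧸ N)) V := ihd _ hlt (ModuleCat.of A (Y ⧸ N))
    (inferInstanceAs (Module ℂ (Y ⧸ N))) (inferInstanceAs (IsScalarTower ℂ A (Y ⧸ N))) hQ rfl
  have hcok := orth_cok P hreg IH i hpS V hV
  have hrange : EV n (ModuleCat.of A (LinearMap.range φ)) V := by
    have hS1 := shortExact_mk (X := ModuleCat.of A (LinearMap.ker φ))
      (Y := ModuleCat.of A (P.cokPen i p)) (Z := ModuleCat.of A (LinearMap.range φ))
      (LinearMap.ker φ).subtype φ.rangeRestrict Subtype.val_injective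
      φ.surjective_rangeRestrict (fun x => by
        show φ.rangeRestrict x = 0 ↔ x ∈ Set.range (LinearMap.ker φ).subtype
        rw [Subtype.ext_iff]
        exact ⟨fun h => ⟨⟨x, LinearMap.mem_ker.2 h⟩, rfl⟩, fun ⟨u, hu⟩ => hu ▸ LinearMap.mem_ker.1 u.2⟩)
    rcases n with _ | m
    · exact ev_right_zero hS1 V hcok
    · exact ev_right hS1 V (IH m (by omega) _ _ hK hV) hcok
  subst hN
  exact ev_mid (shortExact_sub (LinearMap.range φ)) V hrange hquot

end Orth

/-- modules of disjoint spectral classes have no extensions -/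
theorem specOrth : SpecOrth := fun _ _ _ _ _ _ P _ hreg Y V hY hV n =>
  orth_aux P hreg n Y V hY hV

/-- `Hom(P,-)` is fully faithful -/
theorem specFF : SpecFF := fun _ _ _ _ _ _ _ _ _ _ _ _ hpp hB hfaith htr M hfin hM =>
  ⟨fun E => ff_bijective hpp hB htr M hfin hM E, fun E hE n hn => by
    obtain ⟨k, rfl⟩ : ∃ k, n = k + 1 := ⟨n - 1, by omega⟩
    exact ff_ev hpp hB hfaith htr E hE k M hfin hM⟩

section Corner

variable {R A : Type} [Ring R] [Ring A] (j : A →ₙ+* R) (Y : ModuleCat.{0} A)

/-- the point of `eR` attached to the idempotent -/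
def eRone : eR j := ⟨j 1, by
  show j 1 * j 1 = j 1
  rw [← map_mul, one_mul]⟩

/-- one direction of the adjunction -/
def toRes (X : ModuleCat.{0} R) (f : X →ₗ[R] coind j Y) : resC j X →ₗ[A] Y where
  toFun x := (show CoindT j Y from f (x : Comp j X).1) (eRone j)
  map_add' x y := by
    show (show CoindT j Y from f ((x : Comp j X).1 + (y : Comp j X).1)) (eRone j) = _
    rw [map_add]
    rfl
  map_smul' a x := by
    show (show CoindT j Y from f (j a • (x : Comp j X).1)) (eRone j) = _
    rw [map_smul]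
    show (show CoindT j Y from f (x : Comp j X).1) (eRmul j (j a) (eRone j)) = _
    have e : eRmul j (j a) (eRone j) = a • eRone j := Subtype.ext (by
      show j 1 * j a = j a * j 1
      rw [← map_mul, ← map_mul, one_mul, mul_one])
    rw [e]
    exact (show eR j →ₗ[A] Y from f (x : Comp j X).1).map_smul a (eRone j)

/-- the action of `eR` on an element -/
def actL (X : ModuleCat.{0} R) (x : X) : eR j →ₗ[A] resC j X where
  toFun u := (⟨(u : Comp j (ModuleCat.of R R)).1 • x, by
    have h : j 1 * (u : Comp j (ModuleCat.of R R)).1 = (u : Comp j (ModuleCat.of R R)).1 := u.2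
    rw [mem_comp, ← mul_smul, h]⟩ : Comp j X)
  map_add' u v := Subtype.ext
    (add_smul (u : Comp j (ModuleCat.of R R)).1 (v : Comp j (ModuleCat.of R R)).1 x)
  map_smul' a u := Subtype.ext (mul_smul (j a) (u : Comp j (ModuleCat.of R R)).1 x)

/-- the other direction of the adjunction -/
def ofRes (X : ModuleCat.{0} R) (g : resC j X →ₗ[A] Y) : X →ₗ[R] coind j Y where
  toFun x := ((g ∘ₗ actL j X x : eR j →ₗ[A] Y) : CoindT j Y)
  map_add' x y := CoindT.ext fun u => by
    have e : actL j X (x + y) u = actL j X x u + actL j X y u :=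
      Subtype.ext (smul_add (u : Comp j (ModuleCat.of R R)).1 x y)
    exact (congrArg g e).trans (LinearMap.map_add g _ _)
  map_smul' r x := CoindT.ext fun u => by
    have e : actL j X (r • x) u = actL j X x (eRmul j r u) :=
      Subtype.ext (mul_smul (u : Comp j (ModuleCat.of R R)).1 r x).symm
    exact congrArg g e

theorem toRes_ofRes (X : ModuleCat.{0} R) (g : resC j X →ₗ[A] Y) :
    toRes j Y X (ofRes j Y X g) = g :=
  LinearMap.ext fun x => congrArg g (Subtype.ext (x : Comp j X).2)

theorem toRes_injective (X : ModuleCat.{0} R) : Function.Injective (toRes j Y X) := by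
  intro f f' h
  refine LinearMap.ext fun x => CoindT.ext fun u => ?_
  have key : ∀ f : X →ₗ[R] coind j Y, (show CoindT j Y from f x) u =
      (show CoindT j Y from f ((u : Comp j (ModuleCat.of R R)).1 • x)) (eRone j) := by
    intro f
    rw [map_smul]
    refine congrArg (fun z => (show CoindT j Y from f x) z) (Subtype.ext ?_)
    exact (u : Comp j (ModuleCat.of R R)).2.symm
  rw [key f, key f']
  have hmem : (u : Comp j (ModuleCat.of R R)).1 • x ∈ Comp j X := by
    have h' : j 1 * (u : Comp j (ModuleCat.of R R)).1 = (u : Comp j (ModuleCat.of R R)).1 := u.2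
    rw [mem_comp, ← mul_smul, h']
  exact LinearMap.congr_fun h (⟨_, hmem⟩ : Comp j X)

theorem toRes_comp {X X' : ModuleCat.{0} R} (f : X' →ₗ[R] coind j Y) (φ : X →ₗ[R] X') :
    toRes j Y X (f ∘ₗ φ) = toRes j Y X' f ∘ₗ resMap j φ := rfl

theorem corner_iff [IsNoetherianRing R] (hY : ∀ n, 1 ≤ n → EV n (eR j) Y) :
    ∀ (n : ℕ) (X : ModuleCat.{0} R), Module.Finite R X →
      (EV n (resC j X) Y ↔ EV n X (coind j Y)) := by
  intro n
  induction n using Nat.strong_induction_on with
  | _ n ih =>
  intro X hX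
  rcases n with _ | m
  · rw [ev_zero_iff, ev_zero_iff]
    constructor
    · intro h f
      refine toRes_injective j Y X ((h (toRes j Y X f)).trans ?_)
      exact LinearMap.ext fun x => rfl
    · intro h g
      rw [← toRes_ofRes j Y X g, h (ofRes j Y X g)]
      exact LinearMap.ext fun x => rfl
  obtain ⟨b, π, hπ⟩ := Module.Finite.exists_fin' R X
  let K := ModuleCat.of R (LinearMap.ker π)
  let Q := ModuleCat.of R (Fin b → R)
  have hKfin : Module.Finite R K := Module.IsNoetherian.finite R _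
  have hS := shortExact_mk (X := K) (Y := Q) (Z := X) (LinearMap.ker π).subtype π
    Subtype.val_injective hπ (LinearMap.exact_subtype_ker_map π)
  have hS' := shortExact_mk (X := resC j K) (Y := resC j Q) (Z := resC j X)
    (resMap j (M := K) (N := Q) (LinearMap.ker π).subtype) (resMap j (M := Q) (N := X) π)
    (fun u v h => Subtype.ext (Subtype.ext (congrArg (fun z : Comp j Q => z.1) h)))
    (fun x => by
      obtain ⟨q, hq⟩ := hπ (x : Comp j X).1
      refine ⟨(⟨j 1 • q, smul_mem_comp 1 (M := Q) q⟩ : Comp j Q), Subtype.ext ?_⟩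
      show π (j 1 • q) = _
      rw [map_smul, hq]
      exact (x : Comp j X).2)
    (fun q => by
      constructor
      · intro h
        refine ⟨(⟨⟨(q : Comp j Q).1, LinearMap.mem_ker.2 (congrArg (fun z : Comp j X => z.1) h)⟩,
          Subtype.ext (q : Comp j Q).2⟩ : Comp j K), Subtype.ext rfl⟩
      · rintro ⟨u, rfl⟩
        exact Subtype.ext (LinearMap.mem_ker.1 (u : Comp j K).1.2))
  have hQ : ∀ k, 1 ≤ k → EV k Q (coind j Y) := fun k hk => ev_free hk b _
  have hQ' : ∀ k, 1 ≤ k → EV k (resC j Q) Y := fun k hk =>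
    ev_of_factor_left (ι := Fin b) (fun _ => eR j)
      (fun i => resMap j (M := Q) (N := ModuleCat.of R R) (LinearMap.proj i))
      (fun i => resMap j (M := ModuleCat.of R R) (N := Q)
        (LinearMap.single R (fun _ : Fin b => R) i))
      (fun q => by
        refine Subtype.ext ?_
        refine (map_sum (Comp j Q).subtype _ Finset.univ).trans ?_
        exact Finset.univ_sum_single (q : Comp j Q).1)
      (fun _ => hY k hk)
  rcases m with _ | m
  · constructor
    · intro h
      refine ev_one_of_extend hS _ (hQ 1 le_rfl) fun f => ?_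
      obtain ⟨g, hg⟩ := extend_of_ev_one hS' Y h (toRes j Y K f)
      refine ⟨ofRes j Y Q g, toRes_injective j Y K ?_⟩
      refine Eq.trans ?_ hg
      exact congrArg (fun z => z ∘ₗ resMap j (M := K) (N := Q) (LinearMap.ker π).subtype)
        (toRes_ofRes j Y Q g)
    · intro h
      refine ev_one_of_extend hS' _ (hQ' 1 le_rfl) fun f => ?_
      obtain ⟨g, hg⟩ := extend_of_ev_one hS (coind j Y) h (ofRes j Y K f)
      refine ⟨toRes j Y Q g, ?_⟩
      exact ((toRes_comp j Y g _).symm.trans (congrArg (toRes j Y K) hg)).trans (toRes_ofRes j Y K f)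
  · have hIH := ih (m + 1) (by omega) K hKfin
    constructor
    · intro h
      exact ev_right hS _ (hIH.1 (ev_left hS' Y (hQ' (m + 1) (by omega)) h)) (hQ (m + 2) (by omega))
    · intro h
      exact ev_right hS' _ (hIH.2 (ev_left hS _ (hQ (m + 1) (by omega)) h)) (hQ' (m + 2) (by omega))

end Corner

/-- restriction to a corner and coinduction -/
theorem specCorner : SpecCorner := fun _ _ _ _ _ j Y hY n X hX => corner_iff j Y hY n X hX

end

end Vale.Agent.P195
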