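import Vale.Agent.P195.Main
import Vale.Agent.P195.RShapiro
import Vale.Agent.P195.RMid
import Vale.Agent.P195.RRegular
import Vale.Agent.P195.Blocks
import Vale.Agent.P195.Junk
import Vale.Agent.P195.Euler
import Vale.Agent.P195.Tools
import Vale.Agent.P195.C0Self
import Vale.Agent.P195.C0Px
import Vale.Agent.P195.PxAux
import Vale.Agent.P195.C0ResExact

/-!
Assembly of the modules of P195: everything reduced to exactness of the finite model.
-/

namespace Vale.Agent.P195

/-- the counterexample, from exactness of the coordinate model of the resolution of `C₀` -/
theorem ar_false_of_model (hM : C0E.SpecModel) :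
    ∃ (R : Type) (_ : Ring R) (_ : Algebra ℂ R), Module.Finite ℂ R ∧
      ∃ M : ModuleCat.{0} R, Module.Finite R M ∧ ¬ Module.Projective R M ∧
        ∀ i : ℕ, 1 ≤ i → Subsingleton (CategoryTheory.Abelian.Ext M M i) ∧
          Subsingleton (CategoryTheory.Abelian.Ext M (ModuleCat.of R R) i) := by
  have hRes := C0E.specResExact hM
  have hEJ := specEulerJunk specFinite
  have hReg := specRRegular specBlocks specJunkKer hEJ specOrth specFinite
  have hFin := rr_finite specFinite
  have hN := RReg.isNoetherianRing_RR specFinite
  exact ar_counterexample (specCC (specC0Self hRes) specOrth hReg hFin)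
    (specCLow hN specCorner)
    (specCMid specFinite specCorner specFF specEuler hEJ specCosyz specOrth hReg specCCl)
    (specCTop hN specCorner specEuler (specC0Px hRes specPxAux)) hFin

end Vale.Agent.P195
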