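import Vale.Agent.P195.Spec

/-!
Right and left multiplication by pencils, entry by entry: the algebra behind `SpecBlocks`.
-/

namespace Vale.Agent.P195

open Polynomial Matrix

noncomputable section

namespace BlocksAux

/-- the pencil `z - p`, as a 2x2 matrix -/
def pM (p : ℂ) : Mat := dg zP - p • 1

theorem pM_eq (p : ℂ) : pM p = dg (zP - algebraMap ℂ PP p) := by
  have h : dg (zP - algebraMap ℂ PP p) = dg zP - dg (algebraMap ℂ PP p) := map_sub dg _ _
  rw [h, AlgHom.commutes, Algebra.algebraMap_eq_smul_one]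
  rfl

/-- the entry statement: cokernels of right multiplication by `pM p` seen by left multiplication
by `L` -/
def BlockOK (σ ρ : Tau 3) (p : ℂ) (L : Mat) : Prop :=
  (∀ y ∈ H (σ, 1) (ρ, 1), ∀ z ∈ H (σ, 0) (ρ, 0), L * y = z * pM p →
      ∃ w ∈ H (σ, 1) (ρ, 0), y = w * pM p) ∧
    ∀ x ∈ H (σ, 0) (ρ, 1), ∃ y ∈ H (σ, 1) (ρ, 1), ∃ z ∈ H (σ, 0) (ρ, 0),
      x = L * y + z * pM p

theorem blockOK_of_bot {σ ρ : Tau 3} {p : ℂ} {L : Mat} (h01 : H (σ, 0) (ρ, 1) = ⊥)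
    (h11 : H (σ, 1) (ρ, 1) = ⊥) : BlockOK σ ρ p L := by
  refine ⟨fun y hy _ _ _ => ⟨0, zero_mem _, ?_⟩, fun x hx => ⟨0, zero_mem _, 0, zero_mem _, ?_⟩⟩
  · rw [h11, Submodule.mem_bot] at hy
    rw [hy, zero_mul]
  · rw [h01, Submodule.mem_bot] at hx
    rw [hx, mul_zero, zero_mul, add_zero]

/-- the data of an entry: the spaces of morphisms are images of subsets of a ring -/
structure Param (σ ρ : Tau 3) (Ω : Type) [CommRing Ω] where
  Φ : Ω → Mat
  add : ∀ a b, Φ (a + b) = Φ a + Φ b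
  inj : Function.Injective Φ
  K0 : Set Ω
  K1 : Set Ω
  K2 : Set Ω
  sub : ∀ a ∈ K1, ∀ b ∈ K1, a - b ∈ K1
  zero : (0 : Ω) ∈ K1
  e11 : (H (σ, 1) (ρ, 1) : Set Mat) = Φ '' K1
  e00 : (H (σ, 0) (ρ, 0) : Set Mat) = Φ '' K1
  e01 : (H (σ, 0) (ρ, 1) : Set Mat) = Φ '' K2
  e10 : (H (σ, 1) (ρ, 0) : Set Mat) = Φ '' K0

theorem mem_image_of_eq {M : Submodule ℂ Mat} {Ω : Type} {Φ : Ω → Mat} {K : Set Ω}
    (h : (M : Set Mat) = Φ '' K) {y : Mat} : y ∈ M ↔ ∃ w ∈ K, Φ w = y := by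
  rw [← SetLike.mem_coe, h, Set.mem_image]

/-- the common argument: `R` is the right pencil, `α * R + u` the left multiplier, `u` invertible
with inverse `v` -/
theorem blockOK_of_param {σ ρ : Tau 3} {p : ℂ} {L : Mat} {Ω : Type} [CommRing Ω]
    (P : Param σ ρ Ω) (R α u v : Ω) (hR : ∀ w, P.Φ w * pM p = P.Φ (R * w))
    (hL : ∀ w, L * P.Φ w = P.Φ ((α * R + u) * w)) (huv : v * u = 1)
    (hα : ∀ w ∈ P.K1, α * w ∈ P.K1) (hv : ∀ w ∈ P.K1, v * w ∈ P.K1)
    (hI : ∀ w ∈ P.K1, R * w ∈ P.K1 → w ∈ P.K0)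
    (hII : ∀ x ∈ P.K2, ∃ a ∈ P.K1, ∃ b ∈ P.K1, x = a + R * b) : BlockOK σ ρ p L := by
  refine ⟨?_, ?_⟩
  · intro y hy z hz h
    obtain ⟨y', hy', rfl⟩ := (mem_image_of_eq P.e11).1 hy
    obtain ⟨z', hz', rfl⟩ := (mem_image_of_eq P.e00).1 hz
    rw [hL, hR] at h
    have h' := P.inj h
    have e : R * (v * (z' - α * y')) = y' := by
      linear_combination -v * h' + y' * huv
    have hw : v * (z' - α * y') ∈ P.K1 := hv _ (P.sub _ hz' _ (hα _ hy'))
    refine ⟨P.Φ (v * (z' - α * y')),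
      (mem_image_of_eq P.e10).2 ⟨_, hI _ hw (e.symm ▸ hy'), rfl⟩, ?_⟩
    rw [hR, e]
  · intro x hx
    obtain ⟨x', hx', rfl⟩ := (mem_image_of_eq P.e01).1 hx
    obtain ⟨a, ha, b, hb, rfl⟩ := hII x' hx'
    refine ⟨P.Φ (v * a), (mem_image_of_eq P.e11).2 ⟨_, hv _ ha, rfl⟩, P.Φ (b - α * (v * a)),
      (mem_image_of_eq P.e00).2 ⟨_, P.sub _ hb _ (hα _ (hv _ ha)), rfl⟩, ?_⟩
    rw [hL, hR, ← P.add]
    congr 1
    linear_combination -a * huv

/-- left multiplier `1` -/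
theorem blockOK_one {σ ρ : Tau 3} {p : ℂ} {Ω : Type} [CommRing Ω] (P : Param σ ρ Ω)
    (R : Ω) (hR : ∀ w, P.Φ w * pM p = P.Φ (R * w))
    (hI : ∀ w ∈ P.K1, R * w ∈ P.K1 → w ∈ P.K0)
    (hII : ∀ x ∈ P.K2, ∃ a ∈ P.K1, ∃ b ∈ P.K1, x = a + R * b) : BlockOK σ ρ p 1 :=
  blockOK_of_param P R 0 1 1 hR
    (fun w => by rw [one_mul, zero_mul, zero_add, one_mul]) (one_mul 1)
    (fun w _ => by rw [zero_mul]; exact P.zero) (fun w hw => by rwa [one_mul]) hI hII

/-- left multiplier a pencil -/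
theorem blockOK_pen {σ ρ : Tau 3} {p : ℂ} {L : Mat} {Ω : Type} [CommRing Ω] (P : Param σ ρ Ω)
    (R R' u v : Ω) (hR : ∀ w, P.Φ w * pM p = P.Φ (R * w))
    (hL : ∀ w, L * P.Φ w = P.Φ (R' * w)) (e : R' = R + u) (huv : v * u = 1)
    (hv : ∀ w ∈ P.K1, v * w ∈ P.K1)
    (hI : ∀ w ∈ P.K1, R * w ∈ P.K1 → w ∈ P.K0)
    (hII : ∀ x ∈ P.K2, ∃ a ∈ P.K1, ∃ b ∈ P.K1, x = a + R * b) : BlockOK σ ρ p L :=
  blockOK_of_param P R 1 u v hR
    (fun w => by rw [hL, e, one_mul]) huv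
    (fun w hw => by rwa [one_mul]) hv hI hII

theorem pencil_shift {Ω : Type} [CommRing Ω] [Algebra ℂ Ω] (x E : Ω) (δ δ' p q : ℂ) :
    x + algebraMap ℂ Ω δ' * E - algebraMap ℂ Ω q = (x + algebraMap ℂ Ω δ * E - algebraMap ℂ Ω p) +
      (algebraMap ℂ Ω (p - q) + algebraMap ℂ Ω (δ' - δ) * E) := by
  simp only [map_sub]
  ring

theorem pencil_unit {Ω : Type} [CommRing Ω] [Algebra ℂ Ω] {E : Ω} (hE : E * E = 0) {r : ℂ}
    (hr : r ≠ 0) (t : ℂ) :
    (algebraMap ℂ Ω r⁻¹ - algebraMap ℂ Ω (t / r ^ 2) * E) *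
      (algebraMap ℂ Ω r + algebraMap ℂ Ω t * E) = 1 := by
  have h1 : algebraMap ℂ Ω r⁻¹ * algebraMap ℂ Ω r = 1 := by
    rw [← map_mul, inv_mul_cancel₀ hr, map_one]
  have h2 : algebraMap ℂ Ω r⁻¹ * algebraMap ℂ Ω t =
      algebraMap ℂ Ω (t / r ^ 2) * algebraMap ℂ Ω r := by
    rw [← map_mul, ← map_mul]
    congr 1
    field_simp
  linear_combination h1 + E * h2 - algebraMap ℂ Ω (t / r ^ 2) * algebraMap ℂ Ω t * hE

/-! ### polynomial blocks -/

theorem mX_injective (v' v : Fin 2) : Function.Injective (mX v' v) := by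
  intro G G' h
  rw [mX_apply, mX_apply, dg_apply, dg_apply, arrX] at h
  have h0 := congrFun (congrFun h v) v
  fin_cases v' <;> fin_cases v <;> simp [Matrix.mul_apply, Matrix.diagonal] at h0 <;>
    exact h0.1

theorem mZ_injective (v' v : Fin 2) : Function.Injective (mZ v' v) := by
  intro G G' h
  rw [mZ_apply, mZ_apply, dg_apply, dg_apply, arrZ] at h
  have h0 := congrFun (congrFun h v') v'
  fin_cases v' <;> fin_cases v <;> simp [Matrix.mul_apply, Matrix.diagonal] at h0 <;>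
    exact h0.1

theorem PX_degree {A B : ℕ} {p : ℂ} {G : PP} (hG : G ∈ PX A B 0)
    (h : (zP - algebraMap ℂ PP p) * G ∈ PX A B 0) : G = 0 := by
  have h' : zP * G ∈ PX A B 0 := by
    have := (PX A B 0).add_mem h ((PX A B 0).smul_mem p hG)
    rw [Algebra.smul_def] at this
    have e : zP * G = (zP - algebraMap ℂ PP p) * G + algebraMap ℂ PP p * G := by ring
    rw [e]
    exact this
  refine Polynomial.ext fun b => Polynomial.ext fun a => Polynomial.ext fun j => ?_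
  rw [coeff_zero, coeff_zero, coeff_zero]
  rcases j with - | j
  · have := h' b a 1 (Or.inr (Or.inr Nat.one_pos))
    simpa [zP, coeff_X_mul] using this
  · exact hG b a (j + 1) (Or.inr (Or.inr j.succ_pos))

theorem PX_split {A B : ℕ} (p : ℂ) {x : PP} (hx : x ∈ PX A B 1) :
    ∃ a ∈ PX A B 0, ∃ b ∈ PX A B 0, x = a + (zP - algebraMap ℂ PP p) * b := by
  refine PX_induction (p := fun x => ∃ a ∈ PX A B 0, ∃ b ∈ PX A B 0,
    x = a + (zP - algebraMap ℂ PP p) * b) ⟨0, zero_mem _, 0, zero_mem _, by simp⟩ ?_ ?_ hx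
  · rintro f g ⟨a, ha, b, hb, rfl⟩ ⟨a', ha', b', hb', rfl⟩
    exact ⟨_, Submodule.add_mem _ ha ha', _, Submodule.add_mem _ hb hb', by ring⟩
  · intro b a j c hb ha hj
    rcases j with - | j
    · exact ⟨_, mono_mem hb ha le_rfl c, 0, zero_mem _, by simp⟩
    · obtain rfl : j = 0 := by omega
      refine ⟨p • mono b a 0 c, Submodule.smul_mem _ _ (mono_mem hb ha le_rfl c), mono b a 0 c,
        mono_mem hb ha le_rfl c, ?_⟩
      have e : p • mono b a 0 c + (zP - algebraMap ℂ PP p) * mono b a 0 c = zP * mono b a 0 c := by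
        rw [Algebra.smul_def]; ring
      rw [e]
      simp [mono, zP]
      ring

/-- the entry data of a polynomial block -/
def paramPoly {σ ρ : Tau 3} (A B : ℕ) (Φ : PP →ₗ[ℂ] Mat)
    (hΦ : Function.Injective Φ) (h11 : H (σ, 1) (ρ, 1) = (PX A B 0).map Φ)
    (h00 : H (σ, 0) (ρ, 0) = (PX A B 0).map Φ) (h01 : H (σ, 0) (ρ, 1) = (PX A B 1).map Φ)
    (h10 : H (σ, 1) (ρ, 0) = ⊥) : Param σ ρ PP where
  Φ := Φ
  add := fun a b => map_add Φ a b
  inj := hΦ
  K0 := (⊥ : Submodule ℂ PP)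
  K1 := PX A B 0
  K2 := PX A B 1
  sub := fun a ha b hb => Submodule.sub_mem (PX A B 0) (x := a) (y := b) ha hb
  zero := (PX A B 0).zero_mem
  e11 := by rw [h11]; exact Submodule.map_coe _ _
  e00 := by rw [h00]; exact Submodule.map_coe _ _
  e01 := by rw [h01]; exact Submodule.map_coe _ _
  e10 := by rw [h10, ← Submodule.map_bot Φ]; exact Submodule.map_coe _ _

theorem PX_smul {A B J : ℕ} (c : ℂ) {w : PP} (hw : w ∈ PX A B J) :
    algebraMap ℂ PP c * w ∈ PX A B J :=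
  (Algebra.smul_def c w) ▸ Submodule.smul_mem _ _ hw

theorem pencil_lin {Ω : Type} [CommRing Ω] [Algebra ℂ Ω] (x : Ω) (p q : ℂ) :
    x - algebraMap ℂ Ω q = x - algebraMap ℂ Ω p + algebraMap ℂ Ω (p - q) := by
  rw [map_sub]; ring

theorem pencil_PP (p q : ℂ) :
    zP - algebraMap ℂ PP q = zP - algebraMap ℂ PP p + algebraMap ℂ PP (p - q) :=
  pencil_lin (Ω := PP) zP p q

theorem blockOK_poly {σ ρ : Tau 3} {p q : ℂ} (A B : ℕ) (Φ : PP →ₗ[ℂ] Mat)
    (hΦ : Function.Injective Φ) (h11 : H (σ, 1) (ρ, 1) = (PX A B 0).map Φ)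
    (h00 : H (σ, 0) (ρ, 0) = (PX A B 0).map Φ) (h01 : H (σ, 0) (ρ, 1) = (PX A B 1).map Φ)
    (h10 : H (σ, 1) (ρ, 0) = ⊥) (hr : ∀ c w, Φ w * pM c = Φ ((zP - algebraMap ℂ PP c) * w))
    (hl : ∀ c w, pM c * Φ w = Φ ((zP - algebraMap ℂ PP c) * w)) :
    BlockOK σ ρ p 1 ∧ (q ≠ p → BlockOK σ ρ p (pM q)) := by
  let P := paramPoly A B Φ hΦ h11 h00 h01 h10
  have hI : ∀ w ∈ P.K1, (zP - algebraMap ℂ PP p) * w ∈ P.K1 → w ∈ P.K0 :=
    fun w hw h => (PX_degree (A := A) (B := B) (p := p) (G := w) hw h).symm ▸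
      zero_mem (⊥ : Submodule ℂ PP)
  have hII : ∀ x ∈ P.K2, ∃ a ∈ P.K1, ∃ b ∈ P.K1, x = a + (zP - algebraMap ℂ PP p) * b :=
    fun x hx => PX_split (A := A) (B := B) (x := x) p hx
  refine ⟨blockOK_one P _ (hr p) hI hII, fun hqp => ?_⟩
  have huv : algebraMap ℂ PP (p - q)⁻¹ * algebraMap ℂ PP (p - q) = 1 := by
    rw [← map_mul, inv_mul_cancel₀ (sub_ne_zero.2 (Ne.symm hqp)), map_one]
  exact blockOK_pen P _ _ _ _ (hr p) (hl q) (pencil_PP p q) huv (fun w hw => PX_smul _ hw) hI hII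

/-! ### the bimodule blocks -/

theorem mW_injective (v' v : Fin 2) : Function.Injective (mW v' v) := by
  intro w w' h
  rw [mW_apply, mW_apply] at h
  have h1 := congrArg Prod.snd (congrFun (congrFun h 0) 1)
  have h2 := congrArg Prod.snd (congrFun (congrFun h 1) 0)
  fin_cases v' <;> fin_cases v <;> simp [alW, beW] at h1 h2 <;>
    first | exact h1 | exact h2

theorem W0_degree {d e : ℕ} {w : QE} (hw : w ∈ W0 d e 1)
    (h : TrivSqZeroExt.inl (C X) * w ∈ W0 d e 1) : w ∈ W0 d e 0 := by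
  obtain ⟨h1, h2, h3⟩ := hw
  obtain ⟨k1, k2, -⟩ := h
  refine ⟨fun i j _ => ?_, fun i j hij => ?_, h3⟩
  · rcases j with - | j
    · have := k1 i 1 (Or.inr le_rfl)
      simpa [coeff_X_mul] using this
    · exact h1 i _ (Or.inr j.succ_pos)
  · rcases hij with hi | hj
    · exact h2 i j (Or.inl hi)
    · rcases Nat.eq_or_lt_of_le (show 1 ≤ j from hj) with rfl | hj'
      · have := k2 i 2 (Or.inr Nat.one_lt_two)
        simpa [coeff_X_mul] using this
      · exact h2 i j (Or.inr hj')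

theorem W0_split {d e : ℕ} (hd : 1 ≤ d) {x : QE} (hx : x ∈ W0 d e 2) :
    ∃ a ∈ W0 d e 1, ∃ b ∈ W0 d e 1, x = a + TrivSqZeroExt.inl (C X) * b := by
  obtain ⟨h1, h2, h3⟩ := hx
  let bf : Qx := ∑ i ∈ Finset.range (d + 1),
    C (C ((x.fst.coeff i).coeff 1)) * X ^ i
  let bs : Qx := ∑ i ∈ Finset.range d,
    C (C ((x.snd.coeff i).coeff 2) * X + C ((e : ℂ) * (x.fst.coeff (i + 1)).coeff 1)) * X ^ i
  let b : QE := TrivSqZeroExt.inl bf + TrivSqZeroExt.inr bs
  have hbf : ∀ i, bf.coeff i = C ((x.fst.coeff i).coeff 1) := by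
    intro i
    simp only [bf, finsetSum_coeff, coeff_C_mul_X_pow, Finset.sum_ite_eq, Finset.mem_range]
    split_ifs with hi
    · rfl
    · rw [h1 i 1 (Or.inl (by omega)), map_zero]
  have hbs : ∀ i, i < d → bs.coeff i = C ((x.snd.coeff i).coeff 2) * X +
      C ((e : ℂ) * (x.fst.coeff (i + 1)).coeff 1) := by
    intro i hi
    simp only [bs, finsetSum_coeff, coeff_C_mul_X_pow, Finset.sum_ite_eq, Finset.mem_range,
      if_pos hi]
  have hbs' : ∀ i, d ≤ i → bs.coeff i = 0 := by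
    intro i hi
    simp only [bs, finsetSum_coeff, coeff_C_mul_X_pow, Finset.sum_ite_eq, Finset.mem_range,
      if_neg (show ¬ i < d by omega)]
  have hfst : b.fst = bf := by simp [b]
  have hsnd : b.snd = bs := by simp [b]
  have hb : b ∈ W0 d e 1 := by
    refine ⟨fun i j hij => ?_, fun i j hij => ?_, ?_⟩
    · rw [hfst, hbf]
      rcases j with - | j
      · rw [coeff_C_zero, h1 i 1 (Or.inl (hij.resolve_right (by omega)))]
      · rw [coeff_C, if_neg j.succ_ne_zero]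
    · rw [hsnd]
      rcases lt_or_ge i d with hi | hi
      · have hj : 1 < j := hij.resolve_left (by omega)
        rw [hbs i hi]
        simp only [coeff_add, coeff_C, coeff_C_mul_X]
        rw [if_neg (by omega), if_neg (by omega), add_zero]
      · rw [hbs' i hi, coeff_zero]
    · rw [hfst, hsnd, hbs _ (by omega), hbf, show d - 1 + 1 = d by omega]
      have h4 : (x.snd.coeff (d - 1)).coeff 2 =
          (x.fst.coeff d).coeff 1 + (e : ℂ) * (x.fst.coeff d).coeff 2 := by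
        rw [h3]
        simp [add_mul, coeff_X_mul]
      rw [h4, h1 d 2 (Or.inr le_rfl), mul_zero, add_zero, map_mul]
      ring
  refine ⟨x - TrivSqZeroExt.inl (C X) * b, ⟨fun i j hij => ?_, fun i j hij => ?_, ?_⟩, b, hb,
    by ring⟩
  · simp only [TrivSqZeroExt.fst_sub, TrivSqZeroExt.fst_mul, TrivSqZeroExt.fst_inl, hfst,
      coeff_sub, coeff_C_mul, hbf]
    rcases j with - | j
    · simp [h1 i 0 (Or.inl (hij.resolve_right (by omega)))]
    · rw [coeff_X_mul, coeff_C]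
      rcases j with - | j
      · simp
      · simp [h1 i (j + 1 + 1) (Or.inr (by omega))]
  · simp only [TrivSqZeroExt.snd_sub, TrivSqZeroExt.snd_mul, TrivSqZeroExt.fst_inl,
      TrivSqZeroExt.snd_inl, hsnd, smul_eq_mul, MulOpposite.smul_eq_mul_unop,
      MulOpposite.unop_op, zero_mul, add_zero, coeff_sub, coeff_C_mul]
    rcases lt_or_ge i d with hi | hi
    · have hj : 1 < j := hij.resolve_left (by omega)
      obtain ⟨k, rfl⟩ : ∃ k, j = k + 2 := ⟨j - 2, by omega⟩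
      rw [hbs i hi, coeff_X_mul, coeff_add, coeff_C, if_neg (Nat.succ_ne_zero k), add_zero,
        coeff_C_mul_X]
      rcases k with - | k
      · simp
      · simp [h2 i (k + 1 + 2) (Or.inr (by omega))]
    · rw [hbs' i hi, h2 i j (Or.inl hi)]
      simp
  · have hb3 := (W0_z hb).2.2
    simp only [TrivSqZeroExt.snd_sub, TrivSqZeroExt.fst_sub, coeff_sub, h3, hb3]
    ring

theorem WW_degree {d e : ℕ} {w : SW} (hw : w ∈ WW d e 1)
    (h : qq (C X) * w ∈ WW d e 1) : w ∈ WW d e 0 := by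
  refine ⟨W0_degree hw.1 ?_, W0_degree hw.2 ?_⟩
  · simpa [fst_qq] using h.1
  · simpa [fst_qq, snd_qq] using h.2

theorem WW_split {d e : ℕ} (hd : 1 ≤ d) {x : SW} (hx : x ∈ WW d e 2) :
    ∃ a ∈ WW d e 1, ∃ b ∈ WW d e 1, x = a + qq (C X) * b := by
  obtain ⟨a, ha, b, hb, hab⟩ := W0_split hd hx.1
  obtain ⟨a', ha', b', hb', hab'⟩ := W0_split hd hx.2
  refine ⟨TrivSqZeroExt.inl a + TrivSqZeroExt.inr a', ⟨by simpa using ha, by simpa using ha'⟩,
    TrivSqZeroExt.inl b + TrivSqZeroExt.inr b', ⟨by simpa using hb, by simpa using hb'⟩, ?_⟩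
  ext1
  · simpa [fst_qq] using hab
  · simpa [fst_qq, snd_qq] using hab'

theorem WW_smul_ep {d e n : ℕ} {w : SW} (h : w ∈ WW d e n) (c : ℂ) :
    algebraMap ℂ SW c * ep * w ∈ WW d e n := by
  rw [mul_assoc, ← Algebra.smul_def]
  exact Submodule.smul_mem _ _ (WW_ep h)

theorem WW_scal {d e n : ℕ} {w : SW} (h : w ∈ WW d e n) (c : ℂ) :
    algebraMap ℂ SW c * w ∈ WW d e n := by
  rw [← Algebra.smul_def]
  exact Submodule.smul_mem _ _ h

/-- the parameter `z - p + δ ε` -/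
def RW (δ p : ℂ) : SW := qq (C X) + algebraMap ℂ SW δ * ep - algebraMap ℂ SW p

theorem pl_zP : pl zP = qq (C X) := by simp [pl_eq, evz, zP]

theorem sg_zP : sg zP = qq (C X) + ep := by simp [sg_eq, evz, zP]

/-- the two twists -/
def dltR (v' v : Fin 2) : ℂ := if v' = 0 ∧ v = 1 then 1 else 0

/-- the twist on the left -/
def dltL (v' v : Fin 2) : ℂ := if v' = 0 ∧ v = 1 then 0 else 1

theorem mW_mul_pM (v' v : Fin 2) (w : SW) (c : ℂ) :
    mW v' v w * pM c = mW v' v (RW (dltR v' v) c * w) := by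
  have e : dg zP = mX v v zP := by simp [mX_apply, arrX]
  have e' : c • w = algebraMap ℂ SW c * w := Algebra.smul_def c w
  rw [pM, mul_sub, mul_smul_comm, mul_one, e, mW_mul_mX, ← map_smul, ← map_sub, wmulX, if_pos rfl,
    RW, dltR, e']
  refine congrArg (mW v' v) ?_
  split_ifs
  · rw [sg_zP]
    linear_combination -(ep * w) * (map_one (algebraMap ℂ SW))
  · rw [pl_zP]
    linear_combination -(ep * w) * (map_zero (algebraMap ℂ SW))

theorem pM_mul_mW (v' v : Fin 2) (w : SW) (c : ℂ) :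
    pM c * mW v' v w = mW v' v (RW (dltL v' v) c * w) := by
  have e : dg zP = mZ v' v' zP := by simp [mZ_apply, arrZ]
  have e' : c • w = algebraMap ℂ SW c * w := Algebra.smul_def c w
  rw [pM, sub_mul, smul_mul_assoc, one_mul, e, mZ_mul_mW, ← map_smul, ← map_sub, wmulZ, if_pos rfl,
    RW, dltL, e']
  refine congrArg (mW v' v) ?_
  split_ifs
  · rw [pl_zP]
    linear_combination -(ep * w) * (map_zero (algebraMap ℂ SW))
  · rw [sg_zP]
    linear_combination -(ep * w) * (map_one (algebraMap ℂ SW))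

theorem RW_degree {d e : ℕ} (δ p : ℂ) {w : SW} (hw : w ∈ WW d e 1)
    (h : RW δ p * w ∈ WW d e 1) : w ∈ WW d e 0 := by
  refine WW_degree hw ?_
  have e1 : qq (C X) * w =
      RW δ p * w - algebraMap ℂ SW δ * ep * w + algebraMap ℂ SW p * w := by
    rw [RW]; ring
  rw [e1]
  exact (WW d e 1).add_mem ((WW d e 1).sub_mem h (WW_smul_ep hw δ)) (WW_scal hw p)

theorem RW_split {d e : ℕ} (hd : 1 ≤ d) (δ p : ℂ) {x : SW} (hx : x ∈ WW d e 2) :
    ∃ a ∈ WW d e 1, ∃ b ∈ WW d e 1, x = a + RW δ p * b := by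
  obtain ⟨a, ha, b, hb, rfl⟩ := WW_split hd hx
  refine ⟨a - algebraMap ℂ SW δ * ep * b + algebraMap ℂ SW p * b,
    (WW d e 1).add_mem ((WW d e 1).sub_mem ha (WW_smul_ep hb δ)) (WW_scal hb p), b, hb, ?_⟩
  rw [RW]; ring

/-- the entry data of a bimodule block -/
def paramW (v' v : Fin 2) (a b : Fin 3) : Param (Tau.Z v') (Tau.X a b v) SW where
  Φ := mW v' v
  add := fun c d => map_add (mW v' v) c d
  inj := mW_injective v' v
  K0 := WW (1 + a.val + b.val) (1 + b.val) 0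
  K1 := WW (1 + a.val + b.val) (1 + b.val) 1
  K2 := WW (1 + a.val + b.val) (1 + b.val) 2
  sub := fun _ hx _ hy => Submodule.sub_mem _ hx hy
  zero := Submodule.zero_mem _
  e11 := Submodule.map_coe _ _
  e00 := Submodule.map_coe _ _
  e01 := Submodule.map_coe _ _
  e10 := Submodule.map_coe _ _

theorem WW_unit {d e n : ℕ} (s t : ℂ) {w : SW} (hw : w ∈ WW d e n) :
    (algebraMap ℂ SW s - algebraMap ℂ SW t * ep) * w ∈ WW d e n := by
  have e1 : (algebraMap ℂ SW s - algebraMap ℂ SW t * ep) * w =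
      algebraMap ℂ SW s * w - algebraMap ℂ SW t * ep * w := by ring
  rw [e1]
  exact (WW d e n).sub_mem (WW_scal hw _) (WW_smul_ep hw _)

theorem blockOK_W (v' v : Fin 2) (a b : Fin 3) {p q : ℂ} :
    BlockOK (Tau.Z v') (Tau.X a b v) p 1 ∧
      (q ≠ p → BlockOK (Tau.Z v') (Tau.X a b v) p (pM q)) := by
  let P := paramW v' v a b
  have hd : 1 ≤ 1 + a.val + b.val := by omega
  have hI : ∀ w ∈ P.K1, RW (dltR v' v) p * w ∈ P.K1 → w ∈ P.K0 :=
    fun w hw h => RW_degree (dltR v' v) p hw h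
  have hII : ∀ x ∈ P.K2, ∃ a ∈ P.K1, ∃ b ∈ P.K1, x = a + RW (dltR v' v) p * b :=
    fun x hx => RW_split hd (dltR v' v) p hx
  refine ⟨blockOK_one P _ (fun w => mW_mul_pM v' v w p) hI hII, fun hqp => ?_⟩
  exact blockOK_pen P _ _ _ _ (fun w => mW_mul_pM v' v w p) (fun w => pM_mul_mW v' v w q)
    (pencil_shift (qq (C X)) ep (dltR v' v) (dltL v' v) p q)
    (pencil_unit (Ω := SW) (E := ep) ep_mul_ep (sub_ne_zero.2 (Ne.symm hqp))
      (dltL v' v - dltR v' v))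
    (fun w hw => WW_unit _ _ hw) hI hII

theorem pM_comm_mX (v' v : Fin 2) (c : ℂ) (G : PP) :
    pM c * mX v' v G = mX v' v ((zP - algebraMap ℂ PP c) * G) ∧
      mX v' v G * pM c = mX v' v ((zP - algebraMap ℂ PP c) * G) := by
  rw [pM_eq, mX_apply, mX_apply]
  refine ⟨by rw [← mul_assoc, ← map_mul], ?_⟩
  rw [mul_assoc, arrX_dg, ← mul_assoc, ← map_mul, mul_comm G]

theorem pM_comm_mZ (v' v : Fin 2) (c : ℂ) (G : PP) :
    pM c * mZ v' v G = mZ v' v ((zP - algebraMap ℂ PP c) * G) ∧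
      mZ v' v G * pM c = mZ v' v ((zP - algebraMap ℂ PP c) * G) := by
  rw [pM_eq, mZ_apply, mZ_apply]
  refine ⟨by rw [← mul_assoc, ← map_mul], ?_⟩
  rw [mul_assoc, arrZ_dg, ← mul_assoc, ← map_mul, mul_comm G]

/-- all entries -/
theorem blockOK_all (σ ρ : Tau 3) (p q : ℂ) :
    BlockOK σ ρ p 1 ∧ (q ≠ p → BlockOK σ ρ p (pM q)) := by
  rcases σ with ⟨a, b, v'⟩ | v' <;> rcases ρ with ⟨a', b', v⟩ | v
  · by_cases h : a ≤ a' ∧ b ≤ b'
    · refine blockOK_poly (a'.val - a.val) (b'.val - b.val) (mX v' v) (mX_injective v' v)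
        ?_ ?_ ?_ ?_ (fun c w => (pM_comm_mX v' v c w).2) (fun c w => (pM_comm_mX v' v c w).1)
      all_goals simp [H, h.1, h.2]
    · have h' : ∀ i i' : Fin 2, H (Tau.X a b v', i) (Tau.X a' b' v, i') = ⊥ := fun i i' => by
        rw [H, if_neg]
        exact fun hh => h ⟨hh.1, hh.2.1⟩
      exact ⟨blockOK_of_bot (h' 0 1) (h' 1 1), fun _ => blockOK_of_bot (h' 0 1) (h' 1 1)⟩
  · exact ⟨blockOK_of_bot rfl rfl, fun _ => blockOK_of_bot rfl rfl⟩
  · exact blockOK_W v' v a' b'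
  · refine blockOK_poly 0 0 (mZ v' v) (mZ_injective v' v)
      ?_ ?_ ?_ ?_ (fun c w => (pM_comm_mZ v' v c w).2) (fun c w => (pM_comm_mZ v' v c w).1)
    all_goals simp [H]

theorem pl_pen_fst (p : ℂ) :
    (pl (zP - algebraMap ℂ PP p)).fst.fst = C X - C (C p) := by
  have h : pl (zP - algebraMap ℂ PP p) = pl zP - pl (algebraMap ℂ PP p) := map_sub pl _ _
  rw [h, AlgHom.commutes, pl_zP]
  simp [fst_qq, TrivSqZeroExt.algebraMap_eq_inl']

theorem sg_pen_fst (p : ℂ) :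
    (sg (zP - algebraMap ℂ PP p)).fst.fst = C X - C (C p) := by
  have h : sg (zP - algebraMap ℂ PP p) = sg zP - sg (algebraMap ℂ PP p) := map_sub sg _ _
  rw [h, AlgHom.commutes, sg_zP]
  simp [fst_qq, fst_ep, TrivSqZeroExt.algebraMap_eq_inl']

/-- right multiplication by a pencil has no kernel -/
theorem pM_right_regular (p : ℂ) {m : Mat} (h : m * pM p = 0) : m = 0 := by
  rw [pM_eq, dg_apply] at h
  have hP : zP - C (C (C p)) ≠ 0 := by
    intro h0
    have := congrArg (fun G : PP => ((G.coeff 0).coeff 0).coeff 1) h0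
    simp [zP] at this
  have hQ : ∀ {w : SW} {Z : SW}, Z.fst.fst = C X - C (C p) → w * Z = 0 → w = 0 := by
    intro w Z hZ hw
    have hne : C X - C (C p) ≠ (0 : Qx) := by
      intro h0
      have := congrArg (fun G : Qx => (G.coeff 0).coeff 1) h0
      simp at this
    have hQE : ∀ u : QE, u * Z.fst = 0 → u = 0 := by
      intro u hu
      have e1 := congrArg TrivSqZeroExt.fst hu
      have e2 := congrArg TrivSqZeroExt.snd hu
      simp [hZ, hne] at e1
      simp [hZ, e1, hne] at e2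
      exact TrivSqZeroExt.ext e1 e2
    have e1 := hQE w.fst (by simpa using congrArg TrivSqZeroExt.fst hw)
    have e2 := congrArg TrivSqZeroExt.snd hw
    rw [TrivSqZeroExt.snd_mul, e1] at e2
    simp at e2
    exact TrivSqZeroExt.ext e1 (hQE _ e2)
  ext1 i k
  have hik := congrFun (congrFun h i) k
  rw [Matrix.mul_diagonal, Matrix.zero_apply] at hik
  have h1 := congrArg Prod.fst hik
  have h2 := congrArg Prod.snd hik
  refine Prod.ext ?_ ?_
  · fin_cases k <;> simpa [hP] using h1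
  · fin_cases k
    · refine hQ (Z := pl (zP - algebraMap ℂ PP p)) ?_ (by simpa using h2)
      exact pl_pen_fst p
    · refine hQ (Z := sg (zP - algebraMap ℂ PP p)) ?_ (by simpa using h2)
      exact sg_pen_fst p

end BlocksAux

end

end Vale.Agent.P195
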