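import Vale.Agent.P195.C0Def
import Vale.Agent.P195.Resolve

/-!
Columns of the linear category as left `A'`-modules, and the modules `E(j,v)` used to resolve
`C₀` (P195).
-/

namespace Vale.Agent.P195.C0E

open Matrix MulOpposite CategoryTheory

noncomputable section

/-- the column at a vertex `q`, as a subspace -/
def ColSub (q : Vtx 3) : AddSubgroup (Vtx 2 → Mat) where
  carrier := {f | ∀ u, f u ∈ H (iota0 u) q}
  zero_mem' := fun u => Submodule.zero_mem (H (iota0 u) q)
  add_mem' := fun hf hg u => Submodule.add_mem (H (iota0 u) q) (hf u) (hg u)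
  neg_mem' := fun hf u => Submodule.neg_mem (H (iota0 u) q) (hf u)

/-- the column at a vertex `q` -/
def Col (q : Vtx 3) : Type := ↥(ColSub q)

instance (q : Vtx 3) : AddCommGroup (Col q) := inferInstanceAs (AddCommGroup ↥(ColSub q))

namespace Col

variable {q q' q'' : Vtx 3}

/-- the entries -/
def val (f : Col q) : Vtx 2 → Mat := Subtype.val (f : ↥(ColSub q))
/-- constructor -/
def mk (f : Vtx 2 → Mat) (h : ∀ u, f u ∈ H (iota0 u) q) : Col q := (⟨f, h⟩ : ↥(ColSub q))

theorem mem (f : Col q) (u : Vtx 2) : f.val u ∈ H (iota0 u) q :=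
  Subtype.prop (f : ↥(ColSub q)) u

theorem ext {f g : Col q} (h : ∀ u, f.val u = g.val u) : f = g := Subtype.ext (funext h)

@[simp] theorem val_mk (f : Vtx 2 → Mat) (h) (u : Vtx 2) : (mk (q := q) f h).val u = f u := rfl
@[simp] theorem val_zero (u : Vtx 2) : (0 : Col q).val u = 0 := rfl
@[simp] theorem val_add (f g : Col q) (u : Vtx 2) : (f + g).val u = f.val u + g.val u := rfl
@[simp] theorem val_sub (f g : Col q) (u : Vtx 2) : (f - g).val u = f.val u - g.val u := rfl
@[simp] theorem val_neg (f : Col q) (u : Vtx 2) : (-f).val u = -f.val u := rfl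

end Col

instance colModule (q : Vtx 3) : Module AP (Col q) where
  smul a f := Col.mk (fun u => ∑ w, a.val u w * f.val w)
    (fun u => Submodule.sum_mem _ fun w _ => H_mul (a.mem u w) (f.mem w))
  one_smul f := Col.ext fun u => by
    show ∑ w, (1 : BigMat) u w * f.val w = f.val u
    simp [Matrix.one_apply]
  mul_smul a b f := Col.ext fun u => by
    show ∑ w, (a.val * b.val) u w * f.val w = ∑ w, a.val u w * ∑ x, b.val w x * f.val x
    simp only [Matrix.mul_apply, Finset.sum_mul, Finset.mul_sum]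
    rw [Finset.sum_comm]
    simp only [mul_assoc]
  smul_zero a := Col.ext fun u => by
    show ∑ w, a.val u w * (0 : Col q).val w = 0
    simp
  smul_add a f g := Col.ext fun u => by
    show ∑ w, a.val u w * (f + g).val w = ∑ w, a.val u w * f.val w + ∑ w, a.val u w * g.val w
    simp [mul_add, Finset.sum_add_distrib]
  add_smul a b f := Col.ext fun u => by
    show ∑ w, (a + b).val u w * f.val w = ∑ w, a.val u w * f.val w + ∑ w, b.val u w * f.val w
    simp [add_mul, Finset.sum_add_distrib]
  zero_smul f := Col.ext fun u => by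
    show ∑ w, (0 : AP).val u w * f.val w = 0
    simp

namespace Col

variable {q q' q'' : Vtx 3}

theorem smul_val (a : AP) (f : Col q) (u : Vtx 2) :
    (a • f).val u = ∑ w, a.val u w * f.val w := rfl

/-- the component of a column at a vertex -/
theorem idem_smul_val (u : Vtx 2) (f : Col q) (w : Vtx 2) :
    (idem iota0 u • f).val w = if w = u then f.val w else 0 := by
  rw [smul_val]
  simp only [idem, Cor.val_single]
  by_cases h : w = u
  · subst h
    rw [if_pos rfl, Finset.sum_eq_single w]
    · simp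
    · intro x _ hx
      rw [Matrix.single_apply_of_ne _ _ _ _ _ (fun h => hx h.2.symm), zero_mul]
    · exact fun h => absurd (Finset.mem_univ w) h
  · rw [if_neg h]
    exact Finset.sum_eq_zero fun x _ => by
      rw [Matrix.single_apply_of_ne _ _ _ _ _ (fun h' => h h'.1.symm), zero_mul]

/-- the column supported at one vertex -/
def at_ (u : Vtx 2) (m : Mat) (h : m ∈ H (iota0 u) q) : Col q :=
  mk (Pi.single u m) fun w => by
    by_cases hw : w = u
    · subst hw; rwa [Pi.single_eq_same]
    · rw [Pi.single_eq_of_ne hw]; exact Submodule.zero_mem _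

@[simp] theorem at_val (u : Vtx 2) (m : Mat) (h : m ∈ H (iota0 u) q) (w : Vtx 2) :
    (at_ u m h).val w = (Pi.single u m : Vtx 2 → Mat) w := rfl

/-- right multiplication by a morphism -/
def map (m : Mat) (h : m ∈ H q q') : Col q →ₗ[AP] Col q' where
  toFun f := mk (fun u => f.val u * m) fun u => H_mul (f.mem u) h
  map_add' f g := ext fun u => by simp [add_mul]
  map_smul' a f := ext fun u => by
    simp only [val_mk, smul_val, RingHom.id_apply, Finset.sum_mul, mul_assoc]

@[simp] theorem map_val (m : Mat) (h : m ∈ H q q') (f : Col q) (u : Vtx 2) :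
    (map m h f).val u = f.val u * m := rfl

theorem map_map (m : Mat) (h : m ∈ H q q') (m' : Mat) (h' : m' ∈ H q' q'') (f : Col q) :
    map m' h' (map m h f) = map (m * m') (H_mul h h') f :=
  ext fun u => by simp [mul_assoc]

/-- the generator of a column -/
def gen (u₀ : Vtx 2) : Col (iota0 u₀) := at_ u₀ 1 (H_one _)

theorem idem_gen (u₀ : Vtx 2) : idem iota0 u₀ • gen u₀ = gen u₀ := by
  refine ext fun w => ?_
  rw [idem_smul_val]
  split_ifs with h
  · rfl
  · simp [gen, h]

/-- a column vector as an element of the algebra -/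
def toAP (u₀ : Vtx 2) : Col (iota0 u₀) →ₗ[AP] AP where
  toFun f := Cor.mk (Matrix.of fun u w => if w = u₀ then f.val u else 0) fun u w => by
    rw [Matrix.of_apply]
    split_ifs with h
    · subst h; exact f.mem u
    · exact Submodule.zero_mem _
  map_add' f g := Cor.ext (by ext u w : 2; simp only [Cor.val_mk, Cor.val_add, Matrix.of_apply,
    Matrix.add_apply, val_add]; split_ifs <;> simp)
  map_smul' a f := Cor.ext (by
    ext u w : 2
    simp only [RingHom.id_apply, smul_eq_mul, Cor.val_mk, Cor.val_mul, Matrix.mul_apply,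
      Matrix.of_apply, smul_val]
    split_ifs <;> simp)

theorem toAP_val (u₀ : Vtx 2) (f : Col (iota0 u₀)) (u w : Vtx 2) :
    (toAP u₀ f).val u w = if w = u₀ then f.val u else 0 := rfl

theorem toAP_smul_gen (u₀ : Vtx 2) (f : Col (iota0 u₀)) : toAP u₀ f • gen u₀ = f := by
  refine ext fun u => ?_
  rw [smul_val, Finset.sum_eq_single u₀]
  · simp [toAP_val, gen]
  · intro x _ hx
    simp [toAP_val, hx]
  · exact fun h => absurd (Finset.mem_univ u₀) h

/-- the map out of a column determined by an element at its vertex -/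
def lift {Y : Type} [AddCommGroup Y] [Module AP Y] (u₀ : Vtx 2) (y : Y) :
    Col (iota0 u₀) →ₗ[AP] Y :=
  (LinearMap.toSpanSingleton AP Y y) ∘ₗ toAP u₀

theorem lift_apply {Y : Type} [AddCommGroup Y] [Module AP Y] (u₀ : Vtx 2) (y : Y)
    (f : Col (iota0 u₀)) : lift u₀ y f = toAP u₀ f • y := rfl

theorem lift_gen {Y : Type} [AddCommGroup Y] [Module AP Y] (u₀ : Vtx 2) (y : Y)
    (hy : idem iota0 u₀ • y = y) : lift u₀ y (gen u₀) = y := by
  have : toAP u₀ (gen u₀) = idem iota0 u₀ := Cor.ext (by
    ext u w : 2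
    simp only [toAP_val, gen, at_val, idem, Cor.val_single]
    rcases eq_or_ne w u₀ with rfl | hw
    · rw [if_pos rfl]
      rcases eq_or_ne u w with rfl | hu
      · simp
      · rw [Pi.single_eq_of_ne hu, Matrix.single_apply_of_ne _ _ _ _ _ (fun h => hu h.1.symm)]
    · rw [if_neg hw, Matrix.single_apply_of_ne _ _ _ _ _ (fun h => hw h.2.symm)])
  rw [lift_apply, this, hy]

theorem hom_ext {Y : Type} [AddCommGroup Y] [Module AP Y] {u₀ : Vtx 2}
    {g g' : Col (iota0 u₀) →ₗ[AP] Y} (h : g (gen u₀) = g' (gen u₀)) : g = g' := by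
  refine LinearMap.ext fun f => ?_
  rw [← toAP_smul_gen u₀ f, map_smul, map_smul, h]

theorem lift_map {Y : Type} [AddCommGroup Y] [Module AP Y] (u₀ u₁ : Vtx 2) (y : Y)
    (m : Mat) (h : m ∈ H (iota0 u₀) (iota0 u₁)) (f : Col (iota0 u₀)) :
    lift u₁ y (map m h f) = lift u₀ (Cor.single u₀ u₁ m h • y) f := by
  rw [lift_apply, lift_apply, smul_smul]
  congr 1
  refine Cor.ext ?_
  ext u w : 2
  rw [Cor.val_mul, Cor.val_single, Matrix.mul_apply, Finset.sum_eq_single u₀]
  · simp only [toAP_val, map_val]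
    rcases eq_or_ne w u₁ with rfl | hw
    · simp only [if_true, Matrix.single_apply_same]
    · rw [if_neg hw, Matrix.single_apply_of_ne _ _ _ _ _ (fun h => hw h.2.symm), mul_zero]
  · intro x _ hx
    simp [toAP_val, hx]
  · exact fun h => absurd (Finset.mem_univ u₀) h

instance projective (u₀ : Vtx 2) : Module.Projective AP (Col (iota0 u₀)) :=
  Module.Projective.of_split (M := AP) (toAP u₀) (LinearMap.toSpanSingleton AP _ (gen u₀))
    (LinearMap.ext fun f => toAP_smul_gen u₀ f)

end Col

theorem ev_of_module_projective {P : Type} [AddCommGroup P] [Module AP P]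
    [Module.Projective AP P] {n : ℕ} (hn : 1 ≤ n) (Y : ModuleCat.{0} AP) :
    EV n (ModuleCat.of AP P) Y :=
  haveI : Projective (ModuleCat.of AP P) :=
    (IsProjective.iff_projective (R := AP) P).1 inferInstance
  ev_of_projective hn

/-- the vertex (0,1) of the `j,v` Kronecker pair -/
abbrev qX (j v : Fin 2) : Vtx 2 := vX 0 1 j v
/-- the vertex (0,0) -/
abbrev qO (j v : Fin 2) : Vtx 2 := vX 0 0 j v

/-- the variable `y` -/
def yP : PP := Polynomial.X

theorem yP_mem : yP ∈ PX 0 1 0 := by
  simpa [yP, mono] using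
    mono_mem (B := 1) (A := 0) (J := 0) (b := 1) (a := 0) (j := 0) le_rfl le_rfl le_rfl (1 : ℂ)

theorem H_qOX (j v : Fin 2) {G : PP} (hG : G ∈ PX 0 1 0) :
    mX v v G ∈ H (iota0 (qO j v)) (iota0 (qX j v)) := by
  refine (show mX v v G ∈ H (Tau.X 0 0 v, j) (Tau.X 0 1 v, j) from ?_)
  rw [H, if_pos ⟨le_rfl, Fin.zero_le _, le_rfl⟩]
  refine ⟨G, ?_, rfl⟩
  simpa using hG

/-- the first Euler map -/
def rE (j v : Fin 2) : Col (iota0 (qO j v)) × Col (iota0 (qO j v)) →ₗ[AP] Col (iota0 (qX j v)) :=
  (Col.map _ (H_qOX j v yP_mem)).coprod (Col.map _ (H_qOX j v (one_mem_PX 0 1 0)))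

/-- the module `E(j,v)` -/
abbrev EE (j v : Fin 2) := Col (iota0 (qX j v)) ⧸ LinearMap.range (rE j v)

theorem ev_two_EE (j v : Fin 2) (hinj : Function.Injective (rE j v)) {n : ℕ} (hn : 2 ≤ n)
    (Y : ModuleCat.{0} AP) : EV n (ModuleCat.of AP (EE j v)) Y := by
  obtain ⟨k, rfl⟩ : ∃ k, n = k + 1 := ⟨n - 1, by omega⟩
  exact ev_right (shortExact_mk (X := ModuleCat.of AP (Col (iota0 (qO j v)) × Col (iota0 (qO j v))))
      (Y := ModuleCat.of AP (Col (iota0 (qX j v))))
      (Z := ModuleCat.of AP (EE j v)) (rE j v) (LinearMap.range (rE j v)).mkQ hinj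
      (Submodule.mkQ_surjective _) (LinearMap.exact_map_mkQ_range (rE j v))) Y
    (ev_of_module_projective (by omega) Y) (ev_of_module_projective (by omega) Y)

end

end Vale.Agent.P195.C0E
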