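import Vale.Agent.P195.C0Cols

/-!
Coordinates on the columns `E(j,v)` and on the columns at `Z`-vertices (P195).
-/

namespace Vale.Agent.P195.C0E

open Polynomial Matrix

noncomputable section

/-- the two lowest `z`-coefficients at the origin -/
def c01 : PP →ₗ[ℂ] ℂ × ℂ where
  toFun G := (((G.coeff 0).coeff 0).coeff 0, ((G.coeff 0).coeff 0).coeff 1)
  map_add' f g := by simp
  map_smul' c f := by simp

theorem c01_apply (G : PP) :
    c01 G = (((G.coeff 0).coeff 0).coeff 0, ((G.coeff 0).coeff 0).coeff 1) := rfl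

/-- the functional `D₀₀ - φ₁₀` -/
def lam0 : QE →ₗ[ℂ] ℂ where
  toFun a := (a.snd.coeff 0).coeff 0 - (a.fst.coeff 1).coeff 0
  map_add' u v := by simp; ring
  map_smul' c v := by simp; ring

theorem lam0_apply (a : QE) : lam0 a = (a.snd.coeff 0).coeff 0 - (a.fst.coeff 1).coeff 0 := rfl

/-- the functional on both parts -/
def lam2 : SW →ₗ[ℂ] ℂ × ℂ where
  toFun w := (lam0 w.fst, lam0 w.snd)
  map_add' u v := by simp
  map_smul' c v := by simp

theorem lam2_apply (w : SW) : lam2 w = (lam0 w.fst, lam0 w.snd) := rfl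

theorem lamW_eq (w : SW) : lamW w = (lam2 w).1 := rfl

/-- reading off the polynomial of an element at `X`-vertices -/
def rdX (v' v : Fin 2) : Mat →ₗ[ℂ] PP :=
  (LinearMap.fst ℂ PP SW) ∘ₗ
    Matrix.entryLinearMap ℂ SS (if v' = v then 0 else v) (if v' = v then 0 else v)
/-- reading off the polynomial of an element at `Z`-vertices -/
def rdZ (v' v : Fin 2) : Mat →ₗ[ℂ] PP :=
  (LinearMap.fst ℂ PP SW) ∘ₗ
    Matrix.entryLinearMap ℂ SS (if v' = v then 0 else v') (if v' = v then 0 else v')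
/-- reading off the element of `W` -/
def rdW (v' v : Fin 2) : Mat →ₗ[ℂ] SW :=
  (LinearMap.snd ℂ PP SW) ∘ₗ
    Matrix.entryLinearMap ℂ SS (if v' = 0 ∧ v = 1 then 0 else 1) (if v' = 0 ∧ v = 1 then 1 else 0)

theorem rdX_mX (v' v : Fin 2) (G : PP) : rdX v' v (mX v' v G) = G := by
  rcases (by omega : v' = 0 ∨ v' = 1) with rfl | rfl <;>
    rcases (by omega : v = 0 ∨ v = 1) with rfl | rfl <;>
    simp [rdX, mX_apply, arrX, dg_apply]

theorem rdZ_mZ (v' v : Fin 2) (G : PP) : rdZ v' v (mZ v' v G) = G := by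
  rcases (by omega : v' = 0 ∨ v' = 1) with rfl | rfl <;>
    rcases (by omega : v = 0 ∨ v = 1) with rfl | rfl <;>
    simp [rdZ, mZ_apply, arrZ, dg_apply]

theorem rdW_mW (v' v : Fin 2) (w : SW) : rdW v' v (mW v' v w) = w := by
  rcases (by omega : v' = 0 ∨ v' = 1) with rfl | rfl <;>
    rcases (by omega : v = 0 ∨ v = 1) with rfl | rfl <;>
    simp [rdW, mW_apply, alW, beW]

/-- the coordinates of an entry -/
def cd : Tau 2 → Tau 2 → Mat →ₗ[ℂ] ℂ × ℂ
  | .X a b v', .X _ _ v => if a = 0 ∧ b = 1 then c01 ∘ₗ rdX v' v else 0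
  | .Z v', .X _ _ v => lam2 ∘ₗ rdW v' v
  | .Z v', .Z v => c01 ∘ₗ rdZ v' v
  | .X _ _ _, .Z _ => 0

theorem cd_X (v' v : Fin 2) (G : PP) :
    cd (.X 0 1 v') (.X 0 1 v) (mX v' v G) = c01 G := by simp [cd, rdX_mX]

theorem cd_W (v' v : Fin 2) (a b : Fin 2) (w : SW) :
    cd (.Z v') (.X a b v) (mW v' v w) = lam2 w := by simp [cd, rdW_mW]

theorem cd_Z (v' v : Fin 2) (G : PP) : cd (.Z v') (.Z v) (mZ v' v G) = c01 G := by
  simp [cd, rdZ_mZ]

theorem c01_mono (b a j : ℕ) (c : ℂ) :
    c01 (mono b a j c) =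
      if b = 0 ∧ a = 0 then (if j = 0 then (c, 0) else if j = 1 then (0, c) else 0) else 0 := by
  have e : ∀ a' j' : ℕ, (((mono b a j c).coeff 0).coeff a').coeff j' =
      if 0 = b ∧ a' = a ∧ j' = j then c else 0 := by
    intro a' j'
    rw [mono, coeff_C_mul_X_pow]
    by_cases h1 : 0 = b
    · rw [if_pos h1, coeff_C_mul_X_pow]
      by_cases h2 : a' = a
      · rw [if_pos h2, coeff_C_mul_X_pow]
        by_cases h3 : j' = j <;> simp [h1, h2, h3]
      · simp [h2]
    · simp [h1]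
  rw [c01_apply, e, e]
  rcases b with - | b <;> rcases a with - | a <;> rcases j with - | (- | j) <;>
    simp [Prod.ext_iff]

theorem c01_eq_zero {J : ℕ} (hJ : J ≤ 1) {G : PP} (hG : G ∈ PX 0 0 J) (h : c01 G = 0) :
    G = 0 := by
  rw [c01_apply, Prod.ext_iff] at h
  refine Polynomial.ext fun b => Polynomial.ext fun a => Polynomial.ext fun j => ?_
  rw [coeff_zero, coeff_zero, coeff_zero]
  rcases Nat.eq_zero_or_pos b with rfl | hb
  · rcases Nat.eq_zero_or_pos a with rfl | ha
    · rcases j with - | (- | j)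
      · exact h.1
      · exact h.2
      · exact hG 0 0 _ (.inr (.inr (by omega)))
    · exact hG 0 a j (.inr (.inl ha))
  · exact hG b a j (.inl hb)

theorem c01_mul_zP {J : ℕ} {G : PP} (hG : G ∈ PX 0 0 J) :
    c01 (G * zP) = (0, (c01 G).1) := by
  refine PX_induction (p := fun G => c01 (G * zP) = (0, (c01 G).1)) (by simp [Prod.ext_iff])
    (fun f g hf hg => by simp [add_mul, hf, hg]) ?_ hG
  intro b a j c hb ha _
  obtain rfl : b = 0 := by omega
  obtain rfl : a = 0 := by omega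
  rw [show mono 0 0 j c * zP = mono 0 0 (j + 1) c by simp [mono, zP, pow_succ]; ring, c01_mono,
    c01_mono]
  rcases j with - | (- | j) <;> simp [Prod.ext_iff]

/-- the element with coordinates (g₀, g₁) -/
def gP (g : ℂ × ℂ) : PP := mono 0 0 0 g.1 + mono 0 0 1 g.2

theorem c01_gP (g : ℂ × ℂ) : c01 (gP g) = g := by simp [gP, c01_mono]

theorem gP_mem (g : ℂ × ℂ) {J : ℕ} (h : J = 0 → g.2 = 0) : gP g ∈ PX 0 0 J := by
  refine Submodule.add_mem _ (mono_mem le_rfl le_rfl (Nat.zero_le J) _) ?_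
  rcases J with - | J
  · simp [h rfl, mono]
  · exact mono_mem le_rfl le_rfl (by omega) _

theorem et_mem (n : ℕ) : et ∈ WW 2 2 n := by
  refine ⟨⟨fun i j _ => ?_, fun i j h => ?_, ?_⟩, ?_⟩
  · simp [fst_et]
  · rcases i with - | i
    · rcases j with - | j
      · exact absurd h (by omega)
      · simp [fst_et, coeff_one]
    · simp [fst_et, coeff_one]
  · simp [fst_et, coeff_one]
  · rw [snd_et]; exact (W0 2 2 n).zero_mem

/-- the element with coordinates (α, β) -/
def wP (g : ℂ × ℂ) : SW := g.1 • et + g.2 • (ep * et)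

theorem wP_mem (g : ℂ × ℂ) (n : ℕ) : wP g ∈ WW 2 2 n :=
  Submodule.add_mem _ (Submodule.smul_mem _ _ (et_mem n))
    (Submodule.smul_mem _ _ (WW_ep (et_mem n)))

theorem lam0_eps : lam0 (DualNumber.eps : QE) = 1 := by simp [lam0_apply]

theorem lam2_et : lam2 et = (1, 0) := by simp [lam2_apply, fst_et, snd_et, lam0_eps]

theorem lam2_ep_mul (w : SW) : lam2 (ep * w) = (0, (lam2 w).1) := by
  simp [lam2_apply, fst_ep, snd_ep]

theorem lam2_wP (g : ℂ × ℂ) : lam2 (wP g) = g := by simp [wP, lam2_et, lam2_ep_mul]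

theorem lam0_z (a : QE) : lam0 (TrivSqZeroExt.inl (C X) * a) = 0 := by
  simp [lam0_apply]

theorem lam2_z_mul (w : SW) : lam2 (qq (C X) * w) = 0 := by
  simp [lam2_apply, fst_qq, snd_qq, lam0_z]

theorem pl_zP : pl zP = qq (C X) := by simp [pl, zP]

theorem sg_zP : sg zP = qq (C X) + ep := by simp [sg, zP]

theorem lam2_pl_zP (w : SW) : lam2 (pl zP * w) = 0 := by rw [pl_zP, lam2_z_mul]

theorem lam2_sg_zP (w : SW) : lam2 (sg zP * w) = (0, (lam2 w).1) := by
  rw [sg_zP, add_mul, map_add, lam2_z_mul, lam2_ep_mul, zero_add]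

theorem lam2_pl_et {J : ℕ} (hJ : J ≤ 1) {G : PP} (hG : G ∈ PX 0 0 J) :
    lam2 (pl G * et) = ((c01 G).1, 0) := by
  refine PX_induction (p := fun G => lam2 (pl G * et) = ((c01 G).1, 0)) (by simp [Prod.ext_iff])
    (fun f g hf hg => by simp [add_mul, hf, hg]) ?_ hG
  intro b a j c hb ha hj
  obtain rfl : b = 0 := by omega
  obtain rfl : a = 0 := by omega
  rw [pl_eq, evz_mono, c01_mono, mul_assoc, mul_assoc, mul_assoc,
    ← Algebra.smul_def, map_smul]
  rcases (by omega : j = 0 ∨ j = 1) with rfl | rfl <;> simp [lam2_et, lam2_z_mul, Prod.ext_iff]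

theorem lam2_sg_et {J : ℕ} (hJ : J ≤ 1) {G : PP} (hG : G ∈ PX 0 0 J) :
    lam2 (sg G * et) = c01 G := by
  refine PX_induction (p := fun G => lam2 (sg G * et) = c01 G) (by simp)
    (fun f g hf hg => by simp [add_mul, hf, hg]) ?_ hG
  intro b a j c hb ha hj
  obtain rfl : b = 0 := by omega
  obtain rfl : a = 0 := by omega
  rw [sg_eq, evz_mono, c01_mono, mul_assoc, mul_assoc, mul_assoc,
    ← Algebra.smul_def, map_smul]
  rcases (by omega : j = 0 ∨ j = 1) with rfl | rfl <;>
    simp [lam2_et, lam2_z_mul, lam2_ep_mul, add_mul]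

theorem pl_yP : pl yP = qq X + et := by simp [pl, yP]
theorem sg_yP : sg yP = qq X + et := by simp [sg, yP]

theorem lam0_y_mul (p : QE) :
    lam0 ((TrivSqZeroExt.inl X + DualNumber.eps) * p) = 0 := by
  simp [lam0_apply, coeff_X_mul]

theorem lam0_one {n : ℕ} {p : QE} (hp : p ∈ W0 1 1 n) : lam0 p = 0 := by
  have h3 := hp.2.2
  simp only [Nat.sub_self] at h3
  simp [lam0_apply, h3, add_mul]

theorem lam2_y_mul (P : SW) : lam2 ((qq X + et) * P) = 0 := by
  rw [lam2_apply, Prod.ext_iff]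
  constructor
  · simpa [fst_qq, fst_et, add_mul] using lam0_y_mul P.fst
  · simpa [fst_qq, fst_et, snd_qq, snd_et, add_mul] using lam0_y_mul P.snd

theorem lam2_one {n : ℕ} {P : SW} (hP : P ∈ WW 1 1 n) : lam2 P = 0 := by
  rw [lam2_apply, lam0_one hP.1, lam0_one hP.2]; rfl

/-- the kernel of `lam0` is spanned by the Euler maps -/
theorem lam0_decomp {n : ℕ} {a : QE} (ha : a ∈ W0 2 2 n) (h : lam0 a = 0) :
    ∃ p ∈ W0 1 1 n, ∃ q ∈ W0 1 1 n, (TrivSqZeroExt.inl X + DualNumber.eps) * p + q = a := by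
  obtain ⟨h1, h2, h3⟩ := ha
  set d : Polynomial ℂ := (a.snd.coeff 0 - a.fst.coeff 1).divX with hd
  have hdz : d * X = a.snd.coeff 0 - a.fst.coeff 1 := by
    have := (a.snd.coeff 0 - a.fst.coeff 1).divX_mul_X_add
    rw [← hd, coeff_sub, show (a.snd.coeff 0).coeff 0 - (a.fst.coeff 1).coeff 0 = 0 from h,
      map_zero, add_zero] at this
    exact this
  have hdn : ∀ j, n ≤ j → d.coeff j = 0 := fun j hj => by
    rw [hd, coeff_divX, coeff_sub, h2 0 (j + 1) (.inr (by omega)), h1 1 (j + 1) (.inr (by omega)),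
      sub_zero]
  refine ⟨TrivSqZeroExt.inl (C (a.fst.coeff 1 - d) + C (a.fst.coeff 2) * X)
      + TrivSqZeroExt.inr (C ((X + C 1) * a.fst.coeff 2)), ?_,
    TrivSqZeroExt.inl (C (a.fst.coeff 0) + C d * X) + TrivSqZeroExt.inr (C ((X + C 1) * d)),
    ?_, ?_⟩
  · refine ⟨fun i j k => ?_, fun i j k => ?_, by simp⟩
    · rcases i with - | (- | i)
      · simp [h1 1 j (.inr (by omega)), hdn j (by omega)]
      · simp [h1 2 j (.inr (by omega)), coeff_C]
      · simp [coeff_C]
    · rcases i with - | i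
      · simp only [TrivSqZeroExt.snd_add, TrivSqZeroExt.snd_inl, zero_add,
          TrivSqZeroExt.snd_inr, coeff_C_zero, add_mul, coeff_add]
        rcases j with - | j
        · omega
        · simp [coeff_X_mul, h1 2 j (.inr (by omega)), h1 2 (j + 1) (.inr (by omega))]
      · simp [coeff_C, coeff_one]
  · refine ⟨fun i j k => ?_, fun i j k => ?_, by simp⟩
    · rcases i with - | (- | i)
      · simp [h1 0 j (.inr (by omega))]
      · simp [hdn j (by omega), coeff_C]
      · simp [coeff_C]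
    · rcases i with - | i
      · simp only [TrivSqZeroExt.snd_add, TrivSqZeroExt.snd_inl, zero_add,
          TrivSqZeroExt.snd_inr, coeff_C_zero, add_mul, coeff_add]
        rcases j with - | j
        · omega
        · simp [coeff_X_mul, hdn j (by omega), hdn (j + 1) (by omega)]
      · simp [coeff_C, coeff_one]
  · have top : a.snd.coeff 1 = (X + C 2) * a.fst.coeff 2 := by simpa using h3
    ext1
    · simp only [TrivSqZeroExt.fst_add, TrivSqZeroExt.fst_mul, TrivSqZeroExt.fst_inl,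
        TrivSqZeroExt.fst_inr, DualNumber.fst_eps, add_zero]
      refine Polynomial.ext fun i => ?_
      rcases i with - | (- | (- | i))
      · simp
      · simp [coeff_X_mul]
      · simp [coeff_X_mul, coeff_C]
      · rw [show a.fst.coeff (i + 1 + 1 + 1) = 0 from
          Polynomial.ext fun j => by simpa using h1 (i + 1 + 1 + 1) j (.inl (by omega))]
        simp [coeff_X_mul, coeff_C]
    · simp only [TrivSqZeroExt.snd_add, TrivSqZeroExt.snd_mul, TrivSqZeroExt.fst_add,
        TrivSqZeroExt.fst_inl, TrivSqZeroExt.fst_inr, TrivSqZeroExt.snd_inl,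
        TrivSqZeroExt.snd_inr, DualNumber.fst_eps, DualNumber.snd_eps, add_zero, zero_add,
        smul_eq_mul, MulOpposite.smul_eq_mul_unop, MulOpposite.unop_op]
      refine Polynomial.ext fun i => ?_
      rcases i with - | (- | i)
      · simp only [coeff_add, mul_coeff_zero, coeff_X_zero, zero_mul, coeff_C_zero, one_mul,
          coeff_C_zero, mul_zero]
        simp only [C_1] at *
        linear_combination hdz
      · simp [coeff_X_mul, coeff_C, coeff_one, top, C_ofNat]
        ring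
      · rw [show a.snd.coeff (i + 1 + 1) = 0 from
          Polynomial.ext fun j => by simpa using h2 (i + 1 + 1) j (.inl (by omega))]
        simp [coeff_X_mul, coeff_C, coeff_one]

/-- the kernel of `lam2` is spanned by the Euler maps -/
theorem lam2_decomp {n : ℕ} {w : SW} (hw : w ∈ WW 2 2 n) (h : lam2 w = 0) :
    ∃ P ∈ WW 1 1 n, ∃ Q ∈ WW 1 1 n, (qq X + et) * P + Q = w := by
  rw [lam2_apply, Prod.ext_iff] at h
  obtain ⟨p, hp, q, hq, he⟩ := lam0_decomp hw.1 h.1
  obtain ⟨p', hp', q', hq', he'⟩ := lam0_decomp hw.2 h.2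
  refine ⟨TrivSqZeroExt.inl p + TrivSqZeroExt.inr p', ⟨by simpa using hp, by simpa using hp'⟩,
    TrivSqZeroExt.inl q + TrivSqZeroExt.inr q', ⟨by simpa using hq, by simpa using hq'⟩, ?_⟩
  ext1
  · simpa [fst_qq, fst_et] using he
  · simpa [fst_qq, fst_et, snd_qq, snd_et] using he'

end

end Vale.Agent.P195.C0E
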