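import Vale.Agent.P195.RAlg

/-!
The four-dimensional `A'`-module `C₀` and the `R`-module `C` (P195).
-/

namespace Vale.Agent.P195

open Polynomial Matrix

noncomputable section

/-- evaluation of a polynomial at the origin -/
def ev0 : PP →ₐ[ℂ] ℂ := aevalTower (aevalTower (aeval (0 : ℂ)) (0 : ℂ)) (0 : ℂ)

theorem ev0_mono (b a j : ℕ) (c : ℂ) :
    ev0 (mono b a j c) = if b = 0 ∧ a = 0 ∧ j = 0 then c else 0 := by
  rcases b with - | b <;> rcases a with - | a <;> rcases j with - | j <;>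
    simp [ev0, mono]

/-- the functional on the bimodule part -/
def lamW : SW →ₗ[ℂ] ℂ where
  toFun w := (w.fst.snd.coeff 0).coeff 0 - (w.fst.fst.coeff 1).coeff 0
  map_add' u v := by simp; ring
  map_smul' c v := by simp; ring

theorem lamW_apply (w : SW) :
    lamW w = (w.fst.snd.coeff 0).coeff 0 - (w.fst.fst.coeff 1).coeff 0 := rfl

theorem lamW_ep_mul (w : SW) : lamW (ep * w) = 0 := by simp [lamW_apply, fst_ep]

theorem lamW_z_mul {Z : SW} (hZ : Z.fst = TrivSqZeroExt.inl (C X)) (w : SW) :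
    lamW (Z * w) = 0 := by
  simp [lamW_apply, hZ]

theorem lamW_algebraMap_mul (c : ℂ) (w : SW) :
    lamW (algebraMap ℂ SW c * w) = c * lamW w := by
  rw [← Algebra.smul_def, map_smul, smul_eq_mul]

theorem lamW_evz {Z : SW} (hZ : Z.fst = TrivSqZeroExt.inl (C X)) {J : ℕ} {G : PP}
    (hG : G ∈ PX 0 0 J) (w : SW) : lamW (evz Z G * w) = ev0 G * lamW w := by
  refine PX_induction (p := fun G => lamW (evz Z G * w) = ev0 G * lamW w) (by simp)
    (fun f g hf hg => by simp [add_mul, hf, hg]) ?_ hG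
  intro b a j c hb ha _
  obtain rfl : b = 0 := by omega
  obtain rfl : a = 0 := by omega
  rw [evz_mono, ev0_mono]
  rcases j with - | j
  · simp [lamW_algebraMap_mul]
  · simp [mul_assoc, pow_succ', lamW_algebraMap_mul, lamW_z_mul hZ]

/-- at the vertex `X(0,0)` everything is killed -/
theorem lamW_evz_zero {J n : ℕ} {G : PP} (hG : G ∈ PX 0 1 J) {w : SW} (hw : w ∈ WW 1 1 n) :
    lamW (evz (qq (C X)) G * w) = 0 := by
  refine PX_induction (p := fun G => lamW (evz (qq (C X)) G * w) = 0) (by simp)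
    (fun f g hf hg => by simp [add_mul, hf, hg]) ?_ hG
  intro b a j c hb ha _
  obtain rfl : a = 0 := by omega
  rw [evz_mono, mul_assoc, mul_assoc, mul_assoc, lamW_algebraMap_mul]
  refine mul_eq_zero_of_right _ ?_
  rcases j with - | j
  · simp only [pow_zero, one_mul]
    rcases b with - | b
    · have h3 := hw.1.2.2
      simp only [Nat.sub_self] at h3
      simp [lamW_apply, h3, add_mul]
    · obtain rfl : b = 0 := by omega
      simp [lamW_apply, fst_qq, fst_et, coeff_X_mul, add_mul]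
  · rw [pow_succ', mul_assoc]
    exact lamW_z_mul (fst_qq (C X)) _

/-- the four supporting vertices of `C₀` -/
def supp0 : Fin 2 × Fin 2 → Vtx 2
  | (0, j) => vX 0 1 j 0
  | (1, i) => vZ i 0

/-- the functionals defining `C₀` -/
def lamM : Fin 2 → Fin 2 → Mat →ₗ[ℂ] ℂ
  | 0, 0 => ev0.toLinearMap ∘ₗ (LinearMap.fst ℂ PP SW) ∘ₗ Matrix.entryLinearMap ℂ SS 0 0
  | 1, 1 => ev0.toLinearMap ∘ₗ (LinearMap.fst ℂ PP SW) ∘ₗ Matrix.entryLinearMap ℂ SS 0 0
  | 1, 0 => lamW ∘ₗ (LinearMap.snd ℂ PP SW) ∘ₗ Matrix.entryLinearMap ℂ SS 1 0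
  | 0, 1 => 0

theorem lamM00_mX (G : PP) : lamM 0 0 (mX 0 0 G) = ev0 G := by
  simp [lamM, mX_apply, arrX, dg_apply]

theorem lamM11_mZ (G : PP) : lamM 1 1 (mZ 0 0 G) = ev0 G := by
  simp [lamM, mZ_apply, arrZ, dg_apply]

theorem lamM10_mW (w : SW) : lamM 1 0 (mW 0 0 w) = lamW w := by
  simp [lamM, mW_apply, beW]

theorem lam_XX (s : Fin 2) (G G' : PP) :
    lamM 0 0 (mX 0 s G * mX s 0 G') = if s = 0 then ev0 G * ev0 G' else 0 := by
  rw [mX_mul_mX]
  rcases (by omega : s = 0 ∨ s = 1) with rfl | rfl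
  · rw [if_pos (Or.inl rfl), if_pos rfl, lamM00_mX, map_mul]
  · rw [if_neg (by decide), if_neg (by decide), map_zero]

theorem lam_ZZ (s : Fin 2) (G G' : PP) :
    lamM 1 1 (mZ 0 s G * mZ s 0 G') = if s = 0 then ev0 G * ev0 G' else 0 := by
  rw [mZ_mul_mZ]
  rcases (by omega : s = 0 ∨ s = 1) with rfl | rfl
  · rw [if_pos (Or.inl rfl), if_pos rfl, lamM11_mZ, map_mul]
  · rw [if_neg (by decide), if_neg (by decide), map_zero]

theorem lam_ZW (s : Fin 2) {J : ℕ} {G : PP} (hG : G ∈ PX 0 0 J) (w : SW) :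
    lamM 1 0 (mZ 0 s G * mW s 0 w) = if s = 0 then ev0 G * lamW w else 0 := by
  rw [mZ_mul_mW, lamM10_mW]
  rcases (by omega : s = 0 ∨ s = 1) with rfl | rfl
  · rw [if_pos rfl, wmulZ, if_pos rfl, if_neg (by decide), sg_eq,
      lamW_evz (by simp [fst_qq, fst_ep]) hG]
  · rw [if_neg (by decide), wmulZ, if_neg (by decide), if_neg (by decide), if_pos rfl, map_zero]

theorem lam_WX_one (s : Fin 2) {J : ℕ} {G : PP} (hG : G ∈ PX 0 0 J) (w : SW) :
    lamM 1 0 (mW 0 s w * mX s 0 G) = if s = 0 then lamW w * ev0 G else 0 := by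
  rw [mW_mul_mX, lamM10_mW]
  rcases (by omega : s = 0 ∨ s = 1) with rfl | rfl
  · rw [if_pos rfl, wmulX, if_pos rfl, if_neg (by decide), pl_eq, lamW_evz (fst_qq _) hG, mul_comm]
  · rw [if_neg (by decide), wmulX, if_neg (by decide), if_pos rfl, if_neg (by decide), lamW_ep_mul]

theorem lam_WX_zero (s : Fin 2) {J n : ℕ} {G : PP} (hG : G ∈ PX 0 1 J) {w : SW}
    (hw : w ∈ WW 1 1 n) : lamM 1 0 (mW 0 s w * mX s 0 G) = 0 := by
  rw [mW_mul_mX, lamM10_mW]
  rcases (by omega : s = 0 ∨ s = 1) with rfl | rfl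
  · rw [wmulX, if_pos rfl, if_neg (by decide), pl_eq, lamW_evz_zero hG hw]
  · rw [wmulX, if_neg (by decide), if_pos rfl, if_neg (by decide), lamW_ep_mul]

theorem lamM_zero_one (m : Mat) : lamM 0 1 m = 0 := rfl

theorem sum_supp_eq (r₀ : Fin 2 × Fin 2) (v : Vtx 2) (h : supp0 r₀ = v)
    (F : Fin 2 × Fin 2 → ℂ) : (∑ r, if supp0 r = v then F r else 0) = F r₀ := by
  rw [Finset.sum_eq_single r₀, if_pos h]
  · intro r _ hr
    refine if_neg fun hv => hr ?_
    obtain ⟨a, i⟩ := r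
    obtain ⟨b, k⟩ := r₀
    subst h
    rcases (by omega : a = 0 ∨ a = 1) with rfl | rfl <;>
      rcases (by omega : b = 0 ∨ b = 1) with rfl | rfl <;> simp_all [supp0]
  · exact fun h' => absurd (Finset.mem_univ r₀) h'

theorem sum_supp_none (v : Vtx 2) (h : ∀ r, supp0 r ≠ v) (F : Fin 2 × Fin 2 → ℂ) :
    (∑ r, if supp0 r = v then F r else 0) = 0 :=
  Finset.sum_eq_zero fun r _ => if_neg (h r)

theorem supp_ne_X (a b s : Fin 2) (j : Fin 2) (h : ¬(a = 0 ∧ b = 1 ∧ s = 0)) :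
    ∀ r, supp0 r ≠ (Tau.X a b s, j) := by
  rintro ⟨t, i⟩ hr
  rcases (by omega : t = 0 ∨ t = 1) with rfl | rfl <;>
    simp only [supp0, Prod.mk.injEq, Tau.X.injEq, reduceCtorEq, false_and] at hr
  exact h ⟨hr.1.1.symm, hr.1.2.1.symm, hr.1.2.2.symm⟩

theorem supp_ne_Z (s : Fin 2) (j : Fin 2) (h : s ≠ 0) : ∀ r, supp0 r ≠ (Tau.Z s, j) := by
  rintro ⟨t, i⟩ hr
  rcases (by omega : t = 0 ∨ t = 1) with rfl | rfl <;>
    simp only [supp0, Prod.mk.injEq, Tau.Z.injEq, reduceCtorEq, false_and] at hr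
  exact h hr.1.symm

theorem iota0_X (a b s j : Fin 2) :
    iota0 (Tau.X a b s, j) = (Tau.X a.castSucc b.castSucc s, j) := rfl
theorem iota0_Z (s j : Fin 2) : iota0 (Tau.Z s, j) = (Tau.Z s, j) := rfl
theorem iota0_supp_zero (j : Fin 2) : iota0 (supp0 (0, j)) = (Tau.X 0 1 0, j) := rfl
theorem iota0_supp_one (j : Fin 2) : iota0 (supp0 (1, j)) = (Tau.Z 0, j) := rfl

theorem H_XX_cases {a b a' b' : Fin 3} {j j' s' s : Fin 2} {m : Mat}
    (h : m ∈ H (Tau.X a b s', j) (Tau.X a' b' s, j')) :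
    m = 0 ∨ (a.val ≤ a'.val ∧ b.val ≤ b'.val ∧ ∃ G ∈ PX (a'.val - a.val) (b'.val - b.val)
      (j'.val - j.val), m = mX s' s G) := by
  rw [H] at h
  split_ifs at h with hle
  · obtain ⟨G, hG, rfl⟩ := h
    exact .inr ⟨hle.1, hle.2.1, G, hG, rfl⟩
  · exact .inl ((Submodule.mem_bot ℂ).1 h)

theorem H_ZZ_cases {i i' s' s : Fin 2} {m : Mat} (h : m ∈ H (Tau.Z s', i) (Tau.Z s, i')) :
    m = 0 ∨ ∃ G ∈ PX 0 0 (i'.val - i.val), m = mZ s' s G := by
  rw [H] at h
  split_ifs at h with hle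
  · obtain ⟨G, hG, rfl⟩ := h
    exact .inr ⟨G, hG, rfl⟩
  · exact .inl ((Submodule.mem_bot ℂ).1 h)

theorem H_ZX_cases {a b : Fin 3} {i j s' s : Fin 2} {m : Mat}
    (h : m ∈ H (Tau.Z s', i) (Tau.X a b s, j)) :
    ∃ w ∈ WW (1 + a.val + b.val) (1 + b.val) (1 + j.val - i.val), m = mW s' s w := by
  rw [H] at h
  obtain ⟨w, hw, rfl⟩ := h
  exact ⟨w, hw, rfl⟩

theorem H_XZ_cases {a b : Fin 3} {i j s' s : Fin 2} {m : Mat}
    (h : m ∈ H (Tau.X a b s', j) (Tau.Z s, i)) : m = 0 := by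
  rw [H] at h
  exact (Submodule.mem_bot ℂ).1 h

theorem lamM_mul_X (pq : Fin 2 × Fin 2) (i k a b s j : Fin 2) {m n : Mat}
    (hm : m ∈ H (iota0 (supp0 (pq.1, i))) (iota0 (Tau.X a b s, j)))
    (hn : n ∈ H (iota0 (Tau.X a b s, j)) (iota0 (supp0 (pq.2, k)))) :
    lamM pq.1 pq.2 (m * n) = if a = 0 ∧ b = 1 ∧ s = 0 then
      lamM pq.1 0 m * lamM 0 pq.2 n else 0 := by
  obtain ⟨p, q⟩ := pq
  rw [iota0_X] at hm hn
  rcases (by omega : p = 0 ∨ p = 1) with rfl | rfl <;>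
    rcases (by omega : q = 0 ∨ q = 1) with rfl | rfl
  · rw [iota0_supp_zero] at hm hn
    rcases H_XX_cases hm with rfl | ⟨ha, hb, G, hG, rfl⟩
    · simp
    rcases H_XX_cases hn with rfl | ⟨ha', hb', G', hG', rfl⟩
    · simp
    simp only [Fin.val_castSucc, Fin.val_zero, Fin.val_one] at ha hb ha' hb'
    obtain rfl : a = 0 := by omega
    obtain rfl : b = 1 := by omega
    rw [lam_XX]
    simp only [true_and]
    split_ifs with h
    · subst h; rw [lamM00_mX, lamM00_mX]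
    · rfl
  · rw [iota0_supp_one] at hn
    rw [H_XZ_cases hn, mul_zero, map_zero]
    simp
  · rw [iota0_supp_one] at hm
    rw [iota0_supp_zero] at hn
    obtain ⟨w, hw, rfl⟩ := H_ZX_cases hm
    rcases H_XX_cases hn with rfl | ⟨ha', hb', G, hG, rfl⟩
    · simp
    simp only [Fin.val_castSucc, Fin.val_zero, Fin.val_one] at ha' hb' hG hw
    obtain rfl : a = 0 := by omega
    rcases (by omega : b = 0 ∨ b = 1) with rfl | rfl
    · rw [lam_WX_zero s (J := k.val - j.val) (n := 1 + j.val - i.val) hG hw,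
        if_neg (by simp)]
    · rw [lam_WX_one s (J := k.val - j.val) hG]
      simp only [true_and]
      split_ifs with h
      · subst h; rw [lamM00_mX, lamM10_mW]
      · rfl
  · rw [iota0_supp_one] at hn
    rw [H_XZ_cases hn, mul_zero, map_zero, lamM_zero_one]
    simp

theorem lamM_mul_Z (pq : Fin 2 × Fin 2) (i k s j : Fin 2) {m n : Mat}
    (hm : m ∈ H (iota0 (supp0 (pq.1, i))) (iota0 (Tau.Z s, j)))
    (hn : n ∈ H (iota0 (Tau.Z s, j)) (iota0 (supp0 (pq.2, k)))) :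
    lamM pq.1 pq.2 (m * n) = if s = 0 then lamM pq.1 1 m * lamM 1 pq.2 n else 0 := by
  obtain ⟨p, q⟩ := pq
  rw [iota0_Z] at hm hn
  rcases (by omega : p = 0 ∨ p = 1) with rfl | rfl
  · rw [iota0_supp_zero] at hm
    rw [H_XZ_cases hm, zero_mul, map_zero]
    simp
  · rw [iota0_supp_one] at hm
    rcases (by omega : q = 0 ∨ q = 1) with rfl | rfl
    · rw [iota0_supp_zero] at hn
      rcases H_ZZ_cases hm with rfl | ⟨G, hG, rfl⟩
      · simp
      obtain ⟨w, hw, rfl⟩ := H_ZX_cases hn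
      rw [lam_ZW s hG]
      split_ifs with h
      · subst h; rw [lamM11_mZ, lamM10_mW]
      · rfl
    · rw [iota0_supp_one] at hn
      rcases H_ZZ_cases hm with rfl | ⟨G, hG, rfl⟩
      · simp
      rcases H_ZZ_cases hn with rfl | ⟨G', hG', rfl⟩
      · simp
      rw [lam_ZZ]
      split_ifs with h
      · subst h; rw [lamM11_mZ, lamM11_mZ]
      · rfl

/-- multiplicativity of the functionals, vertex by vertex -/
theorem lamM_mul (p q : Fin 2 × Fin 2) (v : Vtx 2) {m n : Mat}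
    (hm : m ∈ H (iota0 (supp0 p)) (iota0 v)) (hn : n ∈ H (iota0 v) (iota0 (supp0 q))) :
    lamM p.1 q.1 (m * n) = ∑ r : Fin 2 × Fin 2,
      if supp0 r = v then lamM p.1 r.1 m * lamM r.1 q.1 n else 0 := by
  obtain ⟨τ, j⟩ := v
  cases τ with
  | X a b s =>
    rw [lamM_mul_X (p.1, q.1) p.2 q.2 a b s j hm hn]
    by_cases h : a = 0 ∧ b = 1 ∧ s = 0
    · obtain ⟨rfl, rfl, rfl⟩ := h
      rw [if_pos ⟨rfl, rfl, rfl⟩, sum_supp_eq (0, j) (Tau.X 0 1 0, j) rfl]
    · rw [if_neg h, sum_supp_none _ (supp_ne_X a b s j h)]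
  | Z s =>
    rw [lamM_mul_Z (p.1, q.1) p.2 q.2 s j hm hn]
    by_cases h : s = 0
    · subst h
      rw [if_pos rfl, sum_supp_eq (1, j) (Tau.Z 0, j) rfl]
    · rw [if_neg h, sum_supp_none _ (supp_ne_Z s j h)]

theorem supp0_injective : Function.Injective supp0 := by
  rintro ⟨a, i⟩ ⟨b, k⟩ h
  rcases (by omega : a = 0 ∨ a = 1) with rfl | rfl <;>
    rcases (by omega : b = 0 ∨ b = 1) with rfl | rfl <;> simp_all [supp0]

theorem lamM_one (p : Fin 2) : lamM p p 1 = 1 := by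
  fin_cases p <;> simp [lamM]

/-- the matrix of the action on `C₀` -/
def chi0 (a : AP) : Matrix (Fin 2 × Fin 2) (Fin 2 × Fin 2) ℂ :=
  Matrix.of fun p q => lamM p.1 q.1 (a.val (supp0 p) (supp0 q))

/-- the representation defining `C₀` -/
def chi : AP →+* Matrix (Fin 2 × Fin 2) (Fin 2 × Fin 2) ℂ where
  toFun := chi0
  map_one' := by
    ext p q
    rw [chi0, Matrix.of_apply, Cor.val_one, Matrix.one_apply, Matrix.one_apply]
    by_cases h : p = q
    · subst h; simp [lamM_one]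
    · rw [if_neg (fun e => h (supp0_injective e)), if_neg h, map_zero]
  map_mul' a b := by
    ext p q
    rw [chi0, Matrix.of_apply, Cor.val_mul, Matrix.mul_apply, map_sum, Matrix.mul_apply]
    rw [Finset.sum_congr rfl fun v _ => lamM_mul p q v (a.mem _ v) (b.mem v _), Finset.sum_comm]
    refine Finset.sum_congr rfl fun r _ => ?_
    rw [Finset.sum_ite_eq]
    simp [chi0]
  map_zero' := by ext p q; simp [chi0]
  map_add' a b := by ext p q; simp [chi0]

theorem chi_apply (a : AP) (p q : Fin 2 × Fin 2) :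
    chi a p q = lamM p.1 q.1 (a.val (supp0 p) (supp0 q)) := rfl

/-- the module `C₀` -/
def C0 : Type := Fin 2 × Fin 2 → ℂ

instance : AddCommGroup C0 := inferInstanceAs (AddCommGroup (Fin 2 × Fin 2 → ℂ))

/-- coordinates -/
def C0.vec (x : C0) : Fin 2 × Fin 2 → ℂ := x
/-- constructor -/
def C0.of (x : Fin 2 × Fin 2 → ℂ) : C0 := x

instance c0Module : Module AP C0 where
  smul a x := C0.of ((chi a).mulVec x.vec)
  one_smul x := show (chi 1).mulVec x.vec = x.vec by rw [map_one, Matrix.one_mulVec]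
  mul_smul a b x := show (chi (a * b)).mulVec x.vec = (chi a).mulVec ((chi b).mulVec x.vec) by
    rw [map_mul, Matrix.mulVec_mulVec]
  smul_zero a := show (chi a).mulVec (0 : Fin 2 × Fin 2 → ℂ) = 0 from Matrix.mulVec_zero _
  smul_add a x y := show (chi a).mulVec (x.vec + y.vec) = _ from Matrix.mulVec_add _ _ _
  add_smul a b x := show (chi (a + b)).mulVec x.vec = _ by rw [map_add, Matrix.add_mulVec]; rfl
  zero_smul x := show (chi 0).mulVec x.vec = 0 by rw [map_zero, Matrix.zero_mulVec]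

theorem c0_smul (a : AP) (x : C0) : (a • x).vec = (chi a).mulVec x.vec := rfl

/-- projection of `R` to the level zero copy of `A'` -/
def projZero : RR →+* AP :=
  ((Pi.evalRingHom (fun _ : Fin 5 => AP) 0).comp (RingHom.fst (Fin 5 → AP) AX)).comp
    (TrivSqZeroExt.fstHom ℤ RD RB).toRingHom

/-- the module `C` of `R` -/
def CR : Type := C0

instance : AddCommGroup CR := inferInstanceAs (AddCommGroup C0)
instance crModule : Module RR CR :=
  Module.compHom (R := AP) C0 projZero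

end

end Vale.Agent.P195
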