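import Vale.Agent.P195.C0Res

/-!
The differentials of the resolution of `C₀` in coordinates: a model over `ℂ` (P195).
-/

namespace Vale.Agent.P195.C0E

noncomputable section

/-- coordinates of an element of a term, at one vertex -/
abbrev Quad := (ℂ × ℂ) × (ℂ × ℂ) × (ℂ × ℂ) × (ℂ × ℂ)

/-- keep the first coordinate as the second -/
def shf (p : ℂ × ℂ) : ℂ × ℂ := (0, p.1)

/-- arrows between `E`-modules, at a vertex of kind `X` (`kX`) or `Z`, arrow vertex `s` -/
def xiE (kX : Bool) (s v : Fin 2) (p : ℂ × ℂ) : ℂ × ℂ :=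
  if kX then (if s = v then p else 0) else (if s = 0 then shf p else if v = 1 then p else 0)

/-- multiplication by `z` between `E`-modules -/
def tE (kX : Bool) (s v : Fin 2) (p : ℂ × ℂ) : ℂ × ℂ :=
  if kX then shf p else (if s = 0 ∧ v = 1 then shf p else 0)

/-- arrows between `Z`-columns -/
def xiP (kX : Bool) (s v : Fin 2) (p : ℂ × ℂ) : ℂ × ℂ :=
  if kX then 0 else if s = v then p else 0

/-- the maps from `Z`-columns to `E`-modules -/
def phM (kX : Bool) (s v w : Fin 2) (g : ℂ × ℂ) : ℂ × ℂ :=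
  if kX then 0
  else if s = v then (if s = 0 ∧ w = 1 then (g.1, 0) else g)
  else if s = 1 then (if w = 0 then g else shf g)
  else (if w = 0 then 0 else shf g)

/-- truncation -/
def cutM (n : ℕ) (q : Quad) : Quad :=
  (q.1, if n = 0 then 0 else q.2.1, if n < 2 then 0 else q.2.2.1, if n < 3 then 0 else q.2.2.2)

/-- the differential -/
def dM (kX : Bool) (s : Fin 2) (n : ℕ) (q : Quad) : Quad :=
  cutM n
    (xiE kX s (par (n + 1)) q.1 + tE kX s (par n) q.2.1 +
        gam n • phM kX s (par n) (par n) q.2.2.2,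
      -xiE kX s (par n) q.2.1 + phM kX s (par (n + 1)) (par (n + 1)) q.2.2.1 +
        phM kX s (par n) (par (n + 1)) q.2.2.2,
      xiP kX s (par (n + 1)) q.2.2.1 + shf q.2.2.2,
      -xiP kX s (par n) q.2.2.2)

/-- the coordinates which occur in degree `n` at a vertex of level `i` -/
def Valid (kX : Bool) (i : Fin 2) (n : ℕ) (q : Quad) : Prop :=
  cutM n q = q ∧
    (if kX then q.2.2.1 = 0 ∧ q.2.2.2 = 0 ∧ q.2.1.2 = 0 ∧ (i = 1 → q.1.2 = 0 ∧ q.2.1 = 0)
    else i = 1 → q.2.2.1.2 = 0 ∧ q.2.2.2 = 0) ∧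
    (kX = false → q.2.2.2.2 = 0)

/-- the augmentation -/
def augM (s : Fin 2) (q : Quad) : ℂ := if s = 0 then q.1.1 else 0

/-- exactness of the model -/
def SpecModel : Prop :=
  (∀ (kX : Bool) (s i : Fin 2) (q : Quad), Valid kX i 0 q → augM s q = 0 →
      ∃ y, Valid kX i 1 y ∧ dM kX s 0 y = q) ∧
  (∀ (kX : Bool) (s i : Fin 2) (n : ℕ) (y : Quad), Valid kX i (n + 2) y →
      dM kX s n (dM kX s (n + 1) y) = 0) ∧
  (∀ (kX : Bool) (s i : Fin 2) (y : Quad), Valid kX i 1 y → augM s (dM kX s 0 y) = 0) ∧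
  (∀ (kX : Bool) (s i : Fin 2) (n : ℕ) (q : Quad), Valid kX i (n + 1) q → dM kX s n q = 0 →
      ∃ y, Valid kX i (n + 2) y ∧ dM kX s (n + 1) y = q)

end

end Vale.Agent.P195.C0E
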