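import Vale.Agent.P195.C0Model

/-!
Exactness of the model of the resolution of `C₀`: a finite case analysis in the kind of the
vertex, the arrow vertex, the parity of the degree and the truncation.
-/

namespace Vale.Agent.P195.C0E

noncomputable section

namespace ModelPf

theorem par_val : ∀ n, (par n).val = n % 2
  | 0 => rfl
  | 1 => rfl
  | n + 2 => by rw [par, par_val n]; omega

theorem par_cases (n : ℕ) :
    (par n = 0 ∧ par (n + 1) = 1 ∧ gam (n + 1) = gam n) ∨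
      (par n = 1 ∧ par (n + 1) = 0 ∧ gam (n + 1) = gam n - 1) := by
  have h := par_val n
  have h' := par_val (n + 1)
  rcases Nat.mod_two_eq_zero_or_one n with hn | hn
  · refine .inl ⟨by omega, by omega, ?_⟩
    rw [gam, gam, show (n + 1) / 2 = n / 2 by omega]
  · refine .inr ⟨by omega, by omega, ?_⟩
    rw [gam, gam, show (n + 1) / 2 = n / 2 + 1 by omega]
    push_cast
    ring

theorem par_two (n : ℕ) : par (n + 1 + 1) = par n := rfl

theorem p_zero : par 0 = 0 := rfl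
theorem p_one : par 1 = 1 := rfl
theorem p_two : par 2 = 0 := rfl

theorem gam_zero : gam 0 = 0 := by simp [gam]
theorem gam_one : gam 1 = 0 := by simp [gam]
theorem gam_two : gam 2 = -1 := by simp [gam]

theorem cases_size (n : ℕ) : n = 0 ∨ n = 1 ∨ n = 2 ∨ ∃ k, n = k + 3 := by
  rcases n with _ | _ | _ | k <;> simp

theorem cut_zero (q : Quad) : cutM 0 q = (q.1, 0, 0, 0) := by simp [cutM]
theorem cut_one (q : Quad) : cutM 1 q = (q.1, q.2.1, 0, 0) := by simp [cutM]
theorem cut_two (q : Quad) : cutM 2 q = (q.1, q.2.1, q.2.2.1, 0) := by simp [cutM]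
theorem cut_big (k : ℕ) (q : Quad) : cutM (k + 3) q = q := by
  rw [cutM, if_neg (by omega), if_neg (by omega), if_neg (by omega)]

/-- the aug relation at degree zero -/
theorem aug_surj (kX : Bool) (s i : Fin 2) (q : Quad) (hv : Valid kX i 0 q)
    (h : augM s q = 0) : ∃ y, Valid kX i 1 y ∧ dM kX s 0 y = q := by
  obtain ⟨⟨a, a'⟩, ⟨b, b'⟩, ⟨c, c'⟩, ⟨d, d'⟩⟩ := q
  have p1 : par 1 = 1 := rfl
  have p0 : par 0 = 0 := rfl
  rcases (by omega : s = 0 ∨ s = 1) with rfl | rfl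
  · cases kX
    · refine ⟨((a', 0), 0, 0, 0), ?_⟩
      simp [Valid, Prod.ext_iff, dM, augM, xiE, tE, phM, shf, cut_zero, cut_one, p0, p1] at hv h ⊢
      grind
    · refine ⟨(0, (a', 0), 0, 0), ?_⟩
      simp [Valid, Prod.ext_iff, dM, augM, xiE, tE, phM, shf, cut_zero, cut_one, p0, p1] at hv h ⊢
      grind
  · refine ⟨((a, a'), 0, 0, 0), ?_⟩
    cases kX <;>
      simp [Valid, Prod.ext_iff, dM, augM, xiE, tE, phM, shf, cut_zero, cut_one, p0, p1] at hv h ⊢ <;>
      grind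

theorem aug_zero (kX : Bool) (s i : Fin 2) (y : Quad) (hv : Valid kX i 1 y) :
    augM s (dM kX s 0 y) = 0 := by
  obtain ⟨⟨a, a'⟩, ⟨b, b'⟩, ⟨c, c'⟩, ⟨d, d'⟩⟩ := y
  have p1 : par 1 = 1 := rfl
  have p0 : par 0 = 0 := rfl
  rcases (by omega : s = 0 ∨ s = 1) with rfl | rfl <;> cases kX <;>
    simp [Valid, Prod.ext_iff, dM, augM, xiE, tE, phM, shf, cut_zero, cut_one, p0, p1, gam_zero] at hv ⊢

theorem sq_zero (kX : Bool) (s i : Fin 2) (n : ℕ) (y : Quad) (hv : Valid kX i (n + 2) y) :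
    dM kX s n (dM kX s (n + 1) y) = 0 := by
  obtain ⟨⟨a, a'⟩, ⟨b, b'⟩, ⟨c, c'⟩, ⟨d, d'⟩⟩ := y
  rcases par_cases n with ⟨hp, hp', hg⟩ | ⟨hp, hp', hg⟩ <;>
    simp only [dM, par_two, hp, hp', hg] <;>
    rcases cases_size n with rfl | rfl | rfl | ⟨k, rfl⟩ <;>
    rcases (by omega : s = 0 ∨ s = 1) with rfl | rfl <;> cases kX <;>
    simp [Valid, Prod.ext_iff, xiE, tE, phM, xiP, shf, cut_zero, cut_one, cut_two, cut_big,
      p_zero, p_one, p_two, gam_zero, gam_one, gam_two] at hv hp ⊢ <;>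
    grind

/-- exactness at the vertices of kind `X` -/
theorem exact_X (s i : Fin 2) (n : ℕ) (q : Quad) (hv : Valid true i (n + 1) q)
    (h : dM true s n q = 0) :
    ∃ y, Valid true i (n + 2) y ∧ dM true s (n + 1) y = q := by
  obtain ⟨⟨a, a'⟩, ⟨b, b'⟩, ⟨c, c'⟩, ⟨d, d'⟩⟩ := q
  by_cases hs : s = par n
  · refine ⟨((a, a'), 0, 0, 0), ?_⟩
    have hs' : s ≠ par (n + 1) := hs ▸ (par_ne n).symm
    simp only [dM, xiE, tE, phM, xiP, par_two, ← hs, if_true, if_neg hs'] at h ⊢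
    rcases cases_size n with rfl | rfl | rfl | ⟨k, rfl⟩ <;>
      simp [Valid, shf, cut_zero, cut_one, cut_two, cut_big, Prod.ext_iff] at hv h ⊢ <;>
      grind
  · refine ⟨(0, (-b, -b'), 0, 0), ?_⟩
    have hs' : s = par (n + 1) := by have := par_ne n; omega
    simp only [dM, xiE, tE, phM, xiP, par_two, if_neg hs, ← hs', if_true] at h ⊢
    rcases cases_size n with rfl | rfl | rfl | ⟨k, rfl⟩ <;>
      simp [Valid, shf, cut_zero, cut_one, cut_two, cut_big, Prod.ext_iff, hs] at hv h ⊢ <;>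
      grind

/-- exactness at the vertices of kind `Z` -/
theorem exact_Z (s i : Fin 2) (n : ℕ) (q : Quad) (hv : Valid false i (n + 1) q)
    (h : dM false s n q = 0) :
    ∃ y, Valid false i (n + 2) y ∧ dM false s (n + 1) y = q := by
  obtain ⟨⟨a, a'⟩, ⟨b, b'⟩, ⟨c, c'⟩, ⟨d, d'⟩⟩ := q
  rcases par_cases n with ⟨hp, hp', hg⟩ | ⟨hp, hp', hg⟩ <;>
    rcases (by omega : s = 0 ∨ s = 1) with rfl | rfl <;>
    simp only [dM, par_two, hp, hp', hg] at h ⊢
  · rcases Nat.eq_zero_or_pos n with rfl | hn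
    · refine ⟨((a' + b', 0), (-b', 0), (b, 0), 0), ?_⟩
      simp [Valid, Prod.ext_iff, xiE, tE, phM, xiP, shf, cut_zero, cut_one, cut_two, gam_zero] at hv h ⊢
      grind
    · refine ⟨((a' - (c' - b'), 0), (c' - b', 0), (c, c'), 0), ?_⟩
      rcases cases_size n with rfl | rfl | rfl | ⟨k, rfl⟩ <;>
        simp [Valid, Prod.ext_iff, xiE, tE, phM, xiP, shf, cut_zero, cut_one, cut_two, cut_big, p_one,
          gam_two] at hv h hp hn ⊢ <;>
        grind
  · refine ⟨(0, (-b - d, -b' - d'), 0, (-d, -d')), ?_⟩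
    rcases cases_size n with rfl | rfl | rfl | ⟨k, rfl⟩ <;>
      simp [Valid, Prod.ext_iff, xiE, tE, phM, xiP, shf, cut_zero, cut_one, cut_two, cut_big, p_one,
        gam_zero, gam_two] at hv h hp ⊢ <;>
      grind
  · refine ⟨((a', 0), (-b', 0), 0, (b, 0)), ?_⟩
    rcases cases_size n with rfl | rfl | rfl | ⟨k, rfl⟩ <;>
      simp [Valid, Prod.ext_iff, xiE, tE, phM, xiP, shf, cut_zero, cut_one, cut_two, cut_big, p_zero, p_two,
        gam_one] at hv h hp ⊢ <;>
      grind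
  · refine ⟨((a, a'), 0, (c, c'), 0), ?_⟩
    rcases cases_size n with rfl | rfl | rfl | ⟨k, rfl⟩ <;>
      simp [Valid, Prod.ext_iff, xiE, tE, phM, xiP, shf, cut_zero, cut_one, cut_two, cut_big, p_zero, p_two,
        gam_one] at hv h hp ⊢ <;>
      grind

end ModelPf

open ModelPf in
theorem specModel : SpecModel := by
  refine ⟨aug_surj, sq_zero, aug_zero, fun kX s i n q hv h => ?_⟩
  cases kX
  · exact exact_Z s i n q hv h
  · exact exact_X s i n q hv h

end

end Vale.Agent.P195.C0E
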