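import Vale.Agent.P195.Spec2

/-!
The properties of `P_x` used to bound `Ext(C₀, P_x)`.
-/

namespace Vale.Agent.P195

noncomputable section

theorem mem_H_arrZ (v v' i : Fin 2) : mZ v' v 1 ∈ H (iota0 (vZ i v')) (iota0 (vZ i v)) := by
  refine (show mZ v' v 1 ∈ H (Tau.Z v', i) (Tau.Z v, i) from ?_)
  rw [H, if_pos le_rfl]
  exact ⟨1, one_mem_PX _ _ _, rfl⟩

theorem mem_H_arrX (b : Fin 2) (v v' j : Fin 2) :
    mX v' v 1 ∈ H (iota0 (vX 0 b j v')) (iota0 (vX 0 b j v)) := by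
  refine (show mX v' v 1 ∈ H (Tau.X 0 b.castSucc v', j) (Tau.X 0 b.castSucc v, j) from ?_)
  rw [H, if_pos ⟨le_rfl, le_rfl, le_rfl⟩]
  exact ⟨1, one_mem_PX _ _ _, rfl⟩

theorem mem_H_euler (j v : Fin 2) {G : PP} (hG : G ∈ PX 0 1 0) :
    mX v v G ∈ H (iota0 (vX 0 0 j v)) (iota0 (vX 0 1 j v)) := by
  refine (show mX v v G ∈ H (Tau.X 0 0 v, j) (Tau.X 0 1 v, j) from ?_)
  rw [H, if_pos ⟨le_rfl, Fin.zero_le _, le_rfl⟩]
  refine ⟨G, ?_, rfl⟩
  simpa using hG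

theorem varY_mem : (Polynomial.X : PP) ∈ PX 0 1 0 := by
  simpa [mono] using
    mono_mem (B := 1) (A := 0) (J := 0) (b := 1) (a := 0) (j := 0) le_rfl le_rfl le_rfl (1 : ℂ)

/-- the arrow from `v` to `v'` at the vertices `Z(i)` -/
def arZ (v v' i : Fin 2) : AP := Cor.single (vZ i v') (vZ i v) (mZ v' v 1) (mem_H_arrZ v v' i)
/-- the arrow from `v` to `v'` at the vertices `X(0,b,j)` -/
def arX (b v v' j : Fin 2) : AP :=
  Cor.single (vX 0 b j v') (vX 0 b j v) (mX v' v 1) (mem_H_arrX b v v' j)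
/-- the element `y` from `X(0,1)` to `X(0,0)` -/
def euY (j v : Fin 2) : AP :=
  Cor.single (vX 0 0 j v) (vX 0 1 j v) (mX v v Polynomial.X) (mem_H_euler j v varY_mem)
/-- the element `1` from `X(0,1)` to `X(0,0)` -/
def euO (j v : Fin 2) : AP :=
  Cor.single (vX 0 0 j v) (vX 0 1 j v) (mX v v 1) (mem_H_euler j v (one_mem_PX 0 1 0))

/-- `P_x` at the vertices used by the resolution of `C₀` -/
def SpecPxAux : Prop :=
  (∀ (j v : Fin 2) (y : Px), idem iota0 (vX 0 1 j v) • y = y →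
      euY j v • y = 0 → euO j v • y = 0 → y = 0) ∧
  (∀ (i v v' : Fin 2), v ≠ v' → ∀ y : Px, idem iota0 (vZ i v) • y = y → arZ v v' i • y = 0 →
      ∃ y' : Px, idem iota0 (vZ i v') • y' = y' ∧ arZ v' v i • y' = y) ∧
  (∀ (j v v' : Fin 2), v ≠ v' → ∀ y₀ y₁ a : Px,
      idem iota0 (vX 0 0 j v) • y₀ = y₀ → idem iota0 (vX 0 0 j v) • y₁ = y₁ →
      idem iota0 (vX 0 1 j v') • a = a →
      arX 0 v v' j • y₀ = euY j v' • a → arX 0 v v' j • y₁ = euO j v' • a →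
      ∃ y₀' y₁' b : Px,
        idem iota0 (vX 0 0 j v') • y₀' = y₀' ∧ idem iota0 (vX 0 0 j v') • y₁' = y₁' ∧
        idem iota0 (vX 0 1 j v) • b = b ∧
        arX 0 v' v j • y₀' + euY j v • b = y₀ ∧ arX 0 v' v j • y₁' + euO j v • b = y₁)

end

end Vale.Agent.P195
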