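import Vale.Agent.P195.C0Res
import Vale.Agent.P195.Spec3

/-!
Extensions of the modules `E(j,v)` and of the terms of the resolution of `C₀` by `P_x` (P195).
-/

namespace Vale.Agent.P195.C0P

open Matrix MulOpposite CategoryTheory Abelian C0E

noncomputable section

/-- `P_x` as an object -/
abbrev MPx : ModuleCat.{0} AP := ModuleCat.of AP Px

/-- pullback of extension classes -/
def pull {X Y : Type} [AddCommGroup X] [Module AP X] [AddCommGroup Y] [Module AP Y]
    (f : X →ₗ[AP] Y) (x : Ext (ModuleCat.of AP Y) MPx 1) : Ext (ModuleCat.of AP X) MPx 1 :=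
  (Ext.mk₀ (ModuleCat.ofHom f)).comp x (zero_add 1)

section Pull

variable {X Y Z : Type} [AddCommGroup X] [Module AP X] [AddCommGroup Y] [Module AP Y]
  [AddCommGroup Z] [Module AP Z]

theorem pull_pull (f : X →ₗ[AP] Y) (g : Y →ₗ[AP] Z) (x : Ext (ModuleCat.of AP Z) MPx 1) :
    pull f (pull g x) = pull (g ∘ₗ f) x :=
  Ext.mk₀_comp_mk₀_assoc _ _ _

theorem pull_add (f : X →ₗ[AP] Y) (x y : Ext (ModuleCat.of AP Y) MPx 1) :
    pull f (x + y) = pull f x + pull f y := Ext.comp_add _ _ _ _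

theorem pull_zero (f : X →ₗ[AP] Y) : pull f (0 : Ext (ModuleCat.of AP Y) MPx 1) = 0 := by
  simp [pull]

theorem pull_neg (f : X →ₗ[AP] Y) (x : Ext (ModuleCat.of AP Y) MPx 1) :
    pull f (-x) = -pull f x := Ext.comp_neg _ _ _

theorem add_pull (f g : X →ₗ[AP] Y) (x : Ext (ModuleCat.of AP Y) MPx 1) :
    pull (f + g) x = pull f x + pull g x := by
  rw [pull, ModuleCat.ofHom_add, Ext.mk₀_add, Ext.add_comp]
  rfl

theorem zero_pull (x : Ext (ModuleCat.of AP Y) MPx 1) : pull (0 : X →ₗ[AP] Y) x = 0 := by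
  have h := add_pull (0 : X →ₗ[AP] Y) 0 x
  rw [add_zero] at h
  exact left_eq_add.1 h

theorem neg_pull (f : X →ₗ[AP] Y) (x : Ext (ModuleCat.of AP Y) MPx 1) :
    pull (-f) x = -pull f x := by
  refine eq_neg_of_add_eq_zero_left ?_
  rw [← add_pull, neg_add_cancel, zero_pull]

theorem id_pull (x : Ext (ModuleCat.of AP X) MPx 1) : pull LinearMap.id x = x :=
  Ext.mk₀_id_comp x

theorem col_ext_zero (u₀ : Vtx 2) (x : Ext (ModuleCat.of AP (Col (iota0 u₀))) MPx 1) : x = 0 :=
  (ev_of_module_projective le_rfl MPx).eq_zero x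

end Pull

/-! ### Elements of `A'` -/

theorem single_fix {M : Type} [AddCommGroup M] [Module AP M] (u w : Vtx 2) (m : Mat)
    (h : m ∈ H (iota0 u) (iota0 w)) (y : M) :
    idem iota0 u • (Cor.single u w m h • y) = Cor.single u w m h • y := by
  rw [smul_smul]
  congr 1
  exact Cor.ext (by simp [idem])

/-- multiplication by `z` between the vertices `X(0,0)` -/
def tO (v : Fin 2) : AP :=
  Cor.single (qO 0 v) (qO 1 v) (mX v v zP) (mem_OO (Fin.zero_le _) zP_mem')
/-- multiplication by `z` between the vertices `X(0,1)` -/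
def tX (v : Fin 2) : AP :=
  Cor.single (qX 0 v) (qX 1 v) (mX v v zP) (mem_XX (Fin.zero_le _) zP_mem')
/-- multiplication by `z` between the vertices `Z` -/
def tZ (v : Fin 2) : AP :=
  Cor.single (vZ 0 v) (vZ 1 v) (mZ v v zP) (mem_ZZ (Fin.zero_le _) zP_mem')

theorem tO_arX (v v' : Fin 2) : tO v' * arX 0 v v' 1 = arX 0 v v' 0 * tO v := by
  refine Cor.ext ?_
  rw [Cor.val_mul, Cor.val_mul, tO, arX, arX, tO, Cor.val_single, Cor.val_single, Cor.val_single,
    Cor.val_single, Matrix.single_mul_single_same, Matrix.single_mul_single_same, mX_mul_mX,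
    mX_mul_mX, if_pos (Or.inl rfl), if_pos (Or.inr rfl), one_mul, mul_one]

theorem tZ_arZ (v v' : Fin 2) : tZ v' * arZ v v' 1 = arZ v v' 0 * tZ v := by
  refine Cor.ext ?_
  rw [Cor.val_mul, Cor.val_mul, tZ, arZ, arZ, tZ, Cor.val_single, Cor.val_single, Cor.val_single,
    Cor.val_single, Matrix.single_mul_single_same, Matrix.single_mul_single_same, mZ_mul_mZ,
    mZ_mul_mZ, if_pos (Or.inl rfl), if_pos (Or.inr rfl), one_mul, mul_one]

theorem tO_euY (v : Fin 2) : tO v * euY 1 v = euY 0 v * tX v := by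
  refine Cor.ext ?_
  rw [Cor.val_mul, Cor.val_mul, tO, tX, euY, euY, Cor.val_single, Cor.val_single, Cor.val_single,
    Cor.val_single, Matrix.single_mul_single_same, Matrix.single_mul_single_same, mX_mul_mX,
    mX_mul_mX, if_pos (Or.inl rfl), if_pos (Or.inl rfl)]
  exact congrArg (fun G => Matrix.single _ _ (mX v v G)) Polynomial.X_mul.symm

theorem tO_euO (v : Fin 2) : tO v * euO 1 v = euO 0 v * tX v := by
  refine Cor.ext ?_
  rw [Cor.val_mul, Cor.val_mul, tO, tX, euO, euO, Cor.val_single, Cor.val_single, Cor.val_single,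
    Cor.val_single, Matrix.single_mul_single_same, Matrix.single_mul_single_same, mX_mul_mX,
    mX_mul_mX, if_pos (Or.inl rfl), if_pos (Or.inl rfl)]
  exact congrArg (fun G => Matrix.single _ _ (mX v v G)) ((mul_one zP).trans (one_mul zP).symm)

/-! ### Maps out of the columns -/

theorem lift_add {Y : Type} [AddCommGroup Y] [Module AP Y] (u : Vtx 2) (y y' : Y) :
    Col.lift u (y + y') = Col.lift u y + Col.lift u y' :=
  LinearMap.ext fun f => smul_add (Col.toAP u f) y y'

theorem hom_col {Y : Type} [AddCommGroup Y] [Module AP Y] {u : Vtx 2}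
    (g : Col (iota0 u) →ₗ[AP] Y) : g = Col.lift u (g (Col.gen u)) := by
  refine Col.hom_ext ?_
  rw [Col.lift_gen u _ (by rw [← map_smul, Col.idem_gen])]

/-- the pair of elements of `P_x` as a map out of the two columns at `X(0,0)` -/
def pairLift (j v : Fin 2) (y : Px × Px) :
    Col (iota0 (qO j v)) × Col (iota0 (qO j v)) →ₗ[AP] Px :=
  (Col.lift (qO j v) y.1).coprod (Col.lift (qO j v) y.2)

theorem pairLift_add (j v : Fin 2) (y y' : Px × Px) :
    pairLift j v (y + y') = pairLift j v y + pairLift j v y' := by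
  refine LinearMap.ext fun x => ?_
  simp only [pairLift, LinearMap.add_apply, LinearMap.coprod_apply, Prod.fst_add, Prod.snd_add,
    lift_add]
  abel

theorem pairLift_inj (j v : Fin 2) {y y' : Px × Px} (hy : idem iota0 (qO j v) • y = y)
    (hy' : idem iota0 (qO j v) • y' = y') (h : pairLift j v y = pairLift j v y') : y = y' := by
  have h1 : ∀ z : Px × Px, idem iota0 (qO j v) • z = z →
      pairLift j v z (Col.gen _, 0) = z.1 ∧ pairLift j v z (0, Col.gen _) = z.2 := fun z hz => by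
    have e1 : idem iota0 (qO j v) • z.1 = z.1 := congrArg Prod.fst hz
    have e2 : idem iota0 (qO j v) • z.2 = z.2 := congrArg Prod.snd hz
    simp [pairLift, LinearMap.coprod_apply, Col.lift_gen, e1, e2]
  exact Prod.ext ((h1 y hy).1.symm.trans ((LinearMap.congr_fun h _).trans (h1 y' hy').1))
    ((h1 y hy).2.symm.trans ((LinearMap.congr_fun h _).trans (h1 y' hy').2))

theorem pairLift_euler (j v : Fin 2) (a : Px) :
    Col.lift (qX j v) a ∘ₗ rE j v = pairLift j v (euY j v • a, euO j v • a) := by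
  refine LinearMap.ext fun x => ?_
  rw [LinearMap.comp_apply, rE, LinearMap.coprod_apply, map_add, Col.lift_map, Col.lift_map]
  rfl

theorem hom_EE_zero (hAux : SpecPxAux) (j v : Fin 2) (g : EE j v →ₗ[AP] Px) : g = 0 := by
  set h : Col (iota0 (qX j v)) →ₗ[AP] Px := g ∘ₗ (LinearMap.range (rE j v)).mkQ with hh
  have e : h ∘ₗ rE j v = 0 := by
    rw [hh, LinearMap.comp_assoc, LinearMap.range_mkQ_comp, LinearMap.comp_zero]
  have hy : idem iota0 (qX j v) • h (Col.gen _) = h (Col.gen _) := by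
    rw [← map_smul, Col.idem_gen]
  rw [hom_col h, pairLift_euler] at e
  have e' : (euY j v • h (Col.gen (qX j v)), euO j v • h (Col.gen (qX j v))) = (0 : Px × Px) := by
    refine pairLift_inj j v (Prod.ext (single_fix _ _ _ _ _) (single_fix _ _ _ _ _))
      (smul_zero _) (e.trans ?_)
    refine LinearMap.ext fun x => ?_
    simp [pairLift, Col.lift_apply]
  have h0 : h (Col.gen _) = 0 :=
    hAux.1 j v _ hy (congrArg Prod.fst e') (congrArg Prod.snd e')
  refine Submodule.linearMap_qext _ ?_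
  rw [LinearMap.zero_comp, ← hh, hom_col h, h0]
  exact LinearMap.ext fun f => smul_zero (Col.toAP (qX j v) f)

/-! ### `Ext¹(E(j,v), P_x)` -/

/-- the defining sequence of `E(j,v)` -/
abbrev seqE (j v : Fin 2) : ShortComplex (ModuleCat.{0} AP) :=
  ShortComplex.mk
    (ModuleCat.ofHom (X := Col (iota0 (qO j v)) × Col (iota0 (qO j v)))
      (Y := Col (iota0 (qX j v))) (rE j v))
    (ModuleCat.ofHom (Y := EE j v) (LinearMap.range (rE j v)).mkQ)
    (ModuleCat.hom_ext (LinearMap.range_mkQ_comp (rE j v)))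

theorem seqE_exact (j v : Fin 2) : (seqE j v).ShortExact :=
  shortExact_mk (X := ModuleCat.of AP (Col (iota0 (qO j v)) × Col (iota0 (qO j v))))
    (Y := ModuleCat.of AP (Col (iota0 (qX j v)))) (Z := ModuleCat.of AP (EE j v))
    (rE j v) (LinearMap.range (rE j v)).mkQ (rE_injective j v) (Submodule.mkQ_surjective _)
    (LinearMap.exact_map_mkQ_range (rE j v))

/-- the connecting map -/
def dl (j v : Fin 2) (y : Px × Px) : Ext (ModuleCat.of AP (EE j v)) MPx 1 :=
  (seqE_exact j v).extClass.comp (Ext.mk₀ (ModuleCat.ofHom (pairLift j v y))) (add_zero 1)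

theorem dl_add (j v : Fin 2) (y y' : Px × Px) : dl j v (y + y') = dl j v y + dl j v y' := by
  simp only [dl]
  rw [pairLift_add, ModuleCat.ofHom_add, Ext.mk₀_add]
  exact Ext.comp_add _ _ _ _

theorem dl_euler (j v : Fin 2) (a : Px) : dl j v (euY j v • a, euO j v • a) = 0 := by
  have e : ModuleCat.ofHom (pairLift j v (euY j v • a, euO j v • a)) =
      (seqE j v).f ≫ ModuleCat.ofHom (X := Col (iota0 (qX j v))) (Col.lift (qX j v) a) :=
    ModuleCat.hom_ext (pairLift_euler j v a).symm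
  rw [dl, e]
  refine Eq.trans ?_ ((seqE_exact j v).extClass_comp_assoc (n := 0) (h := rfl)
    (Ext.mk₀ (ModuleCat.ofHom (X := Col (iota0 (qX j v))) (Col.lift (qX j v) a))))
  rw [Ext.mk₀_comp_mk₀]

theorem dl_zero (j v : Fin 2) : dl j v 0 = 0 := by
  have h := dl_euler j v 0
  rwa [smul_zero, smul_zero] at h

theorem dl_neg (j v : Fin 2) (y : Px × Px) : dl j v (-y) = -dl j v y := by
  refine eq_neg_of_add_eq_zero_left ?_
  rw [← dl_add, neg_add_cancel, dl_zero]

theorem dl_surj (j v : Fin 2) (x : Ext (ModuleCat.of AP (EE j v)) MPx 1) :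
    ∃ y, idem iota0 (qO j v) • y = y ∧ dl j v y = x := by
  obtain ⟨f₀, hf⟩ := Ext.contravariant_sequence_exact₃ (seqE_exact j v) MPx x
    ((ev_of_module_projective (P := Col (iota0 (qX j v))) le_rfl MPx).eq_zero _)
    (by omega : 1 + 0 = 1)
  obtain ⟨f, rfl⟩ := Ext.addEquiv₀.symm.surjective f₀
  refine ⟨(f.hom (Col.gen _, 0), f.hom (0, Col.gen _)), Prod.ext ?_ ?_, ?_⟩
  · show idem iota0 (qO j v) • f.hom _ = f.hom _
    rw [← map_smul, Prod.smul_mk, smul_zero, Col.idem_gen]
  · show idem iota0 (qO j v) • f.hom _ = f.hom _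
    rw [← map_smul, Prod.smul_mk, smul_zero, Col.idem_gen]
  · have e : pairLift j v (f.hom (Col.gen _, 0), f.hom (0, Col.gen _)) = f.hom := by
      refine LinearMap.prod_ext ?_ ?_
      · rw [pairLift, LinearMap.coprod_inl]
        exact (hom_col (f.hom ∘ₗ LinearMap.inl AP _ _)).symm
      · rw [pairLift, LinearMap.coprod_inr]
        exact (hom_col (f.hom ∘ₗ LinearMap.inr AP _ _)).symm
    rw [dl, e]
    exact hf

theorem dl_ker (j v : Fin 2) {y : Px × Px} (hy : idem iota0 (qO j v) • y = y)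
    (h : dl j v y = 0) :
    ∃ a, idem iota0 (qX j v) • a = a ∧ y = (euY j v • a, euO j v • a) := by
  obtain ⟨g₀, hg⟩ := Ext.contravariant_sequence_exact₁ (seqE_exact j v) MPx
    (Ext.mk₀ (ModuleCat.ofHom (pairLift j v y))) (by omega : 1 + 0 = 1) h
  obtain ⟨g, rfl⟩ := Ext.addEquiv₀.symm.surjective g₀
  simp [Ext.addEquiv₀, Ext.mk₀_comp_mk₀] at hg
  have e : g.hom ∘ₗ rE j v = pairLift j v y :=
    congrArg ModuleCat.Hom.hom ((Ext.mk₀_bijective _ _).1 hg)
  set h' : Col (iota0 (qX j v)) →ₗ[AP] Px := g.hom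
  have ha : idem iota0 (qX j v) • h' (Col.gen _) = h' (Col.gen _) := by
    rw [← map_smul, Col.idem_gen]
  refine ⟨h' (Col.gen _), ha, pairLift_inj j v hy ?_ ?_⟩
  · exact Prod.ext (single_fix _ _ _ _ _) (single_fix _ _ _ _ _)
  · rw [← pairLift_euler, ← hom_col h', e]

/-- the lift of `mapE` to the presentations -/
def mapSeq {j j' v v' : Fin 2} (G : PP) (hj : j ≤ j') (hG : G ∈ PX 0 0 (j'.val - j.val)) :
    seqE j v ⟶ seqE j' v' where
  τ₁ := ModuleCat.ofHom (X := Col (iota0 (qO j v)) × Col (iota0 (qO j v)))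
    (Y := Col (iota0 (qO j' v')) × Col (iota0 (qO j' v')))
    ((Col.map _ (mem_OO hj hG)).prodMap (Col.map _ (mem_OO hj hG)))
  τ₂ := ModuleCat.ofHom (X := Col (iota0 (qX j v))) (Col.map (mX v v' G) (mem_XX hj hG))
  τ₃ := ModuleCat.ofHom (mapE G hj hG)
  comm₁₂ := by
    refine ModuleCat.hom_ext (LinearMap.ext fun x => Col.ext fun u => ?_)
    show (rE j' v' _).val u = ((rE j v x).val u) * mX v v' G
    rw [rE_val, rE_val, add_mul]
    show x.1.val u * mX v v' G * mX v' v' yP + x.2.val u * mX v v' G * mX v' v' 1 = _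
    rw [mul_assoc, mul_assoc, mul_assoc, mul_assoc, mX_mul_mX, mX_mul_mX, mX_mul_mX, mX_mul_mX,
      if_pos (Or.inr rfl), if_pos (Or.inr rfl), if_pos (Or.inl rfl), if_pos (Or.inl rfl),
      mul_comm G yP, mul_comm G 1]
  comm₂₃ := ModuleCat.hom_ext (LinearMap.ext fun f => rfl)

theorem pairLift_map {j j' v v' : Fin 2} (G : PP) (hj : j ≤ j')
    (hG : G ∈ PX 0 0 (j'.val - j.val)) (y : Px × Px) :
    pairLift j' v' y ∘ₗ ((Col.map (mX v v' G) (mem_OO hj hG)).prodMap
      (Col.map (mX v v' G) (mem_OO hj hG))) =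
    pairLift j v (Cor.single (qO j v) (qO j' v') (mX v v' G) (mem_OO hj hG) • y) := by
  refine LinearMap.ext fun x => ?_
  show Col.lift _ y.1 (Col.map _ (mem_OO hj hG) x.1) + Col.lift _ y.2 (Col.map _ (mem_OO hj hG) x.2) = _
  rw [Col.lift_map, Col.lift_map]
  rfl

theorem pull_mapE_dl {j j' v v' : Fin 2} (G : PP) (hj : j ≤ j')
    (hG : G ∈ PX 0 0 (j'.val - j.val)) (y : Px × Px) :
    pull (mapE (v := v) (v' := v') G hj hG) (dl j' v' y) =
      dl j v (Cor.single (qO j v) (qO j' v') (mX v v' G) (mem_OO hj hG) • y) := by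
  have hn := ShortComplex.ShortExact.extClass_naturality (seqE_exact j v) (seqE_exact j' v')
    (mapSeq G hj hG)
  rw [dl, dl, ← pairLift_map G hj hG y,
    show ModuleCat.ofHom (pairLift j' v' y ∘ₗ ((Col.map (mX v v' G) (mem_OO hj hG)).prodMap
      (Col.map (mX v v' G) (mem_OO hj hG)))) =
      (mapSeq (v := v) (v' := v') G hj hG).τ₁ ≫ ModuleCat.ofHom (pairLift j' v' y) from rfl,
    ← Ext.mk₀_comp_mk₀]
  refine ((Ext.comp_assoc_of_third_deg_zero _ _ _ _).symm.trans ?_).trans
    (Ext.comp_assoc_of_third_deg_zero _ _ _ _)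
  exact congrArg (fun e => Ext.comp e _ (add_zero 1)) hn.symm

end

end Vale.Agent.P195.C0P
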