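import Vale.Agent.P195.C0Coord

/-!
The image of the Euler map into a column `X(0,1)`, in coordinates (P195).
-/

namespace Vale.Agent.P195.C0E

open Polynomial Matrix

noncomputable section

theorem iota0_qX (j v : Fin 2) : iota0 (qX j v) = (Tau.X 0 1 v, j) := rfl
theorem iota0_qO (j v : Fin 2) : iota0 (qO j v) = (Tau.X 0 0 v, j) := rfl

theorem rE_val (j v : Fin 2) (g : Col (iota0 (qO j v)) × Col (iota0 (qO j v))) (u : Vtx 2) :
    (rE j v g).val u = g.1.val u * mX v v yP + g.2.val u * mX v v 1 := rfl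

theorem mX_self_mul (v' v : Fin 2) (G G' : PP) :
    mX v' v G * mX v v G' = mX v' v (G * G') := by rw [mX_mul_mX, if_pos (Or.inr rfl)]

theorem mW_mul_self (v' v : Fin 2) (w : SW) (G : PP) (h : sg G = pl G) :
    mW v' v w * mX v v G = mW v' v (pl G * w) := by
  rw [mW_mul_mX, wmulX, if_pos rfl]
  split_ifs <;> simp [h]

theorem mW_mul_yP (v' v : Fin 2) (w : SW) :
    mW v' v w * mX v v yP = mW v' v ((qq Polynomial.X + et) * w) := by
  rw [mW_mul_self v' v w yP (by rw [pl_yP, sg_yP]), pl_yP]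

theorem mW_mul_one (v' v : Fin 2) (w : SW) : mW v' v w * mX v v 1 = mW v' v w := by
  rw [mW_mul_self v' v w 1 (by simp), map_one, one_mul]

theorem mX_injective {v' v : Fin 2} {G G' : PP} (h : mX v' v G = mX v' v G') : G = G' := by
  simpa [rdX_mX] using congrArg (rdX v' v) h

theorem mW_injective {v' v : Fin 2} {w w' : SW} (h : mW v' v w = mW v' v w') : w = w' := by
  simpa [rdW_mW] using congrArg (rdW v' v) h

theorem H_qX_cases {a b s j i v : Fin 2} {m : Mat}
    (h : m ∈ H (iota0 (vX a b i s)) (iota0 (qX j v))) :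
    m = 0 ∨ (a = 0 ∧ ∃ G ∈ PX 0 (1 - b.val) (j.val - i.val), m = mX s v G ∧ i ≤ j) := by
  rw [iota0_qX, show iota0 (vX a b i s) = (Tau.X a.castSucc b.castSucc s, i) from rfl, H] at h
  split_ifs at h with hle
  · obtain ⟨G, hG, rfl⟩ := h
    have ha : a = 0 := by
      have h1 : a.val ≤ 0 := hle.1
      exact Fin.ext (by simpa using h1)
    subst ha
    exact .inr ⟨rfl, G, by simpa using hG, rfl, hle.2.2⟩
  · exact .inl ((Submodule.mem_bot ℂ).1 h)

theorem H_qO_cases {a b s j i v : Fin 2} {m : Mat}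
    (h : m ∈ H (iota0 (vX a b i s)) (iota0 (qO j v))) :
    m = 0 ∨ (a = 0 ∧ b = 0 ∧ ∃ G ∈ PX 0 0 (j.val - i.val), m = mX s v G) := by
  rw [iota0_qO, show iota0 (vX a b i s) = (Tau.X a.castSucc b.castSucc s, i) from rfl, H] at h
  split_ifs at h with hle
  · obtain ⟨G, hG, rfl⟩ := h
    have ha : a = 0 := by
      have h1 : a.val ≤ 0 := hle.1
      exact Fin.ext (by simpa using h1)
    have hb : b = 0 := by
      have h1 : b.val ≤ 0 := hle.2.1
      exact Fin.ext (by simpa using h1)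
    subst ha hb
    exact .inr ⟨rfl, rfl, G, by simpa using hG, rfl⟩
  · exact .inl ((Submodule.mem_bot ℂ).1 h)

theorem H_qX_Z {s i j v : Fin 2} {m : Mat} (h : m ∈ H (iota0 (vZ i s)) (iota0 (qX j v))) :
    ∃ w ∈ WW 2 2 (1 + j.val - i.val), m = mW s v w := by
  rw [iota0_qX, show iota0 (vZ i s) = (Tau.Z s, i) from rfl, H] at h
  obtain ⟨w, hw, rfl⟩ := h
  exact ⟨w, hw, rfl⟩

theorem H_qO_Z {s i j v : Fin 2} {m : Mat} (h : m ∈ H (iota0 (vZ i s)) (iota0 (qO j v))) :
    ∃ w ∈ WW 1 1 (1 + j.val - i.val), m = mW s v w := by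
  rw [iota0_qO, show iota0 (vZ i s) = (Tau.Z s, i) from rfl, H] at h
  obtain ⟨w, hw, rfl⟩ := h
  exact ⟨w, hw, rfl⟩

theorem mem_qO_X {s i j v : Fin 2} {G : PP} (hi : i ≤ j) (hG : G ∈ PX 0 0 (j.val - i.val)) :
    mX s v G ∈ H (iota0 (vX 0 0 i s)) (iota0 (qO j v)) := by
  show mX s v G ∈ H (Tau.X 0 0 s, i) (Tau.X 0 0 v, j)
  rw [H, if_pos ⟨le_rfl, le_rfl, hi⟩]
  exact ⟨G, by simpa using hG, rfl⟩

theorem mem_qO_Z {s i j v : Fin 2} {w : SW} (hw : w ∈ WW 1 1 (1 + j.val - i.val)) :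
    mW s v w ∈ H (iota0 (vZ i s)) (iota0 (qO j v)) := by
  rw [iota0_qO, show iota0 (vZ i s) = (Tau.Z s, i) from rfl, H]
  exact ⟨w, hw, rfl⟩

theorem euler_W0_inj {n : ℕ} {p q : QE} (hp : p ∈ W0 1 1 n) (hq : q ∈ W0 1 1 n)
    (h : (TrivSqZeroExt.inl X + DualNumber.eps) * p + q = 0) : p = 0 := by
  obtain ⟨p1, p2, p3⟩ := hp
  obtain ⟨q1, q2, q3⟩ := hq
  simp only [Nat.sub_self] at p3 q3
  have f := congrArg TrivSqZeroExt.fst h
  have s := congrArg TrivSqZeroExt.snd h
  simp at f s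
  have fq : ∀ i, 2 ≤ i → q.fst.coeff i = 0 := fun i hi =>
    Polynomial.ext fun j => by simpa using q1 i j (.inl (by omega))
  have hp1 : p.fst.coeff 1 = 0 := by
    simpa [coeff_X_mul, fq] using congrArg (fun r => r.coeff 2) f
  have hp0 : p.fst.coeff 0 = -q.fst.coeff 1 := by
    have := congrArg (fun r => r.coeff 1) f
    simp [coeff_X_mul] at this
    exact eq_neg_of_add_eq_zero_left this
  have h0 := congrArg (fun r => r.coeff 0) s
  simp [q3, hp0] at h0
  have hq1 : q.fst.coeff 1 = 0 := by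
    have e : X * q.fst.coeff 1 = 0 := by linear_combination h0
    exact (mul_eq_zero.1 e).resolve_left X_ne_zero
  refine TrivSqZeroExt.ext (Polynomial.ext fun i => ?_) (Polynomial.ext fun i => ?_)
  · rcases i with - | (- | i)
    · simp [hp0, hq1]
    · simp [hp1]
    · simpa using Polynomial.ext fun j => by simpa using p1 (i + 1 + 1) j (.inl (by omega))
  · rcases i with - | i
    · simp [p3, hp1]
    · simpa using Polynomial.ext fun j => by simpa using p2 (i + 1) j (.inl (by omega))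

theorem euler_WW_inj {n : ℕ} {P Q : SW} (hP : P ∈ WW 1 1 n) (hQ : Q ∈ WW 1 1 n)
    (h : (qq X + et) * P + Q = 0) : P = 0 ∧ Q = 0 := by
  have h1 : P.fst = 0 := euler_W0_inj hP.1 hQ.1 (by
    simpa [fst_qq, fst_et] using congrArg TrivSqZeroExt.fst h)
  have h2 : P.snd = 0 := euler_W0_inj hP.2 hQ.2 (by
    simpa [fst_qq, fst_et, snd_qq, snd_et] using congrArg TrivSqZeroExt.snd h)
  have hP0 : P = 0 := TrivSqZeroExt.ext (by simp [h1]) (by simp [h2])
  subst hP0
  exact ⟨rfl, by simpa using h⟩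

theorem euler_PX_inj {J : ℕ} {G G' : PP} (hG : G ∈ PX 0 0 J) (hG' : G' ∈ PX 0 0 J)
    (h : G * yP + G' = 0) : G = 0 ∧ G' = 0 := by
  have z : ∀ F ∈ PX 0 0 J, ∀ b, 1 ≤ b → F.coeff b = 0 := fun F hF b hb =>
    Polynomial.ext fun a => Polynomial.ext fun j => by simpa using hF b a j (.inl (by omega))
  have h0 : G.coeff 0 = 0 := by
    simpa [yP, coeff_mul_X, z G' hG' 1 le_rfl] using congrArg (fun r => r.coeff 1) h
  have hG0 : G = 0 := Polynomial.ext fun b => by
    rcases b with - | b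
    · simpa using h0
    · simpa using z G hG (b + 1) (by omega)
  subst hG0
  exact ⟨rfl, by simpa using h⟩

theorem rE_injective (j v : Fin 2) : Function.Injective (rE j v) := by
  rw [injective_iff_map_eq_zero]
  intro g hg
  have key : ∀ u, g.1.val u = 0 ∧ g.2.val u = 0 := fun u => by
    have h := (rE_val j v g u).symm.trans (congrArg (fun f => f.val u) hg)
    obtain ⟨τ, i⟩ := u
    cases τ with
    | X a b s =>
      rcases H_qO_cases (g.1.mem (vX a b i s)) with h1 | ⟨rfl, rfl, G, hG, hG'⟩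
      · rcases H_qO_cases (g.2.mem (vX a b i s)) with h2 | ⟨rfl, rfl, G, hG, hG'⟩
        · exact ⟨h1, h2⟩
        · rw [h1, hG', zero_mul, zero_add, mX_self_mul, mul_one] at h
          exact ⟨h1, hG'.trans h⟩
      · rcases H_qO_cases (g.2.mem (vX 0 0 i s)) with h2 | ⟨-, -, F, hF, hF'⟩
        · rw [hG', h2, zero_mul, add_zero, mX_self_mul] at h
          have hG0 : G * yP + 0 = 0 := by
            rw [add_zero]; exact mX_injective (h.trans (map_zero _).symm)
          exact ⟨by rw [hG', (euler_PX_inj hG (Submodule.zero_mem _) hG0).1, map_zero], h2⟩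
        · rw [hG', hF', mX_self_mul, mX_self_mul, mul_one, ← map_add] at h
          obtain ⟨e1, e2⟩ := euler_PX_inj hG hF (mX_injective (h.trans (map_zero _).symm))
          exact ⟨by rw [hG', e1, map_zero], by rw [hF', e2, map_zero]⟩
    | Z s =>
      obtain ⟨P, hP, hP'⟩ := H_qO_Z (g.1.mem (vZ i s))
      obtain ⟨Q, hQ, hQ'⟩ := H_qO_Z (g.2.mem (vZ i s))
      rw [hP', hQ', mW_mul_yP, mW_mul_one, ← map_add] at h
      obtain ⟨e1, e2⟩ := euler_WW_inj hP hQ (mW_injective (h.trans (map_zero _).symm))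
      exact ⟨by rw [hP', e1, map_zero], by rw [hQ', e2, map_zero]⟩
  exact Prod.ext (Col.ext fun u => (key u).1) (Col.ext fun u => (key u).2)

theorem cd_rE_val (j v : Fin 2) (g : Col (iota0 (qO j v)) × Col (iota0 (qO j v))) (u : Vtx 2) :
    cd u.1 (Tau.X 0 1 v) ((rE j v g).val u) = 0 := by
  rw [rE_val]
  obtain ⟨τ, i⟩ := u
  cases τ with
  | X a b s =>
    by_cases hab : a = 0 ∧ b = 1
    · obtain ⟨rfl, rfl⟩ := hab
      have z : ∀ f : Col (iota0 (qO j v)), f.val (vX 0 1 i s) = 0 := fun f => by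
        rcases H_qO_cases (f.mem (vX 0 1 i s)) with h | ⟨-, h, -⟩
        · exact h
        · exact absurd h (by decide)
      rw [z g.1, z g.2, zero_mul, zero_mul, add_zero, map_zero]
    · simp [cd, hab]
  | Z s =>
    obtain ⟨P, hP, hP'⟩ := H_qO_Z (g.1.mem (vZ i s))
    obtain ⟨Q, hQ, hQ'⟩ := H_qO_Z (g.2.mem (vZ i s))
    rw [hP', hQ', mW_mul_yP, mW_mul_one, map_add, cd_W, cd_W, lam2_y_mul, lam2_one hQ, add_zero]

theorem exists_rE_val {j v : Fin 2} (f : Col (iota0 (qX j v))) (u : Vtx 2)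
    (h : cd u.1 (Tau.X 0 1 v) (f.val u) = 0) :
    ∃ g₀ g₁, g₀ ∈ H (iota0 u) (iota0 (qO j v)) ∧ g₁ ∈ H (iota0 u) (iota0 (qO j v)) ∧
      g₀ * mX v v yP + g₁ * mX v v 1 = f.val u := by
  obtain ⟨τ, i⟩ := u
  cases τ with
  | X a b s =>
    rcases H_qX_cases (f.mem (vX a b i s)) with h0 | ⟨rfl, G, hG, hG', hi⟩
    · exact ⟨0, 0, Submodule.zero_mem _, Submodule.zero_mem _, by simp [h0]⟩
    rcases (by omega : b = 0 ∨ b = 1) with rfl | rfl
    · simp only [Fin.val_zero, Nat.sub_zero] at hG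
      have hd : G.divX ∈ PX 0 0 (j.val - i.val) := fun b' a' j' hb => by
        rw [coeff_divX]; exact hG (b' + 1) a' j' (by omega)
      have hc : C (G.coeff 0) ∈ PX 0 0 (j.val - i.val) := fun b' a' j' hb => by
        rcases b' with - | b'
        · rw [coeff_C_zero]; exact hG 0 a' j' (by omega)
        · simp [coeff_C]
      refine ⟨_, _, mem_qO_X hi hd, mem_qO_X hi hc, ?_⟩
      rw [mX_self_mul, mX_self_mul, ← map_add, hG', mul_one]
      exact congrArg _ (divX_mul_X_add G)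
    · simp only [Fin.val_one, Nat.sub_self] at hG
      rw [hG', cd_X] at h
      refine ⟨0, 0, Submodule.zero_mem _, Submodule.zero_mem _, ?_⟩
      rw [hG', c01_eq_zero (by omega) hG h]
      simp
  | Z s =>
    obtain ⟨w, hw, hw'⟩ := H_qX_Z (f.mem (vZ i s))
    rw [hw', cd_W] at h
    obtain ⟨P, hP, Q, hQ, hPQ⟩ := lam2_decomp hw h
    exact ⟨_, _, mem_qO_Z hP, mem_qO_Z hQ, by rw [mW_mul_yP, mW_mul_one, ← map_add, hPQ, hw']⟩

theorem mem_range_rE {j v : Fin 2} (f : Col (iota0 (qX j v))) :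
    f ∈ LinearMap.range (rE j v) ↔ ∀ u, cd u.1 (Tau.X 0 1 v) (f.val u) = 0 := by
  constructor
  · rintro ⟨g, rfl⟩ u
    exact cd_rE_val j v g u
  · intro h
    choose g₀ g₁ h0 h1 he using fun u => exists_rE_val f u (h u)
    exact ⟨(Col.mk g₀ h0, Col.mk g₁ h1), Col.ext fun u => by rw [rE_val]; exact he u⟩

/-- classes in `E(j,v)` are determined by coordinates -/
theorem EE_mk_eq_zero {j v : Fin 2} (f : Col (iota0 (qX j v))) :
    (Submodule.Quotient.mk f : EE j v) = 0 ↔ ∀ u, cd u.1 (Tau.X 0 1 v) (f.val u) = 0 :=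
  (Submodule.Quotient.mk_eq_zero _).trans (mem_range_rE f)

theorem ev_two_E (j v : Fin 2) {n : ℕ} (hn : 2 ≤ n) (Y : ModuleCat.{0} AP) :
    EV n (ModuleCat.of AP (EE j v)) Y := ev_two_EE j v (rE_injective j v) hn Y

end

end Vale.Agent.P195.C0E
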