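import Vale.Agent.P195.C0Range

/-!
The resolution of `C₀` by the modules `E(j,v)` and the columns at `Z`-vertices (P195): definition.
-/

namespace Vale.Agent.P195.C0E

open Matrix MulOpposite CategoryTheory

noncomputable section

/-- the parity of `n`, as a vertex of the two-cycle -/
def par : ℕ → Fin 2
  | 0 => 0
  | 1 => 1
  | n + 2 => par n

theorem par_ne : ∀ n, par (n + 1) ≠ par n
  | 0 => by decide
  | 1 => by decide
  | n + 2 => par_ne n

theorem mem_OO {j j' v v' : Fin 2} {G : PP} (hj : j ≤ j') (hG : G ∈ PX 0 0 (j'.val - j.val)) :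
    mX v v' G ∈ H (iota0 (qO j v)) (iota0 (qO j' v')) := by
  show mX v v' G ∈ H (Tau.X 0 0 v, j) (Tau.X 0 0 v', j')
  rw [H, if_pos ⟨le_rfl, le_rfl, hj⟩]
  exact ⟨G, by simpa using hG, rfl⟩

theorem mem_XX {j j' v v' : Fin 2} {G : PP} (hj : j ≤ j') (hG : G ∈ PX 0 0 (j'.val - j.val)) :
    mX v v' G ∈ H (iota0 (qX j v)) (iota0 (qX j' v')) := by
  show mX v v' G ∈ H (Tau.X 0 1 v, j) (Tau.X 0 1 v', j')
  rw [H, if_pos ⟨le_rfl, le_rfl, hj⟩]
  exact ⟨G, by simpa using hG, rfl⟩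

theorem mem_ZZ {i i' v v' : Fin 2} {G : PP} (hi : i ≤ i') (hG : G ∈ PX 0 0 (i'.val - i.val)) :
    mZ v v' G ∈ H (iota0 (vZ i v)) (iota0 (vZ i' v')) := by
  show mZ v v' G ∈ H (Tau.Z v, i) (Tau.Z v', i')
  rw [H, if_pos hi]
  exact ⟨G, hG, rfl⟩

theorem mem_ZX {i j v w : Fin 2} (c : ℂ × ℂ) :
    mW v w (wP c) ∈ H (iota0 (vZ i v)) (iota0 (qX j w)) := by
  show mW v w (wP c) ∈ H (Tau.Z v, i) (Tau.X 0 1 w, j)
  rw [H]
  exact ⟨wP c, wP_mem c _, rfl⟩

/-- right multiplication between the modules `E(j,v)` -/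
def mapE {j j' v v' : Fin 2} (G : PP) (hj : j ≤ j') (hG : G ∈ PX 0 0 (j'.val - j.val)) :
    EE j v →ₗ[AP] EE j' v' :=
  (LinearMap.range (rE j v)).mapQ (LinearMap.range (rE j' v'))
    (Col.map (mX v v' G) (mem_XX hj hG)) (by
      rintro _ ⟨g, rfl⟩
      refine ⟨(Col.map _ (mem_OO hj hG) g.1, Col.map _ (mem_OO hj hG) g.2), Col.ext fun u => ?_⟩
      rw [rE_val, Col.map_val, Col.map_val, Col.map_val, rE_val, add_mul, mul_assoc, mul_assoc,
        mul_assoc, mul_assoc, mX_mul_mX, mX_mul_mX, mX_mul_mX, mX_mul_mX, if_pos (Or.inr rfl),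
        if_pos (Or.inr rfl), if_pos (Or.inl rfl), if_pos (Or.inl rfl), mul_comm G yP,
        mul_comm G 1])

theorem mapE_mk {j j' v v' : Fin 2} (G : PP) (hj : j ≤ j') (hG : G ∈ PX 0 0 (j'.val - j.val))
    (f : Col (iota0 (qX j v))) :
    mapE (v' := v') G hj hG (Submodule.Quotient.mk f) =
      Submodule.Quotient.mk (Col.map (mX v v' G) (mem_XX hj hG) f) := rfl

/-- the maps from the columns at `Z` to `E(j,w)` -/
def phiE {i j v w : Fin 2} (c : ℂ × ℂ) : Col (iota0 (vZ i v)) →ₗ[AP] EE j w :=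
  (LinearMap.range (rE j w)).mkQ ∘ₗ Col.map (mW v w (wP c)) (mem_ZX c)

theorem phiE_apply {i j v w : Fin 2} (c : ℂ × ℂ) (f : Col (iota0 (vZ i v))) :
    phiE (j := j) (w := w) c f = Submodule.Quotient.mk (Col.map (mW v w (wP c)) (mem_ZX c) f) :=
  rfl

/-- the full terms -/
abbrev Ft (n : ℕ) : Type :=
  EE 1 (par n) × EE 0 (par (n + 1)) × Col (iota0 (vZ 1 (par n))) ×
    Col (iota0 (vZ 0 (par (n + 1))))

/-- the scalar attached to `Z(0)` in degree `n + 1` -/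
def gam (n : ℕ) : ℂ := -((n / 2 : ℕ) : ℂ)

theorem one_mem_PX00 (J : ℕ) : (1 : PP) ∈ PX 0 0 J := one_mem_PX 0 0 J

theorem zP_mem' : zP ∈ PX 0 0 ((1 : Fin 2).val - (0 : Fin 2).val) := by simpa using zP_mem

/-- first component -/
def pA (n : ℕ) : Ft n →ₗ[AP] EE 1 (par n) := LinearMap.fst AP _ _
/-- second component -/
def pB (n : ℕ) : Ft n →ₗ[AP] EE 0 (par (n + 1)) := LinearMap.fst AP _ _ ∘ₗ LinearMap.snd AP _ _
/-- third component -/
def pC (n : ℕ) : Ft n →ₗ[AP] Col (iota0 (vZ 1 (par n))) :=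
  LinearMap.fst AP _ _ ∘ₗ LinearMap.snd AP _ _ ∘ₗ LinearMap.snd AP _ _
/-- fourth component -/
def pD (n : ℕ) : Ft n →ₗ[AP] Col (iota0 (vZ 0 (par (n + 1)))) :=
  LinearMap.snd AP _ _ ∘ₗ LinearMap.snd AP _ _ ∘ₗ LinearMap.snd AP _ _

theorem pA_apply (n : ℕ) (x : Ft n) : pA n x = x.1 := rfl
theorem pB_apply (n : ℕ) (x : Ft n) : pB n x = x.2.1 := rfl
theorem pC_apply (n : ℕ) (x : Ft n) : pC n x = x.2.2.1 := rfl
theorem pD_apply (n : ℕ) (x : Ft n) : pD n x = x.2.2.2 := rfl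

/-- the differential into the first component -/
def rawA (n : ℕ) : Ft (n + 1) →ₗ[AP] EE 1 (par n) :=
  mapE (v := par (n + 1)) (v' := par n) 1 le_rfl (one_mem_PX00 _) ∘ₗ pA (n + 1) +
    mapE (v := par n) (v' := par n) zP (Fin.zero_le _) zP_mem' ∘ₗ pB (n + 1) +
    phiE (v := par n) (gam n, 0) ∘ₗ pD (n + 1)

/-- the differential into the second component -/
def rawB (n : ℕ) : Ft (n + 1) →ₗ[AP] EE 0 (par (n + 1)) :=
  -(mapE (v := par n) (v' := par (n + 1)) 1 le_rfl (one_mem_PX00 _) ∘ₗ pB (n + 1)) +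
    phiE (v := par (n + 1)) (1, 0) ∘ₗ pC (n + 1) + phiE (v := par n) (1, 0) ∘ₗ pD (n + 1)

/-- the differential into the third component -/
def rawC (n : ℕ) : Ft (n + 1) →ₗ[AP] Col (iota0 (vZ 1 (par n))) :=
  Col.map (mZ (par (n + 1)) (par n) 1) (mem_ZZ le_rfl (one_mem_PX00 _)) ∘ₗ pC (n + 1) +
    Col.map (mZ (par n) (par n) zP) (mem_ZZ (Fin.zero_le _) zP_mem') ∘ₗ pD (n + 1)

/-- the differential into the fourth component -/
def rawD (n : ℕ) : Ft (n + 1) →ₗ[AP] Col (iota0 (vZ 0 (par (n + 1)))) :=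
  -(Col.map (mZ (par n) (par (n + 1)) 1) (mem_ZZ le_rfl (one_mem_PX00 _)) ∘ₗ pD (n + 1))

/-- the differential before truncation -/
def raw (n : ℕ) : Ft (n + 1) →ₗ[AP] Ft n :=
  (rawA n).prod ((rawB n).prod ((rawC n).prod (rawD n)))

/-- the truncation -/
def cut (n : ℕ) : Ft n →ₗ[AP] Ft n :=
  LinearMap.prod (LinearMap.fst AP _ _)
    (LinearMap.prod
      (if n = 0 then 0 else (LinearMap.fst AP _ _) ∘ₗ (LinearMap.snd AP _ _))
      (LinearMap.prod
        (if n < 2 then 0 else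
          (LinearMap.fst AP _ _) ∘ₗ (LinearMap.snd AP _ _) ∘ₗ (LinearMap.snd AP _ _))
        (if n < 3 then 0 else
          (LinearMap.snd AP _ _) ∘ₗ (LinearMap.snd AP _ _) ∘ₗ (LinearMap.snd AP _ _))))

/-- the terms of the resolution -/
def Tsub (n : ℕ) : Submodule AP (Ft n) where
  carrier := {x | cut n x = x}
  zero_mem' := map_zero (cut n)
  add_mem' := fun {a b} ha hb => by
    show cut n (a + b) = a + b
    rw [map_add, ha, hb]
  smul_mem' := fun r a ha => by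
    show cut n (r • a) = r • a
    rw [map_smul, ha]

theorem cut_mem (n : ℕ) (x : Ft n) : cut n x ∈ Tsub n := by
  show cut n (cut n x) = cut n x
  unfold cut
  split_ifs <;> simp

/-- the terms as objects -/
abbrev TT (n : ℕ) : ModuleCat.{0} AP := ModuleCat.of AP (Tsub n)

/-- the differentials -/
def dd (n : ℕ) : TT (n + 1) →ₗ[AP] TT n :=
  LinearMap.codRestrict (Tsub n) (cut n ∘ₗ raw n ∘ₗ (Tsub (n + 1)).subtype)
    fun _ => cut_mem n _

theorem euler_kill (y : C0) (g : Col (iota0 (qO 1 0)) × Col (iota0 (qO 1 0))) :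
    Col.lift (qX 1 0) y (rE 1 0 g) = 0 := by
  rw [rE, LinearMap.coprod_apply, map_add, Col.lift_map, Col.lift_map]
  have z : ∀ (m : Mat) (h : m ∈ H (iota0 (qO 1 0)) (iota0 (qX 1 0))),
      (Cor.single (qO 1 0) (qX 1 0) m h • y : C0) = 0 := fun m h => by
    refine (congrArg C0.of (funext fun p => ?_) : C0.of _ = C0.of (0 : Fin 2 × Fin 2 → ℂ))
    rw [Matrix.mulVec, dotProduct]
    refine Finset.sum_eq_zero fun q _ => ?_
    rw [chi_apply, Cor.val_single, Matrix.single_apply_of_ne, map_zero, zero_mul]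
    rintro ⟨h1, -⟩
    obtain ⟨s, i⟩ := p
    rcases (by omega : s = 0 ∨ s = 1) with rfl | rfl <;> simp [supp0] at h1
  rw [z, z]
  simp [Col.lift_apply]

/-- the augmentation before restriction -/
def augE : EE 1 0 →ₗ[AP] C0 :=
  (LinearMap.range (rE 1 0)).liftQ (Col.lift (qX 1 0) (C0.of (Pi.single (0, 1) 1))) (by
    rintro _ ⟨g, rfl⟩
    exact euler_kill _ g)

/-- the augmentation -/
def aug : TT 0 →ₗ[AP] ModuleCat.of AP C0 :=
  augE ∘ₗ (LinearMap.fst AP _ _) ∘ₗ (Tsub 0).subtype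

theorem ev_TT {Y : ModuleCat.{0} AP} (k : ℕ) {n : ℕ} (hn : 2 ≤ n) : EV n (TT k) Y := by
  have hc : ∀ x : Tsub k, cut k x.1 = x.1 := fun x => x.2
  have e1 : EV n (ModuleCat.of AP (EE 1 (par k))) Y := ev_two_E 1 _ hn Y
  refine ev_of_factor_left (ι := Fin 4)
    ![ModuleCat.of AP (EE 1 (par k)), ModuleCat.of AP (EE 0 (par (k + 1))),
      ModuleCat.of AP (Col (iota0 (vZ 1 (par k)))),
      ModuleCat.of AP (Col (iota0 (vZ 0 (par (k + 1)))))]
    (Fin.cases ((LinearMap.fst AP _ _) ∘ₗ (Tsub k).subtype) <|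
      Fin.cases ((LinearMap.fst AP _ _) ∘ₗ (LinearMap.snd AP _ _) ∘ₗ (Tsub k).subtype) <|
      Fin.cases ((LinearMap.fst AP _ _) ∘ₗ (LinearMap.snd AP _ _) ∘ₗ (LinearMap.snd AP _ _) ∘ₗ
        (Tsub k).subtype) <|
      Fin.cases ((LinearMap.snd AP _ _) ∘ₗ (LinearMap.snd AP _ _) ∘ₗ (LinearMap.snd AP _ _) ∘ₗ
        (Tsub k).subtype) (fun i => i.elim0))
    (Fin.cases (LinearMap.codRestrict (Tsub k) (cut k ∘ₗ LinearMap.inl AP _ _)
        fun _ => cut_mem k _) <|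
      Fin.cases (LinearMap.codRestrict (Tsub k)
        (cut k ∘ₗ LinearMap.inr AP _ _ ∘ₗ LinearMap.inl AP _ _) fun _ => cut_mem k _) <|
      Fin.cases (LinearMap.codRestrict (Tsub k)
        (cut k ∘ₗ LinearMap.inr AP _ _ ∘ₗ LinearMap.inr AP _ _ ∘ₗ LinearMap.inl AP _ _)
          fun _ => cut_mem k _) <|
      Fin.cases (LinearMap.codRestrict (Tsub k)
        (cut k ∘ₗ LinearMap.inr AP _ _ ∘ₗ LinearMap.inr AP _ _ ∘ₗ LinearMap.inr AP _ _)
          fun _ => cut_mem k _) (fun i => i.elim0))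
    ?_ ?_
  · intro y
    refine Subtype.ext ?_
    rw [Fin.sum_univ_four]
    conv_rhs => rw [← hc y]
    rw [Submodule.coe_add, Submodule.coe_add, Submodule.coe_add]
    show cut k _ + cut k _ + cut k _ + cut k _ = cut k y.1
    rw [← map_add, ← map_add, ← map_add]
    congr 1
    show ((y.1.1, 0) : Ft k) + (0, (y.1.2.1, 0)) + (0, (0, (y.1.2.2.1, 0))) +
      (0, (0, (0, y.1.2.2.2))) = y.1
    simp
  · intro i
    fin_cases i
    · exact e1
    · exact ev_two_E 0 _ hn Y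
    · exact ev_of_module_projective (by omega) Y
    · exact ev_of_module_projective (by omega) Y

/-- EXACTNESS of the resolution -/
def SpecResExact : Prop :=
  Function.Surjective aug ∧ Function.Exact (dd 0) aug ∧ ∀ n, Function.Exact (dd (n + 1)) (dd n)

end

end Vale.Agent.P195.C0E
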