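import Vale.Agent.P195.Defs

/-!
Closure of the morphism spaces under multiplication, and the corner algebras.
-/

namespace Vale.Agent.P195

open Polynomial Matrix

noncomputable section

theorem ep_mul_ep : ep * ep = 0 := DualNumber.eps_mul_eps

theorem fst_qq (f : Qx) : (qq f).fst = TrivSqZeroExt.inl f := rfl
theorem snd_qq (f : Qx) : (qq f).snd = 0 := rfl
theorem fst_ep : ep.fst = 0 := rfl
theorem snd_ep : ep.snd = 1 := rfl
theorem fst_et : et.fst = DualNumber.eps := rfl
theorem snd_et : et.snd = 0 := rfl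

theorem dg_apply (G : PP) : dg G = diagonal ![(G, pl G), (G, sg G)] := by
  simp only [dg, AlgHom.comp_apply, diagonalAlgHom_apply]
  congr 1
  funext i
  fin_cases i <;> rfl

theorem W0_le {d e n n' : ℕ} (h : n ≤ n') : W0 d e n ≤ W0 d e n' :=
  fun w ⟨h1, h2, h3⟩ => ⟨fun i j k => h1 i j (by omega), fun i j k => h2 i j (by omega), h3⟩

theorem W0_pad {d e e' n : ℕ} : W0 d e n ≤ W0 (d + 1) e' n := by
  rintro w ⟨h1, h2, -⟩
  refine ⟨fun i j k => h1 i j (by omega), fun i j k => h2 i j (by omega), ?_⟩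
  have a : w.snd.coeff d = 0 := Polynomial.ext fun j => by simpa using h2 d j (.inl le_rfl)
  have b : w.fst.coeff (d + 1) = 0 :=
    Polynomial.ext fun j => by simpa using h1 (d + 1) j (.inl d.lt_succ_self)
  simp [a, b]

theorem W0_z {d e n : ℕ} {w : QE} (h : w ∈ W0 d e n) :
    TrivSqZeroExt.inl (C X) * w ∈ W0 d e (n + 1) := by
  obtain ⟨h1, h2, h3⟩ := h
  refine ⟨fun i j k => ?_, fun i j k => ?_, ?_⟩
  · rcases j with - | j
    · simp
    · simp [coeff_X_mul, h1 i j (by omega)]
  · rcases j with - | j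
    · simp
    · simp [coeff_X_mul, h2 i j (by omega)]
  · simp [h3]; ring

theorem W0_x {d e n : ℕ} {w : QE} (h : w ∈ W0 (d + 1) e n) :
    TrivSqZeroExt.inl X * w ∈ W0 (d + 1 + 1) e n := by
  obtain ⟨h1, h2, h3⟩ := h
  refine ⟨fun i j k => ?_, fun i j k => ?_, ?_⟩
  · rcases i with - | i
    · simp
    · simp [coeff_X_mul, h1 i j (by omega)]
  · rcases i with - | i
    · simp
    · simp [coeff_X_mul, h2 i j (by omega)]
  · simpa [coeff_X_mul] using h3

theorem W0_y {d e n : ℕ} {w : QE} (h : w ∈ W0 (d + 1) e n) :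
    (TrivSqZeroExt.inl X + DualNumber.eps) * w ∈ W0 (d + 1 + 1) (e + 1) n := by
  obtain ⟨h1, h2, h3⟩ := h
  refine ⟨fun i j k => ?_, fun i j k => ?_, ?_⟩
  · rcases i with - | i
    · simp
    · simp [coeff_X_mul, h1 i j (by omega)]
  · rcases i with - | i
    · simp [h1 0 j (by omega)]
    · simp [coeff_X_mul, h2 i j (by omega), h1 (i + 1) j (by omega)]
  · simp only [Nat.add_sub_cancel] at h3 ⊢
    simp [coeff_X_mul, h3]
    ring

theorem WW_le {d e n n' : ℕ} (h : n ≤ n') : WW d e n ≤ WW d e n' :=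
  fun _ hw => ⟨W0_le h hw.1, W0_le h hw.2⟩

theorem WW_pad {d e e' n : ℕ} : WW d e n ≤ WW (d + 1) e' n :=
  fun _ hw => ⟨W0_pad hw.1, W0_pad hw.2⟩

theorem WW_ep {d e n : ℕ} {w : SW} (h : w ∈ WW d e n) : ep * w ∈ WW d e n := by
  constructor
  · simp [fst_ep]
  · simpa [fst_ep, snd_ep] using h.1

theorem WW_qq {d e n d' e' n' : ℕ} {w : SW} (f : Qx)
    (hf : ∀ v ∈ W0 d e n, TrivSqZeroExt.inl f * v ∈ W0 d' e' n') (h : w ∈ WW d e n) :
    qq f * w ∈ WW d' e' n' := by
  constructor
  · simpa [fst_qq] using hf _ h.1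
  · simpa [fst_qq, snd_qq] using hf _ h.2

theorem WW_z {d e n : ℕ} {w : SW} (h : w ∈ WW d e n) : qq (C X) * w ∈ WW d e (n + 1) :=
  WW_qq _ (fun _ => W0_z) h

theorem WW_zep {d e n : ℕ} {w : SW} (h : w ∈ WW d e n) :
    (qq (C X) + ep) * w ∈ WW d e (n + 1) := by
  rw [add_mul]
  exact (WW d e (n + 1)).add_mem (WW_z h) (WW_le (Nat.le_succ n) (WW_ep h))

theorem WW_x {d e n : ℕ} {w : SW} (h : w ∈ WW (d + 1) e n) :
    qq X * w ∈ WW (d + 1 + 1) e n :=
  WW_qq _ (fun _ => W0_x) h

theorem WW_y {d e n : ℕ} {w : SW} (h : w ∈ WW (d + 1) e n) :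
    (qq X + et) * w ∈ WW (d + 1 + 1) (e + 1) n := by
  constructor
  · simpa [fst_qq, fst_et, add_mul] using W0_y h.1
  · simpa [fst_qq, fst_et, snd_qq, snd_et, add_mul] using W0_y h.2

/-- the monomial `c zʲ xᵃ yᵇ` -/
def mono (b a j : ℕ) (c : ℂ) : PP := C (C (C c * X ^ j) * X ^ a) * X ^ b

theorem PX_induction {A B J : ℕ} {p : PP → Prop} (h0 : p 0) (hadd : ∀ f g, p f → p g → p (f + g))
    (hm : ∀ b a j c, b ≤ B → a ≤ A → j ≤ J → p (mono b a j c)) {G : PP} (hG : G ∈ PX A B J) :
    p G := by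
  have hsum : ∀ {ι : Type} (s : Finset ι) (f : ι → PP), (∀ i ∈ s, p (f i)) → p (∑ i ∈ s, f i) :=
    fun s f h => Finset.sum_induction f p hadd h0 h
  have e1 : G = ∑ b ∈ G.support, C (G.coeff b) * X ^ b := G.as_sum_support_C_mul_X_pow
  rw [e1]
  refine hsum _ _ fun b _ => ?_
  have e2 : G.coeff b = ∑ a ∈ (G.coeff b).support, C ((G.coeff b).coeff a) * X ^ a :=
    (G.coeff b).as_sum_support_C_mul_X_pow
  rw [e2, map_sum, Finset.sum_mul]
  refine hsum _ _ fun a _ => ?_
  have e3 : (G.coeff b).coeff a =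
      ∑ j ∈ ((G.coeff b).coeff a).support, C (((G.coeff b).coeff a).coeff j) * X ^ j :=
    ((G.coeff b).coeff a).as_sum_support_C_mul_X_pow
  rw [e3, map_sum, Finset.sum_mul, map_sum, Finset.sum_mul]
  refine hsum _ _ fun j hj => ?_
  have hne := Polynomial.mem_support_iff.1 hj
  refine hm b a j _ ?_ ?_ ?_ <;> by_contra hlt <;> exact hne (hG b a j (by omega))

theorem mono_mem {A B J b a j : ℕ} (hb : b ≤ B) (ha : a ≤ A) (hj : j ≤ J) (c : ℂ) :
    mono b a j c ∈ PX A B J := by
  intro b' a' j' h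
  rw [mono, coeff_C_mul_X_pow]
  split_ifs with hb'
  · rw [coeff_C_mul_X_pow]
    split_ifs with ha'
    · rw [coeff_C_mul_X_pow, if_neg (by omega)]
    · simp
  · simp

theorem mono_mul (b a j : ℕ) (c : ℂ) (b' a' j' : ℕ) (c' : ℂ) :
    mono b a j c * mono b' a' j' c' = mono (b + b') (a + a') (j + j') (c * c') := by
  simp only [mono, map_mul, map_pow, pow_add]
  ring

theorem PX_mul {A B J A' B' J' : ℕ} {G G' : PP} (hG : G ∈ PX A B J) (hG' : G' ∈ PX A' B' J') :
    G * G' ∈ PX (A + A') (B + B') (J + J') := by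
  refine PX_induction (p := fun G => G * G' ∈ PX (A + A') (B + B') (J + J')) (by simp)
    (fun f g hf hg => by simpa [add_mul] using Submodule.add_mem _ hf hg) ?_ hG
  intro b a j c hb ha hj
  refine PX_induction (p := fun G' => mono b a j c * G' ∈ PX (A + A') (B + B') (J + J')) (by simp)
    (fun f g hf hg => by simpa [mul_add] using Submodule.add_mem _ hf hg) ?_ hG'
  intro b' a' j' c' hb' ha' hj'
  rw [mono_mul]
  exact mono_mem (by omega) (by omega) (by omega) _

theorem one_mem_PX (A B J : ℕ) : (1 : PP) ∈ PX A B J := by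
  simpa [mono] using mono_mem (Nat.zero_le B) (Nat.zero_le A) (Nat.zero_le J) (1 : ℂ)

/-- the evaluation attached to a choice of the image of `z` -/
def evz (Z : SW) : PP →ₐ[ℂ] SW := aevalTower (aevalTower (aeval Z) (qq X)) (qq X + et)

theorem pl_eq : pl = evz (qq (C X)) := rfl
theorem sg_eq : sg = evz (qq (C X) + ep) := rfl

theorem evz_mono (Z : SW) (b a j : ℕ) (c : ℂ) :
    evz Z (mono b a j c) = algebraMap ℂ SW c * Z ^ j * qq X ^ a * (qq X + et) ^ b := by
  simp [evz, mono, map_mul, map_pow]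

theorem WW_powZ {Z : SW} (hZ : ∀ {d e n} {w : SW}, w ∈ WW d e n → Z * w ∈ WW d e (n + 1))
    {d e n : ℕ} {w : SW} (hw : w ∈ WW d e n) (j : ℕ) : Z ^ j * w ∈ WW d e (n + j) := by
  induction j with
  | zero => simpa using hw
  | succ j ih => rw [pow_succ', mul_assoc]; exact hZ ih

theorem WW_powX {d e n : ℕ} (hd : 1 ≤ d) {v : SW} (hv : v ∈ WW d e n) (a : ℕ) :
    qq X ^ a * v ∈ WW (d + a) e n := by
  induction a with
  | zero => simpa using hv
  | succ a ih =>
    rw [pow_succ', mul_assoc]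
    obtain ⟨k, hk⟩ : ∃ k, d + a = k + 1 := ⟨d + a - 1, by omega⟩
    rw [show d + (a + 1) = k + 1 + 1 by omega]
    exact WW_x (hk ▸ ih)

theorem WW_powY {d e n : ℕ} (hd : 1 ≤ d) {v : SW} (hv : v ∈ WW d e n) (b : ℕ) :
    (qq X + et) ^ b * v ∈ WW (d + b) (e + b) n := by
  induction b with
  | zero => simpa using hv
  | succ b ih =>
    rw [pow_succ', mul_assoc]
    obtain ⟨k, hk⟩ : ∃ k, d + b = k + 1 := ⟨d + b - 1, by omega⟩
    rw [show d + (b + 1) = k + 1 + 1 by omega, ← add_assoc]
    exact WW_y (hk ▸ ih)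

theorem WW_padk {d e n : ℕ} {v : SW} (hv : v ∈ WW d e n) (k e' : ℕ) (he : k = 0 → e = e') :
    v ∈ WW (d + k) e' n := by
  induction k generalizing e' with
  | zero => simpa [← he rfl] using hv
  | succ k ih => exact WW_pad (ih e (fun _ => rfl))

theorem WW_evz_mono {Z : SW} (hZ : ∀ {d e n} {w : SW}, w ∈ WW d e n → Z * w ∈ WW d e (n + 1))
    {A B J d e n b a j : ℕ} (hd : 1 ≤ d) (hb : b ≤ B) (ha : a ≤ A) (hj : j ≤ J) (c : ℂ) {w : SW}
    (hw : w ∈ WW d e n) : evz Z (mono b a j c) * w ∈ WW (d + A + B) (e + B) (n + J) := by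
  have hcw := Submodule.smul_mem _ c hw
  have h1 := WW_powY (by omega) (WW_powX hd (WW_powZ hZ hcw j) a) b
  have h2 := WW_le (show n + j ≤ n + J by omega)
    (WW_padk h1 ((A - a) + (B - b)) (e + B) (fun hk => by omega))
  rw [show d + a + b + ((A - a) + (B - b)) = d + A + B by omega] at h2
  rw [evz_mono]
  have e2 : algebraMap ℂ SW c * Z ^ j * qq X ^ a * (qq X + et) ^ b * w =
      (qq X + et) ^ b * (qq X ^ a * (Z ^ j * (c • w))) := by
    rw [show c • w = algebraMap ℂ SW c * w from Algebra.smul_def c w]; ring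
  rw [e2]
  exact h2

theorem WW_evz {Z : SW} (hZ : ∀ {d e n} {w : SW}, w ∈ WW d e n → Z * w ∈ WW d e (n + 1))
    {A B J d e n : ℕ} (hd : 1 ≤ d) {G : PP} (hG : G ∈ PX A B J) {w : SW} (hw : w ∈ WW d e n) :
    evz Z G * w ∈ WW (d + A + B) (e + B) (n + J) :=
  PX_induction (p := fun G => evz Z G * w ∈ WW (d + A + B) (e + B) (n + J))
    (by simp only [map_zero, zero_mul]; exact zero_mem _)
    (fun f g hf hg => by rw [map_add, add_mul]; exact Submodule.add_mem _ hf hg)
    (fun _ _ _ c hb ha hj => WW_evz_mono hZ hd hb ha hj c hw) hG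

theorem WW_pl {A B J d e n : ℕ} (hd : 1 ≤ d) {G : PP} (hG : G ∈ PX A B J) {w : SW}
    (hw : w ∈ WW d e n) : pl G * w ∈ WW (d + A + B) (e + B) (n + J) :=
  pl_eq ▸ WW_evz (fun h => WW_z h) hd hG hw

theorem WW_sg {A B J d e n : ℕ} (hd : 1 ≤ d) {G : PP} (hG : G ∈ PX A B J) {w : SW}
    (hw : w ∈ WW d e n) : sg G * w ∈ WW (d + A + B) (e + B) (n + J) :=
  sg_eq ▸ WW_evz (fun h => WW_zep h) hd hG hw

theorem ep_mul_sg (G : PP) : ep * sg G = ep * pl G := by
  induction G using Polynomial.induction_on' with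
  | add f g hf hg => simp [mul_add, hf, hg]
  | monomial b q =>
    induction q using Polynomial.induction_on' with
    | add f g hf hg => simp [mul_add, hf, hg]
    | monomial a r =>
      induction r using Polynomial.induction_on' with
      | add f g hf hg => simp [mul_add, hf, hg]
      | monomial j c =>
        have h : ∀ j, ep * (qq (C X) + ep) ^ j = ep * qq (C X) ^ j := by
          intro j
          induction j with
          | zero => simp
          | succ j ih =>
            calc ep * (qq (C X) + ep) ^ (j + 1)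
                = (ep * (qq (C X) + ep) ^ j) * (qq (C X) + ep) := by ring
              _ = ep * qq (C X) ^ j * qq (C X) + ep * ep * qq (C X) ^ j := by rw [ih]; ring
              _ = ep * qq (C X) ^ (j + 1) := by rw [ep_mul_ep]; ring
        simp only [← C_mul_X_pow_eq_monomial]
        rw [sg_eq, pl_eq, show C (C (C c * X ^ j) * X ^ a) * X ^ b = mono b a j c from rfl,
          evz_mono, evz_mono]
        linear_combination (algebraMap ℂ SW c * qq X ^ a * (qq X + et) ^ b) * h j

theorem ep_mul_sg_assoc (G : PP) (w : SW) : ep * (sg G * w) = ep * (pl G * w) := by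
  rw [← mul_assoc, ep_mul_sg, mul_assoc]

theorem ep_mul_ep_assoc (w : SW) : ep * (ep * w) = 0 := by
  rw [← mul_assoc, ep_mul_ep, zero_mul]

theorem dg_comm_single (G : PP) (v : Fin 2) :
    Matrix.single v v (1 : SS) * dg G = dg G * Matrix.single v v 1 := by
  rw [dg_apply]
  ext i j : 1
  fin_cases v <;> fin_cases i <;> fin_cases j <;> simp [Matrix.mul_apply, Matrix.single]

theorem arrX_dg (v' v : Fin 2) (G : PP) : arrX v' v * dg G = dg G * arrX v' v := by
  unfold arrX; split_ifs
  · simp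
  · exact dg_comm_single G v

theorem arrZ_dg (v' v : Fin 2) (G : PP) : arrZ v' v * dg G = dg G * arrZ v' v := by
  unfold arrZ; split_ifs
  · simp
  · exact dg_comm_single G v'

theorem mX_mul_mX (a b c : Fin 2) (G G' : PP) :
    mX a b G * mX b c G' = if a = b ∨ b = c then mX a c (G * G') else 0 := by
  rw [mX_apply, mX_apply, mX_apply,
    show dg G * arrX a b * (dg G' * arrX b c) = dg G * (arrX a b * dg G') * arrX b c by
      simp [mul_assoc],
    arrX_dg, map_mul]
  fin_cases a <;> fin_cases b <;> fin_cases c <;>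
    simp [arrX, mul_assoc]

theorem mZ_mul_mZ (a b c : Fin 2) (G G' : PP) :
    mZ a b G * mZ b c G' = if a = b ∨ b = c then mZ a c (G * G') else 0 := by
  rw [mZ_apply, mZ_apply, mZ_apply,
    show dg G * arrZ a b * (dg G' * arrZ b c) = dg G * (arrZ a b * dg G') * arrZ b c by
      simp [mul_assoc],
    arrZ_dg, map_mul]
  fin_cases a <;> fin_cases b <;> fin_cases c <;>
    simp [arrZ, mul_assoc]

/-- the element of `W` obtained by multiplying with an element at an `X`-vertex on the right -/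
def wmulX (a b c : Fin 2) (w : SW) (G : PP) : SW :=
  if b = c then (if a = 0 ∧ b = 1 then sg G * w else pl G * w)
  else if b = 1 then (if a = 1 then pl G * w else ep * (pl G * w))
  else (if a = 1 then 0 else ep * (sg G * w))

/-- the element of `W` obtained by multiplying with an element at a `Z`-vertex on the left -/
def wmulZ (a b c : Fin 2) (G : PP) (w : SW) : SW :=
  if a = b then (if a = 0 ∧ c = 1 then pl G * w else sg G * w)
  else if a = 1 then (if c = 0 then sg G * w else ep * (sg G * w))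
  else (if c = 0 then 0 else ep * (pl G * w))

theorem off_mul_diag (x y g h : SS) :
    (!![0, x; y, 0] : Mat) * diagonal ![g, h] = !![0, x * h; y * g, 0] := by
  ext i j : 1
  fin_cases i <;> fin_cases j <;> simp [Matrix.mul_diagonal]

theorem diag_mul_off (x y g h : SS) :
    diagonal ![g, h] * (!![0, x; y, 0] : Mat) = !![0, g * x; h * y, 0] := by
  ext i j : 1
  fin_cases i <;> fin_cases j <;> simp [Matrix.diagonal_mul]

theorem off_mul_single0 (x y : SS) :
    (!![0, x; y, 0] : Mat) * Matrix.single 0 0 1 = !![0, 0; y, 0] := by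
  ext i j : 1
  fin_cases i <;> fin_cases j <;> simp [Matrix.mul_apply, Matrix.single]

theorem off_mul_single1 (x y : SS) :
    (!![0, x; y, 0] : Mat) * Matrix.single 1 1 1 = !![0, x; 0, 0] := by
  ext i j : 1
  fin_cases i <;> fin_cases j <;> simp [Matrix.mul_apply, Matrix.single]

theorem single0_mul_off (x y : SS) :
    Matrix.single 0 0 1 * (!![0, x; y, 0] : Mat) = !![0, x; 0, 0] := by
  ext i j : 1
  fin_cases i <;> fin_cases j <;> simp [Matrix.mul_apply, Matrix.single]

theorem single1_mul_off (x y : SS) :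
    Matrix.single 1 1 1 * (!![0, x; y, 0] : Mat) = !![0, 0; y, 0] := by
  ext i j : 1
  fin_cases i <;> fin_cases j <;> simp [Matrix.mul_apply, Matrix.single]

theorem off_ext {x y x' y' : SS} (hx : x = x') (hy : y = y') :
    (!![0, x; y, 0] : Mat) = !![0, x'; y', 0] := by rw [hx, hy]

theorem mW_apply (a c : Fin 2) (w : SW) :
    mW a c w = !![0, (0, alW a c * w); (0, beW a c * w), 0] := rfl

theorem off_mul_arrX (x y : SS) (b c : Fin 2) :
    (!![0, x; y, 0] : Mat) * arrX b c =
      !![0, if b = c ∨ c = 1 then x else 0; if b = c ∨ c = 0 then y else 0, 0] := by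
  fin_cases b <;> fin_cases c <;> simp only [arrX, Fin.isValue, Fin.zero_eta, Fin.mk_one,
    zero_ne_one, one_ne_zero, reduceIte, or_false, or_true, mul_one,
    off_mul_single0, off_mul_single1]

theorem arrZ_mul_off (x y : SS) (a b : Fin 2) :
    arrZ a b * (!![0, x; y, 0] : Mat) =
      !![0, if a = b ∨ a = 0 then x else 0; if a = b ∨ a = 1 then y else 0, 0] := by
  fin_cases a <;> fin_cases b <;> simp only [arrZ, Fin.isValue, Fin.zero_eta, Fin.mk_one,
    zero_ne_one, one_ne_zero, reduceIte, or_false, or_true, one_mul,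
    single0_mul_off, single1_mul_off]

theorem wmulX_al (a b c : Fin 2) (w : SW) (G : PP) :
    (if b = c ∨ c = 1 then alW a b * w * sg G else 0) = alW a c * wmulX a b c w G := by
  have h1 := ep_mul_ep_assoc (pl G * w)
  have h2 := ep_mul_sg_assoc G w
  revert a b c
  simp only [Fin.forall_fin_two, alW, wmulX]
  refine ⟨⟨⟨?_, ?_⟩, ?_, ?_⟩, ⟨?_, ?_⟩, ?_, ?_⟩ <;>
    simp only [Fin.isValue, zero_ne_one, one_ne_zero, reduceIte, and_self, and_true, and_false,
      or_self, or_true, or_false, zero_mul, mul_zero,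
      one_mul] <;>
    first
    | ring1
    | linear_combination h2
    | linear_combination -h2
    | linear_combination h1
    | linear_combination -h1

theorem wmulX_be (a b c : Fin 2) (w : SW) (G : PP) :
    (if b = c ∨ c = 0 then beW a b * w * pl G else 0) = beW a c * wmulX a b c w G := by
  have h1 := ep_mul_ep_assoc (sg G * w)
  have h2 := ep_mul_sg_assoc G w
  revert a b c
  simp only [Fin.forall_fin_two, beW, wmulX]
  refine ⟨⟨⟨?_, ?_⟩, ?_, ?_⟩, ⟨?_, ?_⟩, ?_, ?_⟩ <;>
    simp only [Fin.isValue, zero_ne_one, one_ne_zero, reduceIte, and_self, and_true, and_false,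
      or_self, or_true, or_false, zero_mul, mul_zero,
      one_mul] <;>
    first
    | ring1
    | linear_combination h2
    | linear_combination -h2
    | linear_combination h1
    | linear_combination -h1

theorem wmulZ_al (a b c : Fin 2) (w : SW) (G : PP) :
    (if a = b ∨ a = 0 then pl G * (alW b c * w) else 0) = alW a c * wmulZ a b c G w := by
  have h1 := ep_mul_ep_assoc (sg G * w)
  have h2 := ep_mul_sg_assoc G w
  revert a b c
  simp only [Fin.forall_fin_two, alW, wmulZ]
  refine ⟨⟨⟨?_, ?_⟩, ?_, ?_⟩, ⟨?_, ?_⟩, ?_, ?_⟩ <;>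
    simp only [Fin.isValue, zero_ne_one, one_ne_zero, reduceIte, and_self, and_true, and_false,
      or_self, or_true, or_false, zero_mul, mul_zero,
      one_mul] <;>
    first
    | ring1
    | linear_combination h2
    | linear_combination -h2
    | linear_combination h1
    | linear_combination -h1

theorem wmulZ_be (a b c : Fin 2) (w : SW) (G : PP) :
    (if a = b ∨ a = 1 then sg G * (beW b c * w) else 0) = beW a c * wmulZ a b c G w := by
  have h1 := ep_mul_ep_assoc (pl G * w)
  have h2 := ep_mul_sg_assoc G w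
  revert a b c
  simp only [Fin.forall_fin_two, beW, wmulZ]
  refine ⟨⟨⟨?_, ?_⟩, ?_, ?_⟩, ⟨?_, ?_⟩, ?_, ?_⟩ <;>
    simp only [Fin.isValue, zero_ne_one, one_ne_zero, reduceIte, and_self, and_true, and_false,
      or_self, or_true, or_false, zero_mul, mul_zero,
      one_mul] <;>
    first
    | ring1
    | linear_combination h2
    | linear_combination -h2
    | linear_combination h1
    | linear_combination -h1

theorem mW_mul_mX (a b c : Fin 2) (w : SW) (G : PP) :
    mW a b w * mX b c G = mW a c (wmulX a b c w G) := by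
  rw [mX_apply, dg_apply, mW_apply, mW_apply, ← mul_assoc, off_mul_diag, off_mul_arrX,
    ← wmulX_al, ← wmulX_be]
  apply off_ext <;> split_ifs <;> first | rfl | simp

theorem mZ_mul_mW (a b c : Fin 2) (w : SW) (G : PP) :
    mZ a b G * mW b c w = mW a c (wmulZ a b c G w) := by
  rw [mZ_apply, ← arrZ_dg, dg_apply, mW_apply, mW_apply, mul_assoc, diag_mul_off, arrZ_mul_off,
    ← wmulZ_al, ← wmulZ_be]
  apply off_ext <;> split_ifs <;> first | rfl | simp

theorem WW_wmulX {A B J d e n : ℕ} (hd : 1 ≤ d) (a b c : Fin 2) {w : SW} {G : PP}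
    (hw : w ∈ WW d e n) (hG : G ∈ PX A B J) :
    wmulX a b c w G ∈ WW (d + A + B) (e + B) (n + J) := by
  unfold wmulX; split_ifs
  exacts [WW_sg hd hG hw, WW_pl hd hG hw, WW_pl hd hG hw, WW_ep (WW_pl hd hG hw), zero_mem _,
    WW_ep (WW_sg hd hG hw)]

theorem WW_wmulZ {J d e n : ℕ} (hd : 1 ≤ d) (a b c : Fin 2) {w : SW} {G : PP}
    (hw : w ∈ WW d e n) (hG : G ∈ PX 0 0 J) :
    wmulZ a b c G w ∈ WW d e (n + J) := by
  unfold wmulZ; split_ifs
  exacts [WW_pl hd hG hw, WW_sg hd hG hw, WW_sg hd hG hw, WW_ep (WW_sg hd hG hw), zero_mem _,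
    WW_ep (WW_pl hd hG hw)]

theorem H_mul : ∀ {u v w : Vtx 3} {M N : Mat}, M ∈ H u v → N ∈ H v w → M * N ∈ H u w := by
  rintro ⟨u, i⟩ ⟨v, j⟩ ⟨w, k⟩ M N hM hN
  cases u <;> cases v <;> cases w <;> simp only [H, Submodule.mem_bot] at hM hN ⊢ <;>
    first
    | (subst hM; simp)
    | (subst hN; simp)
    | skip
  case X.X.X a b p a' b' q a'' b'' r =>
    split_ifs at hM with h1
    swap; · simp [(Submodule.mem_bot ℂ).1 hM]
    split_ifs at hN with h2
    swap; · simp [(Submodule.mem_bot ℂ).1 hN]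
    obtain ⟨G, hG, rfl⟩ := hM
    obtain ⟨G', hG', rfl⟩ := hN
    rw [if_pos ⟨h1.1.trans h2.1, h1.2.1.trans h2.2.1, h1.2.2.trans h2.2.2⟩, mX_mul_mX]
    split_ifs
    · refine ⟨_, ?_, rfl⟩
      have h := PX_mul hG hG'
      simpa only [SetLike.mem_coe, show a'.val - a.val + (a''.val - a'.val) = a''.val - a.val by omega,
        show b'.val - b.val + (b''.val - b'.val) = b''.val - b.val by omega,
        show j.val - i.val + (k.val - j.val) = k.val - i.val by omega] using h
    · exact zero_mem _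
  case Z.X.X p a b q a' b' r =>
    split_ifs at hN with h2
    swap; · simp [(Submodule.mem_bot ℂ).1 hN]
    obtain ⟨W, hW, rfl⟩ := hM
    obtain ⟨G', hG', rfl⟩ := hN
    rw [mW_mul_mX]
    refine ⟨_, ?_, rfl⟩
    refine WW_le (n := 1 + j.val - i.val + (k.val - j.val)) (by omega) ?_
    have h := WW_wmulX (by omega) p q r hW hG'
    simpa only [show 1 + a.val + b.val + (a'.val - a.val) + (b'.val - b.val) = 1 + a'.val + b'.val
        by omega,
      show 1 + b.val + (b'.val - b.val) = 1 + b'.val by omega] using h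
  case Z.Z.X p q a b r =>
    split_ifs at hM with h1
    swap; · simp [(Submodule.mem_bot ℂ).1 hM]
    obtain ⟨G, hG, rfl⟩ := hM
    obtain ⟨W, hW, rfl⟩ := hN
    rw [mZ_mul_mW]
    refine ⟨_, WW_le ?_ (WW_wmulZ (by omega) p q r hW hG), rfl⟩
    omega
  case Z.Z.Z p q r =>
    split_ifs at hM with h1
    swap; · simp [(Submodule.mem_bot ℂ).1 hM]
    split_ifs at hN with h2
    swap; · simp [(Submodule.mem_bot ℂ).1 hN]
    obtain ⟨G, hG, rfl⟩ := hM
    obtain ⟨G', hG', rfl⟩ := hN
    rw [if_pos (h1.trans h2), mZ_mul_mZ]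
    split_ifs
    · refine ⟨_, ?_, rfl⟩
      have h := PX_mul hG hG'
      simpa only [SetLike.mem_coe, Nat.add_zero,
        show j.val - i.val + (k.val - j.val) = k.val - i.val by omega] using h
    · exact zero_mem _

theorem H_one : ∀ u : Vtx 3, (1 : Mat) ∈ H u u
  | (.X a b v, j) => by
    simp only [H, le_refl, and_self, if_true]
    exact ⟨1, one_mem_PX _ _ _, by simp [mX_apply, arrX]⟩
  | (.Z v, i) => by
    simp only [H, le_refl, if_true]
    exact ⟨1, one_mem_PX _ _ _, by simp [mZ_apply, arrZ]⟩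

/-- the algebra of the vertices `f u` -/
def corner (f : Vtx 2 → Vtx 3) : Subalgebra ℂ BigMat where
  carrier := {M | ∀ u w, M u w ∈ H (f u) (f w)}
  mul_mem' := by
    intro M N hM hN u w
    rw [Matrix.mul_apply]
    exact Submodule.sum_mem _ fun v _ => H_mul (hM u v) (hN v w)
  add_mem' := fun hM hN u w => Submodule.add_mem _ (hM u w) (hN u w)
  algebraMap_mem' := by
    intro r u w
    rw [Matrix.algebraMap_matrix_apply]
    split_ifs with h
    · subst h
      rw [Algebra.algebraMap_eq_smul_one]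
      exact Submodule.smul_mem _ _ (H_one _)
    · exact Submodule.zero_mem _

instance instRingCorner (f : Vtx 2 → Vtx 3) : Ring (corner f) := Subalgebra.toRing (corner f)
instance instAlgebraCorner (f : Vtx 2 → Vtx 3) : Algebra ℂ (corner f) := (corner f).algebra

theorem mem_corner {f : Vtx 2 → Vtx 3} {M : BigMat} :
    M ∈ corner f ↔ ∀ u w, M u w ∈ H (f u) (f w) := Iff.rfl

theorem single_mem_corner {f : Vtx 2 → Vtx 3} {u w : Vtx 2} {m : Mat} (h : m ∈ H (f u) (f w)) :
    Matrix.single u w m ∈ corner f := by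
  intro u' w'
  rw [Matrix.single_apply]
  split_ifs with h'
  · rwa [← h'.1, ← h'.2]
  · exact Submodule.zero_mem _

end

end Vale.Agent.P195
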