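import Vale.Agent.P195.EV

/-!
Corners of rings: restriction, coinduction, and the Ext comparison (definitions).
-/

namespace Vale.Agent.P195

open CategoryTheory

variable {R A : Type} [Ring R] [Ring A] (j : A →ₙ+* R)

/-- the component `e M`, `e = j 1` -/
def Comp (M : ModuleCat.{0} R) : AddSubgroup M where
  carrier := {x | j 1 • x = x}
  zero_mem' := smul_zero _
  add_mem' := by
    intro a b ha hb
    simp only [Set.mem_ofPred_eq] at *
    rw [smul_add, ha, hb]
  neg_mem' := by
    intro a ha
    simp only [Set.mem_ofPred_eq] at *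
    rw [smul_neg, ha]

variable {j}

theorem mem_comp {M : ModuleCat.{0} R} {x : M} : x ∈ Comp j M ↔ j 1 • x = x := Iff.rfl

theorem smul_mem_comp {M : ModuleCat.{0} R} (a : A) (x : M) : j a • x ∈ Comp j M := by
  rw [mem_comp, ← mul_smul, ← map_mul, one_mul]

instance compModule (M : ModuleCat.{0} R) : Module A (Comp j M) where
  smul a x := ⟨j a • x.1, smul_mem_comp a x.1⟩
  one_smul x := Subtype.ext (mem_comp.1 x.2)
  mul_smul a b x := Subtype.ext (show j (a * b) • x.1 = j a • j b • x.1 by rw [map_mul, mul_smul])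
  smul_zero a := Subtype.ext (smul_zero (j a))
  smul_add a x y := Subtype.ext (smul_add (j a) x.1 y.1)
  add_smul a b x := Subtype.ext
    (show j (a + b) • x.1 = j a • x.1 + j b • x.1 by rw [map_add, add_smul])
  zero_smul x := Subtype.ext (show j 0 • x.1 = 0 by rw [map_zero, zero_smul])

theorem comp_coe_smul {M : ModuleCat.{0} R} (a : A) (x : Comp j M) :
    ((a • x : Comp j M) : M) = j a • (x : M) := rfl

variable (j)

/-- restriction to the corner -/
noncomputable def resC (M : ModuleCat.{0} R) : ModuleCat.{0} A := ModuleCat.of A (Comp j M)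

/-- restriction on maps -/
noncomputable def resMap {M N : ModuleCat.{0} R} (f : M →ₗ[R] N) : resC j M →ₗ[A] resC j N where
  toFun x := ⟨f (x : Comp j M).1, by
    have h := (x : Comp j M).2
    rw [mem_comp] at h ⊢
    rw [← map_smul, h]⟩
  map_add' x y := Subtype.ext (map_add f _ _)
  map_smul' a x := Subtype.ext (map_smul f (j a) _)

/-- `e R` -/
noncomputable abbrev eR : ModuleCat.{0} A := resC j (ModuleCat.of R R)

/-- right multiplication on `e R` -/
noncomputable def eRmul (r : R) : eR j →ₗ[A] eR j where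
  toFun x := ⟨(x.1 : R) * r, by
    have h : j 1 * (x.1 : R) = x.1 := x.2
    show j 1 * ((x.1 : R) * r) = (x.1 : R) * r
    rw [← mul_assoc, h]⟩
  map_add' x y := Subtype.ext (add_mul (x.1 : R) y.1 r)
  map_smul' a x := Subtype.ext (mul_assoc (j a) (x.1 : R) r)

/-- coinduced modules `Hom_A(eR, Y)` -/
def CoindT (Y : ModuleCat.{0} A) : Type := eR j →ₗ[A] Y

noncomputable instance (Y : ModuleCat.{0} A) : AddCommGroup (CoindT j Y) :=
  inferInstanceAs (AddCommGroup (eR j →ₗ[A] Y))

instance (Y : ModuleCat.{0} A) : FunLike (CoindT j Y) (eR j) Y :=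
  inferInstanceAs (FunLike (eR j →ₗ[A] Y) (eR j) Y)

variable {j}

theorem CoindT.ext {Y : ModuleCat.{0} A} {f g : CoindT j Y} (h : ∀ x, f x = g x) : f = g :=
  LinearMap.ext (f := (f : eR j →ₗ[A] Y)) (g := (g : eR j →ₗ[A] Y)) h

theorem CoindT.map_add {Y : ModuleCat.{0} A} (f : CoindT j Y) (x y : eR j) :
    f (x + y) = f x + f y := LinearMap.map_add (f : eR j →ₗ[A] Y) x y

theorem CoindT.map_zero {Y : ModuleCat.{0} A} (f : CoindT j Y) : f 0 = 0 :=
  LinearMap.map_zero (f : eR j →ₗ[A] Y)

noncomputable instance coindModule (Y : ModuleCat.{0} A) : Module R (CoindT j Y) where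
  smul r f := LinearMap.comp (R₁ := A) (f : eR j →ₗ[A] Y) (eRmul j r)
  one_smul f := CoindT.ext fun x => congrArg (fun z => f z)
    (show eRmul j 1 x = x from Subtype.ext (mul_one (x.1 : R)))
  mul_smul r s f := CoindT.ext fun x => congrArg (fun z => f z)
    (show eRmul j (r * s) x = eRmul j s (eRmul j r x) from
      Subtype.ext (mul_assoc (x.1 : R) r s).symm)
  smul_zero r := CoindT.ext fun _ => rfl
  smul_add r f g := CoindT.ext fun _ => rfl
  add_smul r s f := CoindT.ext fun x => by
    show f (eRmul j (r + s) x) = f (eRmul j r x) + f (eRmul j s x)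
    rw [← CoindT.map_add]
    exact congrArg (fun z => f z) (Subtype.ext (mul_add (x.1 : R) r s))
  zero_smul f := CoindT.ext fun x => by
    show f (eRmul j 0 x) = 0
    rw [show eRmul j 0 x = 0 from Subtype.ext (mul_zero (x.1 : R)), CoindT.map_zero]

theorem coind_smul_apply {Y : ModuleCat.{0} A} (r : R) (f : CoindT j Y) (x : eR j) :
    (r • f) x = f (eRmul j r x) := rfl

variable (j)

/-- coinduction -/
noncomputable def coind (Y : ModuleCat.{0} A) : ModuleCat.{0} R := ModuleCat.of R (CoindT j Y)

end Vale.Agent.P195
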