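import Mathlib

/-!
The basic objects of the counterexample to the Auslander-Reiten conjecture (P195):
a small spectral linear category, realised inside 2x2 matrices over a commutative ring.
-/

namespace Vale.Agent.P195

open Polynomial Matrix

/-- `ℂ[z][x]` -/
abbrev Qx := Polynomial (Polynomial ℂ)
/-- `ℂ[z][x][y]` -/
abbrev PP := Polynomial Qx
/-- adjoin `η`, `η² = 0` -/
abbrev QE := DualNumber Qx
instance instCentralQE : IsCentralScalar QE QE := ⟨fun r m => mul_comm m r⟩

/-- adjoin `ε`, `ε² = 0` -/
abbrev SW := DualNumber QE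

noncomputable instance instCommRingQE : CommRing QE := inferInstance
noncomputable instance instCommRingSW : CommRing SW := inferInstance
noncomputable instance instSemiringQE : Semiring QE := inferInstance
noncomputable instance instSemiringSW : Semiring SW := inferInstance
noncomputable instance instMonoidSW : Monoid SW := inferInstance
noncomputable instance instMulQE : Mul QE := inferInstance
noncomputable instance instMulSW : Mul SW := inferInstance
noncomputable instance instAddQE : Add QE := inferInstance
noncomputable instance instAddSW : Add SW := inferInstance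
noncomputable instance instZeroSW : Zero SW := inferInstance
noncomputable instance instOneSW : One SW := inferInstance
noncomputable instance instAddCommGroupSW : AddCommGroup SW := inferInstance
noncomputable instance instAddCommMonoidSW : AddCommMonoid SW := inferInstance
noncomputable instance instMulOneClassQE : MulOneClass QE := inferInstance
noncomputable instance instMulOneClassSW : MulOneClass SW := inferInstance
noncomputable instance instMulZeroClassSW : MulZeroClass SW := inferInstance
noncomputable instance instPowQE : Pow QE ℕ := inferInstance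
noncomputable instance instPowSW : Pow SW ℕ := inferInstance
noncomputable instance instNegSW : Neg SW := inferInstance
noncomputable instance instSubSW : Sub SW := inferInstance
noncomputable instance instCommSemiringSW : CommSemiring SW := inferInstance
noncomputable instance instRingSW : Ring SW := inferInstance
noncomputable instance instDistribSW : Distrib SW := inferInstance
noncomputable instance instNonAssocSemiringSW : NonAssocSemiring SW := inferInstance
noncomputable instance instAddZeroClassSW : AddZeroClass SW := inferInstance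
noncomputable instance instAlgebraQE : Algebra ℂ QE := inferInstance
noncomputable instance instAlgebraSW : Algebra ℂ SW := inferInstance
noncomputable instance instModuleQE : Module ℂ QE := inferInstance
noncomputable instance instModuleSW : Module ℂ SW := inferInstance
noncomputable instance instSMulSW : SMul ℂ SW := inferInstance

instance instTowerQE : IsScalarTower ℂ QE QE := ⟨fun c a b => Algebra.smul_mul_assoc c a b⟩
instance instTowerSW : IsScalarTower ℂ SW SW := ⟨fun c a b => Algebra.smul_mul_assoc c a b⟩
instance instCommClassQE : SMulCommClass ℂ QE QE := ⟨fun c a b => (Algebra.mul_smul_comm c a b).symm⟩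
instance instCommClassSW : SMulCommClass ℂ SW SW := ⟨fun c a b => (Algebra.mul_smul_comm c a b).symm⟩

theorem mul_smul_QE (c : ℂ) (a b : QE) : a * c • b = c • (a * b) := by
  ext1
  · simp
  · simp [TrivSqZeroExt.snd_mul, smul_add]

theorem mul_smul_SW (c : ℂ) (a b : SW) : a * c • b = c • (a * b) := by
  ext1
  · simp [mul_smul_QE]
  · simp [TrivSqZeroExt.snd_mul, smul_add, mul_smul_QE]

abbrev SS := PP × SW
abbrev Mat := Matrix (Fin 2) (Fin 2) SS

noncomputable section

instance instCommRingSS : CommRing SS := inferInstance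
instance instAlgebraSS : Algebra ℂ SS := inferInstance
instance instMulOneClassSS : MulOneClass SS := inferInstance
instance instMulZeroClassSS : MulZeroClass SS := inferInstance
instance instRingMat : Ring Mat := Matrix.instRing
instance instSemiringMat : Semiring Mat := Matrix.semiring
instance instAlgebraMat : Algebra ℂ Mat := Matrix.instAlgebra

instance instNonAssocSemiringSS : NonAssocSemiring SS := inferInstance
instance instModuleSS : Module ℂ SS := inferInstance
instance instNonAssocSemiringMat : NonAssocSemiring Mat := inferInstance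
instance instMulOneClassMat : MulOneClass Mat := inferInstance
instance instMulZeroClassMat : MulZeroClass Mat := inferInstance
instance instAddCommGroupMat : AddCommGroup Mat := inferInstance
instance instAddCommMonoidMat : AddCommMonoid Mat := inferInstance
instance instAddZeroClassMat : AddZeroClass Mat := inferInstance
instance instZeroMat : Zero Mat := inferInstance
instance instModuleMat : Module ℂ Mat := inferInstance

/-- inclusion of `ℂ[z][x]` -/
def qq (f : Qx) : SW := TrivSqZeroExt.inl (TrivSqZeroExt.inl f)
/-- `ε` -/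
def ep : SW := DualNumber.eps
/-- `η` -/
def et : SW := TrivSqZeroExt.inl DualNumber.eps

/-- evaluation at `y = x + η`, `z = z` -/
def pl : PP →ₐ[ℂ] SW :=
  aevalTower (aevalTower (aeval (qq (C X))) (qq X)) (qq X + et)
/-- evaluation at `y = x + η`, `z = z + ε` -/
def sg : PP →ₐ[ℂ] SW :=
  aevalTower (aevalTower (aeval (qq (C X) + ep)) (qq X)) (qq X + et)

/-- the diagonal matrix attached to a polynomial -/
def dg : PP →ₐ[ℂ] Mat :=
  (diagonalAlgHom ℂ).comp
    (AlgHom.pi ![(AlgHom.id ℂ PP).prod pl, (AlgHom.id ℂ PP).prod sg])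

/-- arrows of the two-cycle, at `X`-vertices -/
def arrX (v' v : Fin 2) : Mat := if v' = v then 1 else Matrix.single v v 1
/-- arrows of the two-cycle, at `Z`-vertices -/
def arrZ (v' v : Fin 2) : Mat := if v' = v then 1 else Matrix.single v' v' 1

def alW (v' v : Fin 2) : SW := if v' = 0 ∧ v = 1 then 1 else if v' = 1 ∧ v = 0 then 0 else ep
def beW (v' v : Fin 2) : SW := if v' = 0 ∧ v = 1 then ep else 1

def mX (v' v : Fin 2) : PP →ₗ[ℂ] Mat := (LinearMap.mulRight ℂ (arrX v' v)) ∘ₗ dg.toLinearMap
def mZ (v' v : Fin 2) : PP →ₗ[ℂ] Mat := (LinearMap.mulRight ℂ (arrZ v' v)) ∘ₗ dg.toLinearMap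

def mW (v' v : Fin 2) : SW →ₗ[ℂ] Mat where
  toFun w := !![0, (0, alW v' v * w); (0, beW v' v * w), 0]
  map_add' w w' := by
    ext i j : 1
    fin_cases i <;> fin_cases j <;> simp [mul_add]
  map_smul' c w := by
    ext i j : 1
    fin_cases i <;> fin_cases j <;> simp [mul_smul_SW]

theorem mX_apply (v' v : Fin 2) (G : PP) : mX v' v G = dg G * arrX v' v := rfl
theorem mZ_apply (v' v : Fin 2) (G : PP) : mZ v' v G = dg G * arrZ v' v := rfl

/-- polynomials of degree at most `A` in `x`, `B` in `y`, `J` in `z` -/
def PX (A B J : ℕ) : Submodule ℂ PP where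
  carrier := {G | ∀ b a j, (B < b ∨ A < a ∨ J < j) → ((G.coeff b).coeff a).coeff j = 0}
  zero_mem' := by simp
  add_mem' := by
    intro f g hf hg b a j h
    simp [hf b a j h, hg b a j h]
  smul_mem' := by
    intro c f hf b a j h
    simp [hf b a j h]

/-- the spaces `W(d,e,n)`: pairs `φ + D η` -/
def W0 (d e n : ℕ) : Submodule ℂ QE where
  carrier := {w | (∀ i j, (d < i ∨ n ≤ j) → (w.fst.coeff i).coeff j = 0) ∧
    (∀ i j, (d ≤ i ∨ n < j) → (w.snd.coeff i).coeff j = 0) ∧
    w.snd.coeff (d - 1) = (X + C (e : ℂ)) * w.fst.coeff d}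
  zero_mem' := by simp
  add_mem' := by
    rintro f g ⟨h1, h2, h3⟩ ⟨k1, k2, k3⟩
    refine ⟨fun i j h => ?_, fun i j h => ?_, ?_⟩
    · simp [h1 i j h, k1 i j h]
    · simp [h2 i j h, k2 i j h]
    · simp [h3, k3, mul_add]
  smul_mem' := by
    rintro c f ⟨h1, h2, h3⟩
    refine ⟨fun i j h => ?_, fun i j h => ?_, ?_⟩
    · simp [h1 i j h]
    · simp [h2 i j h]
    · simp [h3]

/-- the spaces `W(d,e,n) ⊕ ε W(d,e,n)` -/
def WW (d e n : ℕ) : Submodule ℂ SW where
  carrier := {w | w.fst ∈ W0 d e n ∧ w.snd ∈ W0 d e n}
  zero_mem' := ⟨(W0 d e n).zero_mem, (W0 d e n).zero_mem⟩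
  add_mem' h k := ⟨(W0 d e n).add_mem h.1 k.1, (W0 d e n).add_mem h.2 k.2⟩
  smul_mem' c _ h := ⟨(W0 d e n).smul_mem c h.1, (W0 d e n).smul_mem c h.2⟩

/-- vertices up to the Kronecker direction -/
inductive Tau (n : ℕ)
  | X (a b : Fin n) (v : Fin 2)
  | Z (v : Fin 2)
  deriving DecidableEq, Fintype

/-- vertices: the second entry is the Kronecker index -/
abbrev Vtx (n : ℕ) := Tau n × Fin 2

abbrev vX {n : ℕ} (a b : Fin n) (j v : Fin 2) : Vtx n := (Tau.X a b v, j)
abbrev vZ {n : ℕ} (i v : Fin 2) : Vtx n := (Tau.Z v, i)

/-- morphism spaces; `H u w` maps the component at `w` to the component at `u` -/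
def H : Vtx 3 → Vtx 3 → Submodule ℂ Mat
  | (Tau.X a b v', j), (Tau.X a' b' v, j') =>
      if a ≤ a' ∧ b ≤ b' ∧ j ≤ j' then
        (PX (a'.val - a.val) (b'.val - b.val) (j'.val - j.val)).map (mX v' v) else ⊥
  | (Tau.Z v', i), (Tau.Z v, i') =>
      if i ≤ i' then (PX 0 0 (i'.val - i.val)).map (mZ v' v) else ⊥
  | (Tau.Z v', i), (Tau.X a b v, j) =>
      (WW (1 + a.val + b.val) (1 + b.val) (1 + j.val - i.val)).map (mW v' v)
  | (Tau.X _ _ _, _), (Tau.Z _, _) => ⊥

def Tau.map {n m : ℕ} (f g : Fin n → Fin m) : Tau n → Tau m
  | .X a b v => .X (f a) (g b) v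
  | .Z v => .Z v

/-- the corner inclusion -/
def iota0 (u : Vtx 2) : Vtx 3 := (u.1.map Fin.castSucc Fin.castSucc, u.2)
/-- shift in the first direction -/
def px (u : Vtx 2) : Vtx 3 := (u.1.map Fin.succ Fin.castSucc, u.2)
/-- shift in the second direction -/
def py (u : Vtx 2) : Vtx 3 := (u.1.map Fin.castSucc Fin.succ, u.2)

abbrev BigMat := Matrix (Vtx 2) (Vtx 2) Mat

instance instRingBigMat : Ring BigMat := Matrix.instRing
instance instSemiringBigMat : Semiring BigMat := Matrix.semiring
instance instAlgebraBigMat : Algebra ℂ BigMat := Matrix.instAlgebra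

end

end Vale.Agent.P195
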