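import Mathlib

/-!
Prop-level calculus of vanishing `Ext`-groups of modules (helper file for P195).
-/

namespace Vale.Agent.P195

open CategoryTheory Abelian

universe u

variable {A : Type} [Ring A]

/-- `EV n X Y` : the group `Ext^n(X,Y)` vanishes. -/
def EV (n : ℕ) (X Y : ModuleCat.{0} A) : Prop := Subsingleton (Ext X Y n)

theorem EV.eq_zero {n : ℕ} {X Y : ModuleCat.{0} A} (h : EV n X Y) (x : Ext X Y n) : x = 0 :=
  @Subsingleton.elim _ h _ _

theorem EV.of_forall {n : ℕ} {X Y : ModuleCat.{0} A} (h : ∀ x : Ext X Y n, x = 0) : EV n X Y :=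
  subsingleton_of_forall_eq 0 h

theorem ev_zero_iff {X Y : ModuleCat.{0} A} :
    EV 0 X Y ↔ ∀ f : X →ₗ[A] Y, f = 0 := by
  constructor
  · intro h f
    have := h.eq_zero (Ext.mk₀ (ModuleCat.ofHom f))
    rw [Ext.mk₀_eq_zero_iff] at this
    simpa using congrArg ModuleCat.Hom.hom this
  · intro h
    refine EV.of_forall fun x => ?_
    obtain ⟨f, rfl⟩ := Ext.addEquiv₀.symm.surjective x
    have : f = 0 := ModuleCat.hom_ext (h f.hom)
    simp [this]

theorem ev_of_projective {P Y : ModuleCat.{0} A} [Projective P] {n : ℕ} (hn : 1 ≤ n) : EV n P Y := by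
  obtain ⟨k, rfl⟩ : ∃ k, n = k + 1 := ⟨n - 1, by omega⟩
  exact Ext.subsingleton_of_projective P Y k

theorem ev_of_injective {X E : ModuleCat.{0} A} [Injective E] {n : ℕ} (hn : 1 ≤ n) : EV n X E := by
  obtain ⟨k, rfl⟩ : ∃ k, n = k + 1 := ⟨n - 1, by omega⟩
  exact EV.of_forall fun x => Ext.eq_zero_of_injective x

section SES

variable {S : ShortComplex (ModuleCat.{0} A)} (hS : S.ShortExact) (Z : ModuleCat.{0} A)
include hS

/-- contravariant: middle from ends -/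
theorem ev_mid {n : ℕ} (h₁ : EV n S.X₁ Z) (h₃ : EV n S.X₃ Z) : EV n S.X₂ Z := by
  refine EV.of_forall fun x => ?_
  obtain ⟨y, rfl⟩ := Ext.contravariant_sequence_exact₂ hS Z x (h₁.eq_zero _)
  simp [h₃.eq_zero y]

/-- contravariant: left from middle and next right -/
theorem ev_left {n : ℕ} (h₂ : EV n S.X₂ Z) (h₃ : EV (n + 1) S.X₃ Z) : EV n S.X₁ Z := by
  refine EV.of_forall fun x => ?_
  obtain ⟨y, rfl⟩ := Ext.contravariant_sequence_exact₁ hS Z x (by omega : 1 + n = n + 1)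
    (h₃.eq_zero _)
  simp [h₂.eq_zero y]

/-- contravariant: right from previous left and middle -/
theorem ev_right {n : ℕ} (h₁ : EV n S.X₁ Z) (h₂ : EV (n + 1) S.X₂ Z) : EV (n + 1) S.X₃ Z := by
  refine EV.of_forall fun x => ?_
  obtain ⟨y, rfl⟩ := Ext.contravariant_sequence_exact₃ hS Z x (h₂.eq_zero _)
    (by omega : 1 + n = n + 1)
  simp [h₁.eq_zero y]

theorem ev_right_zero (h₂ : EV 0 S.X₂ Z) : EV 0 S.X₃ Z := by
  rw [ev_zero_iff] at *
  intro f
  have := h₂ (f ∘ₗ S.g.hom)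
  have hg : Function.Surjective S.g.hom :=
    (ModuleCat.epi_iff_surjective S.g).1 hS.epi_g
  refine LinearMap.ext fun y => ?_
  obtain ⟨x, rfl⟩ := hg y
  exact congrArg (fun q => q x) this

/-- covariant: middle from ends -/
theorem ev_mid' {n : ℕ} (h₁ : EV n Z S.X₁) (h₃ : EV n Z S.X₃) : EV n Z S.X₂ := by
  refine EV.of_forall fun x => ?_
  obtain ⟨y, rfl⟩ := Ext.covariant_sequence_exact₂ Z hS x (h₃.eq_zero _)
  simp [h₁.eq_zero y]

/-- covariant: right from middle and next left -/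
theorem ev_right' {n : ℕ} (h₂ : EV n Z S.X₂) (h₁ : EV (n + 1) Z S.X₁) : EV n Z S.X₃ := by
  refine EV.of_forall fun x => ?_
  obtain ⟨y, rfl⟩ := Ext.covariant_sequence_exact₃ Z hS x rfl (h₁.eq_zero _)
  simp [h₂.eq_zero y]

/-- covariant: left from previous right and middle -/
theorem ev_left' {n : ℕ} (h₃ : EV n Z S.X₃) (h₂ : EV (n + 1) Z S.X₂) : EV (n + 1) Z S.X₁ := by
  refine EV.of_forall fun x => ?_
  obtain ⟨y, rfl⟩ := Ext.covariant_sequence_exact₁ Z hS x (h₂.eq_zero _) rfl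
  simp [h₃.eq_zero y]

theorem ev_left_zero' (h₂ : EV 0 Z S.X₂) : EV 0 Z S.X₁ := by
  rw [ev_zero_iff] at *
  intro f
  have := h₂ (S.f.hom ∘ₗ f)
  have hf : Function.Injective S.f.hom :=
    (ModuleCat.mono_iff_injective S.f).1 hS.mono_f
  refine LinearMap.ext fun y => hf ?_
  simpa using congrArg (fun q => q y) this

/-- `Ext^1` vanishes if every map from the sub-object extends. -/
theorem ev_one_of_extend (h₂ : EV 1 S.X₂ Z)
    (h : ∀ f : S.X₁ →ₗ[A] Z, ∃ g : S.X₂ →ₗ[A] Z, g ∘ₗ S.f.hom = f) : EV 1 S.X₃ Z := by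
  refine EV.of_forall fun x => ?_
  obtain ⟨y, rfl⟩ := Ext.contravariant_sequence_exact₃ hS Z x (h₂.eq_zero _)
    (by omega : 1 + 0 = 1)
  obtain ⟨f, rfl⟩ := Ext.addEquiv₀.symm.surjective y
  obtain ⟨g, hg⟩ := h f.hom
  have : f = S.f ≫ ModuleCat.ofHom g := ModuleCat.hom_ext (by simpa using hg.symm)
  subst this
  simp [Ext.addEquiv₀, ← Ext.mk₀_comp_mk₀]

/-- Conversely, maps extend if `Ext^1` of the quotient vanishes. -/
theorem extend_of_ev_one (h₃ : EV 1 S.X₃ Z) (f : S.X₁ →ₗ[A] Z) :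
    ∃ g : S.X₂ →ₗ[A] Z, g ∘ₗ S.f.hom = f := by
  obtain ⟨y, hy⟩ := Ext.contravariant_sequence_exact₁ hS Z (Ext.mk₀ (ModuleCat.ofHom f))
    (by omega : 1 + 0 = 1) (h₃.eq_zero _)
  obtain ⟨g, rfl⟩ := Ext.addEquiv₀.symm.surjective y
  refine ⟨g.hom, ?_⟩
  simp [Ext.addEquiv₀, Ext.mk₀_comp_mk₀] at hy
  simpa using congrArg ModuleCat.Hom.hom ((Ext.mk₀_bijective _ _).1 hy)

/-- Maps lift along the surjection if `Ext^1` into the kernel vanishes. -/
theorem lift_of_ev_one (h₁ : EV 1 Z S.X₁) (f : Z →ₗ[A] S.X₃) :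
    ∃ g : Z →ₗ[A] S.X₂, S.g.hom ∘ₗ g = f := by
  obtain ⟨y, hy⟩ := Ext.covariant_sequence_exact₃ Z hS (Ext.mk₀ (ModuleCat.ofHom f)) rfl
    (h₁.eq_zero _)
  obtain ⟨g, rfl⟩ := Ext.addEquiv₀.symm.surjective y
  refine ⟨g.hom, ?_⟩
  simp [Ext.addEquiv₀, Ext.mk₀_comp_mk₀] at hy
  simpa using congrArg ModuleCat.Hom.hom ((Ext.mk₀_bijective _ _).1 hy)

/-- `Ext^1` into the kernel vanishes if maps lift and `Ext^1` into the middle vanishes. -/
theorem ev_one_of_lift (h₂ : EV 1 Z S.X₂)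
    (h : ∀ f : Z →ₗ[A] S.X₃, ∃ g : Z →ₗ[A] S.X₂, S.g.hom ∘ₗ g = f) : EV 1 Z S.X₁ := by
  refine EV.of_forall fun x => ?_
  obtain ⟨y, rfl⟩ := Ext.covariant_sequence_exact₁ Z hS x (h₂.eq_zero _) rfl
  obtain ⟨f, rfl⟩ := Ext.addEquiv₀.symm.surjective y
  obtain ⟨g, hg⟩ := h f.hom
  have : f = ModuleCat.ofHom g ≫ S.g := ModuleCat.hom_ext (by simpa using hg.symm)
  subst this
  simp [Ext.addEquiv₀, ← Ext.mk₀_comp_mk₀]

end SES

/-- A retract-type criterion: if the identity of `Y` is a sum of maps factoring through objects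
`W i` with vanishing `Ext^n(X, W i)`, then `Ext^n(X,Y)` vanishes. -/
theorem ev_of_factor {n : ℕ} {X Y : ModuleCat.{0} A} {ι : Type} [Fintype ι]
    (W : ι → ModuleCat.{0} A) (a : ∀ i, Y →ₗ[A] W i) (b : ∀ i, W i →ₗ[A] Y)
    (hid : ∀ y, ∑ i, b i (a i y) = y) (hW : ∀ i, EV n X (W i)) : EV n X Y := by
  refine EV.of_forall fun x => ?_
  have hsum : (𝟙 Y : Y ⟶ Y) = ∑ i, ModuleCat.ofHom (a i) ≫ ModuleCat.ofHom (b i) := by
    apply ModuleCat.hom_ext
    ext y
    simp [ModuleCat.hom_sum, hid]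
  rw [← Ext.comp_mk₀_id x, hsum, Ext.mk₀_sum, Ext.comp_sum]
  refine Finset.sum_eq_zero fun i _ => ?_
  rw [← Ext.mk₀_comp_mk₀, ← Ext.comp_assoc_of_third_deg_zero,
    (hW i).eq_zero (x.comp (Ext.mk₀ (ModuleCat.ofHom (a i))) (add_zero n)), Ext.zero_comp]

/-- The dual factorization criterion. -/
theorem ev_of_factor_left {n : ℕ} {X Y : ModuleCat.{0} A} {ι : Type} [Fintype ι]
    (W : ι → ModuleCat.{0} A) (a : ∀ i, X →ₗ[A] W i) (b : ∀ i, W i →ₗ[A] X)
    (hid : ∀ y, ∑ i, b i (a i y) = y) (hW : ∀ i, EV n (W i) Y) : EV n X Y := by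
  refine EV.of_forall fun x => ?_
  have hsum : (𝟙 X : X ⟶ X) = ∑ i, ModuleCat.ofHom (a i) ≫ ModuleCat.ofHom (b i) := by
    apply ModuleCat.hom_ext
    ext y
    simp [ModuleCat.hom_sum, hid]
  rw [← Ext.mk₀_id_comp x, hsum, Ext.mk₀_sum, Ext.sum_comp]
  refine Finset.sum_eq_zero fun i _ => ?_
  rw [← Ext.mk₀_comp_mk₀, Ext.comp_assoc_of_second_deg_zero,
    (hW i).eq_zero ((Ext.mk₀ (ModuleCat.ofHom (b i))).comp x (zero_add n)), Ext.comp_zero]

theorem ev_of_linearEquiv {n : ℕ} {X Y Y' : ModuleCat.{0} A} (e : Y ≃ₗ[A] Y')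
    (h : EV n X Y') : EV n X Y :=
  ev_of_factor (ι := Unit) (fun _ => Y') (fun _ => e.toLinearMap) (fun _ => e.symm.toLinearMap)
    (fun y => by simp) (fun _ => h)

theorem ev_of_linearEquiv_left {n : ℕ} {X X' Y : ModuleCat.{0} A} (e : X ≃ₗ[A] X')
    (h : EV n X' Y) : EV n X Y :=
  ev_of_factor_left (ι := Unit) (fun _ => X') (fun _ => e.toLinearMap)
    (fun _ => e.symm.toLinearMap) (fun y => by simp) (fun _ => h)

/-- Short exact sequence from a linear map pair. -/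
theorem shortExact_mk {X Y Z : ModuleCat.{0} A} (f : X →ₗ[A] Y) (g : Y →ₗ[A] Z)
    (hf : Function.Injective f) (hg : Function.Surjective g) (h : Function.Exact f g) :
    (ShortComplex.mk (ModuleCat.ofHom f) (ModuleCat.ofHom g)
      (ModuleCat.hom_ext (LinearMap.ext fun x => (h (f x)).2 ⟨x, rfl⟩))).ShortExact := by
  refine { exact := ?_, mono_f := ?_, epi_g := ?_ }
  · rw [ShortComplex.ShortExact.moduleCat_exact_iff_function_exact]
    exact h
  · exact (ModuleCat.mono_iff_injective _).2 hf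
  · exact (ModuleCat.epi_iff_surjective _).2 hg

/-- The sequence of a submodule and its quotient. -/
theorem shortExact_sub {Y : ModuleCat.{0} A} (K : Submodule A Y) :
    (ShortComplex.mk (ModuleCat.ofHom (X := K) (Y := Y) K.subtype)
      (ModuleCat.ofHom (Y := Y ⧸ K) K.mkQ)
      (ModuleCat.hom_ext (LinearMap.ext fun x => (Submodule.Quotient.mk_eq_zero _).2 x.2))).ShortExact :=
  shortExact_mk (X := ModuleCat.of A K) (Z := ModuleCat.of A (Y ⧸ K)) K.subtype K.mkQ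
    Subtype.val_injective (Submodule.mkQ_surjective K) (LinearMap.exact_subtype_mkQ K)

end Vale.Agent.P195
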