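import Vale.Agent.P195.C0Def

/-!
Euler sequences: the statements about polynomials and about the spaces `W` (P195, module C).
-/

namespace Vale.Agent.P195

open Polynomial Matrix

noncomputable section

/-- the variable `y` -/
abbrev yP : PP := X
/-- the variable `x` -/
abbrev xP : PP := C X

theorem yP_mem : yP ∈ PX 0 1 0 := by
  simpa [mono, yP] using mono_mem (B := 1) (A := 0) (J := 0) le_rfl le_rfl le_rfl (1 : ℂ)

theorem xP_mem : xP ∈ PX 1 0 0 := by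
  simpa [mono, xP] using mono_mem (B := 0) (A := 1) (J := 0) le_rfl le_rfl le_rfl (1 : ℂ)

theorem PX_divY {A B J : ℕ} {G : PP} (hG : G ∈ PX A (B + 1) J) :
    ∃ P Q, P ∈ PX A B J ∧ Q ∈ PX A B J ∧ G = P * yP + Q := by
  refine PX_induction (p := fun G => ∃ P Q, P ∈ PX A B J ∧ Q ∈ PX A B J ∧ G = P * yP + Q)
    ⟨0, 0, zero_mem _, zero_mem _, by simp⟩ ?_ ?_ hG
  · rintro f g ⟨P, Q, hP, hQ, rfl⟩ ⟨P', Q', hP', hQ', rfl⟩
    exact ⟨P + P', Q + Q', add_mem hP hP', add_mem hQ hQ', by ring⟩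
  · intro b a j c hb ha hj
    rcases b with - | b
    · exact ⟨0, mono 0 a j c, zero_mem _, mono_mem (Nat.zero_le _) ha hj c, by simp⟩
    · exact ⟨mono b a j c, 0, mono_mem (by omega) ha hj c, zero_mem _, by
        simp [mono, yP, pow_succ, mul_assoc]⟩

theorem PX_divX {A B J : ℕ} {G : PP} (hG : G ∈ PX (A + 1) B J) :
    ∃ P Q, P ∈ PX A B J ∧ Q ∈ PX A B J ∧ G = P * xP + Q := by
  refine PX_induction (p := fun G => ∃ P Q, P ∈ PX A B J ∧ Q ∈ PX A B J ∧ G = P * xP + Q)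
    ⟨0, 0, zero_mem _, zero_mem _, by simp⟩ ?_ ?_ hG
  · rintro f g ⟨P, Q, hP, hQ, rfl⟩ ⟨P', Q', hP', hQ', rfl⟩
    exact ⟨P + P', Q + Q', add_mem hP hP', add_mem hQ hQ', by ring⟩
  · intro b a j c hb ha hj
    rcases a with - | a
    · exact ⟨0, mono b 0 j c, zero_mem _, mono_mem hb (Nat.zero_le _) hj c, by simp⟩
    · refine ⟨mono b a j c, 0, mono_mem hb (by omega) hj c, zero_mem _, ?_⟩
      simp only [mono, xP, pow_succ, map_mul, add_zero]
      ring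

/-- division by `y` lowers the degree -/
theorem coeff_of_mul_y {A B J : ℕ} {G : PP} (h : G * yP ∈ PX A B J) (b a j : ℕ)
    (hb : B ≤ b ∨ A < a ∨ J < j) : ((G.coeff b).coeff a).coeff j = 0 := by
  have := h (b + 1) a j (by omega)
  simpa [yP, coeff_mul_X] using this

/-- division by `x` lowers the degree -/
theorem coeff_of_mul_x {A B J : ℕ} {G : PP} (h : G * xP ∈ PX A B J) (b a j : ℕ)
    (hb : B < b ∨ A ≤ a ∨ J < j) : ((G.coeff b).coeff a).coeff j = 0 := by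
  have := h b (a + 1) j (by omega)
  simpa [xP, coeff_mul_C, coeff_mul_X] using this

theorem mem_PX_of_mul_y {A B J : ℕ} {G : PP} (h : G * yP ∈ PX A B J) : G ∈ PX A (B - 1) J :=
  fun b a j hb => coeff_of_mul_y h b a j (by omega)

theorem mem_PX_of_mul_x {A B J : ℕ} {G : PP} (h : G * xP ∈ PX A B J) : G ∈ PX (A - 1) B J :=
  fun b a j hb => coeff_of_mul_x h b a j (by omega)

theorem eq_zero_of_mul_y {A J : ℕ} {G : PP} (h : G * yP ∈ PX A 0 J) : G = 0 :=
  Polynomial.ext fun b => Polynomial.ext fun a => Polynomial.ext fun j => by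
    simpa using coeff_of_mul_y h b a j (.inl (Nat.zero_le b))

theorem eq_zero_of_mul_x {B J : ℕ} {G : PP} (h : G * xP ∈ PX 0 B J) : G = 0 :=
  Polynomial.ext fun b => Polynomial.ext fun a => Polynomial.ext fun j => by
    simpa using coeff_of_mul_x h b a j (.inr (.inl (Nat.zero_le a)))

theorem qe_y_mul (w : QE) :
    ((TrivSqZeroExt.inl X + DualNumber.eps) * w).fst = X * w.fst ∧
      ((TrivSqZeroExt.inl X + DualNumber.eps) * w).snd = X * w.snd + w.fst := by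
  constructor
  · simp
  · simp [TrivSqZeroExt.snd_mul]

theorem qe_x_mul (w : QE) :
    ((TrivSqZeroExt.inl X : QE) * w).fst = X * w.fst ∧
      ((TrivSqZeroExt.inl X : QE) * w).snd = X * w.snd := by
  constructor
  · simp
  · simp [TrivSqZeroExt.snd_mul]

theorem sub_natCast_succ (e : ℕ) : ((e + 1 : ℕ) : ℂ) = (e : ℂ) + 1 := by push_cast; ring

theorem W0_divY {d e n : ℕ} (hd : 1 ≤ d) {w : QE} (hw : w ∈ W0 (d + 2) (e + 1) n) :
    ∃ p q, p ∈ W0 (d + 1) e n ∧ q ∈ W0 (d + 1) e n ∧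
      w = (TrivSqZeroExt.inl X + DualNumber.eps) * p + q := by
  obtain ⟨h1, h2, h3⟩ := hw
  set F := w.fst
  set D := w.snd
  set p : QE := TrivSqZeroExt.inl F.divX + TrivSqZeroExt.inr (D - F.divX).divX
  set q : QE := TrivSqZeroExt.inl (C (F.coeff 0)) + TrivSqZeroExt.inr (C ((D - F.divX).coeff 0))
  have hpf : p.fst = F.divX := by simp [p]
  have hps : p.snd = (D - F.divX).divX := by simp [p]
  have hqf : q.fst = C (F.coeff 0) := by simp [q]
  have hqs : q.snd = C ((D - F.divX).coeff 0) := by simp [q]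
  refine ⟨p, q, ⟨fun i j h => ?_, fun i j h => ?_, ?_⟩, ⟨fun i j h => ?_, fun i j h => ?_, ?_⟩,
    ?_⟩
  · rw [hpf, coeff_divX]
    exact h1 _ _ (by omega)
  · rw [hps, coeff_divX, coeff_sub, coeff_divX, Polynomial.coeff_sub, h2 _ _ (by omega),
      h1 _ _ (by omega), sub_zero]
  · simp only [Nat.add_sub_cancel] at h3 ⊢
    rw [hps, hpf, coeff_divX, coeff_sub, coeff_divX]
    rw [show d + 2 - 1 = d + 1 by omega] at h3
    rw [h3, sub_natCast_succ, map_add, map_one]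
    ring
  · rw [hqf]
    rcases i with - | i
    · rw [coeff_C_zero]
      exact h1 _ _ (by omega)
    · simp
  · rw [hqs]
    rcases i with - | i
    · rw [coeff_C_zero, coeff_sub, coeff_divX, Polynomial.coeff_sub, h2 _ _ (by omega),
        h1 _ _ (by omega), sub_zero]
    · simp
  · rw [hqs, hqf, coeff_C, coeff_C, if_neg (by omega), if_neg (by omega), mul_zero]
  · apply TrivSqZeroExt.ext
    · rw [TrivSqZeroExt.fst_add, (qe_y_mul p).1, hpf, hqf]
      exact (X_mul_divX_add F).symm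
    · rw [TrivSqZeroExt.snd_add, (qe_y_mul p).2, hps, hpf, hqs]
      linear_combination -(X_mul_divX_add (D - F.divX))

theorem W0_divX {d e n : ℕ} (hd : 1 ≤ d) {w : QE} (hw : w ∈ W0 (d + 2) e n) :
    ∃ p q, p ∈ W0 (d + 1) e n ∧ q ∈ W0 (d + 1) e n ∧ w = TrivSqZeroExt.inl X * p + q := by
  obtain ⟨h1, h2, h3⟩ := hw
  set F := w.fst
  set D := w.snd
  set p : QE := TrivSqZeroExt.inl F.divX + TrivSqZeroExt.inr D.divX
  set q : QE := TrivSqZeroExt.inl (C (F.coeff 0)) + TrivSqZeroExt.inr (C (D.coeff 0))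
  have hpf : p.fst = F.divX := by simp [p]
  have hps : p.snd = D.divX := by simp [p]
  have hqf : q.fst = C (F.coeff 0) := by simp [q]
  have hqs : q.snd = C (D.coeff 0) := by simp [q]
  refine ⟨p, q, ⟨fun i j h => ?_, fun i j h => ?_, ?_⟩, ⟨fun i j h => ?_, fun i j h => ?_, ?_⟩,
    ?_⟩
  · rw [hpf, coeff_divX]
    exact h1 _ _ (by omega)
  · rw [hps, coeff_divX]
    exact h2 _ _ (by omega)
  · simp only [Nat.add_sub_cancel] at h3 ⊢
    rw [show d + 2 - 1 = d + 1 by omega] at h3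
    rw [hps, hpf, coeff_divX, coeff_divX, h3]
  · rw [hqf]
    rcases i with - | i
    · rw [coeff_C_zero]
      exact h1 _ _ (by omega)
    · simp
  · rw [hqs]
    rcases i with - | i
    · rw [coeff_C_zero]
      exact h2 _ _ (by omega)
    · simp
  · rw [hqs, hqf, coeff_C, coeff_C, if_neg (by omega), if_neg (by omega), mul_zero]
  · apply TrivSqZeroExt.ext
    · rw [TrivSqZeroExt.fst_add, (qe_x_mul p).1, hpf, hqf]
      exact (X_mul_divX_add F).symm
    · rw [TrivSqZeroExt.snd_add, (qe_x_mul p).2, hps, hqs]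
      exact (X_mul_divX_add D).symm

theorem W0_exactY {d e n : ℕ} (hd : 1 ≤ d) {w : QE} (hw : w ∈ W0 (d + 1) (e + 1) n)
    (hyw : (TrivSqZeroExt.inl X + DualNumber.eps) * w ∈ W0 (d + 1) (e + 1) n) :
    w ∈ W0 d e n := by
  obtain ⟨h1, h2, h3⟩ := hw
  obtain ⟨k1, -, k3⟩ := hyw
  have f0 : ∀ i, d < i → w.fst.coeff i = 0 := fun i hi => Polynomial.ext fun j => by
    have := k1 (i + 1) j (.inl (by omega))
    rw [(qe_y_mul w).1, coeff_X_mul] at this
    simpa using this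
  simp only [Nat.add_sub_cancel] at h3 k3
  rw [f0 (d + 1) (Nat.lt_succ_self d), mul_zero] at h3
  refine ⟨fun i j h => ?_, fun i j h => ?_, ?_⟩
  · rcases h with h | h
    · rw [f0 i h]; simp
    · exact h1 i j (.inr h)
  · rcases h with h | h
    · rcases h.lt_or_eq with h | h
      · exact h2 i j (.inl h)
      · rw [← h, h3]; simp
    · exact h2 i j (.inr h)
  · rw [(qe_y_mul w).1, (qe_y_mul w).2, coeff_add, coeff_X_mul, sub_natCast_succ, map_add,
      map_one] at k3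
    obtain ⟨k, rfl⟩ : ∃ k, d = k + 1 := ⟨d - 1, by omega⟩
    rw [coeff_X_mul] at k3
    rw [Nat.add_sub_cancel]
    linear_combination k3

theorem W0_exactX {d e n : ℕ} (hd : 1 ≤ d) {w : QE} (hw : w ∈ W0 (d + 1) e n)
    (hxw : (TrivSqZeroExt.inl X : QE) * w ∈ W0 (d + 1) e n) : w ∈ W0 d e n := by
  obtain ⟨h1, h2, h3⟩ := hw
  obtain ⟨k1, -, k3⟩ := hxw
  have f0 : ∀ i, d < i → w.fst.coeff i = 0 := fun i hi => Polynomial.ext fun j => by
    have := k1 (i + 1) j (.inl (by omega))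
    rw [(qe_x_mul w).1, coeff_X_mul] at this
    simpa using this
  simp only [Nat.add_sub_cancel] at h3 k3
  rw [f0 (d + 1) (Nat.lt_succ_self d), mul_zero] at h3
  refine ⟨fun i j h => ?_, fun i j h => ?_, ?_⟩
  · rcases h with h | h
    · rw [f0 i h]; simp
    · exact h1 i j (.inr h)
  · rcases h with h | h
    · rcases h.lt_or_eq with h | h
      · exact h2 i j (.inl h)
      · rw [← h, h3]; simp
    · exact h2 i j (.inr h)
  · rw [(qe_x_mul w).1, (qe_x_mul w).2, coeff_X_mul] at k3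
    obtain ⟨k, rfl⟩ : ∃ k, d = k + 1 := ⟨d - 1, by omega⟩
    rw [coeff_X_mul] at k3
    rw [Nat.add_sub_cancel]
    exact k3

theorem sw_y_mul (w : SW) :
    ((qq X + et) * w).fst = (TrivSqZeroExt.inl X + DualNumber.eps) * w.fst ∧
      ((qq X + et) * w).snd = (TrivSqZeroExt.inl X + DualNumber.eps) * w.snd := by
  constructor
  · simp [fst_qq, fst_et]
  · simp [TrivSqZeroExt.snd_mul, fst_qq, fst_et, snd_qq, snd_et]

theorem sw_x_mul (w : SW) :
    (qq X * w).fst = (TrivSqZeroExt.inl X : QE) * w.fst ∧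
      (qq X * w).snd = (TrivSqZeroExt.inl X : QE) * w.snd := by
  constructor
  · simp [fst_qq]
  · simp [TrivSqZeroExt.snd_mul, fst_qq, snd_qq]

theorem WW_divY {d e n : ℕ} (hd : 1 ≤ d) {w : SW} (hw : w ∈ WW (d + 2) (e + 1) n) :
    ∃ p q, p ∈ WW (d + 1) e n ∧ q ∈ WW (d + 1) e n ∧ w = (qq X + et) * p + q := by
  obtain ⟨p, q, hp, hq, hpq⟩ := W0_divY hd hw.1
  obtain ⟨p', q', hp', hq', hpq'⟩ := W0_divY hd hw.2
  set P : SW := TrivSqZeroExt.inl p + TrivSqZeroExt.inr p'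
  set Q : SW := TrivSqZeroExt.inl q + TrivSqZeroExt.inr q'
  have hP1 : P.fst = p := by simp [P]
  have hP2 : P.snd = p' := by simp [P]
  have hQ1 : Q.fst = q := by simp [Q]
  have hQ2 : Q.snd = q' := by simp [Q]
  refine ⟨P, Q, ⟨hP1.symm ▸ hp, hP2.symm ▸ hp'⟩, ⟨hQ1.symm ▸ hq, hQ2.symm ▸ hq'⟩, ?_⟩
  apply TrivSqZeroExt.ext
  · rw [TrivSqZeroExt.fst_add, (sw_y_mul P).1, hP1, hQ1, hpq]
  · rw [TrivSqZeroExt.snd_add, (sw_y_mul P).2, hP2, hQ2, hpq']

theorem WW_divX {d e n : ℕ} (hd : 1 ≤ d) {w : SW} (hw : w ∈ WW (d + 2) e n) :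
    ∃ p q, p ∈ WW (d + 1) e n ∧ q ∈ WW (d + 1) e n ∧ w = qq X * p + q := by
  obtain ⟨p, q, hp, hq, hpq⟩ := W0_divX hd hw.1
  obtain ⟨p', q', hp', hq', hpq'⟩ := W0_divX hd hw.2
  set P : SW := TrivSqZeroExt.inl p + TrivSqZeroExt.inr p'
  set Q : SW := TrivSqZeroExt.inl q + TrivSqZeroExt.inr q'
  have hP1 : P.fst = p := by simp [P]
  have hP2 : P.snd = p' := by simp [P]
  have hQ1 : Q.fst = q := by simp [Q]
  have hQ2 : Q.snd = q' := by simp [Q]
  refine ⟨P, Q, ⟨hP1.symm ▸ hp, hP2.symm ▸ hp'⟩, ⟨hQ1.symm ▸ hq, hQ2.symm ▸ hq'⟩, ?_⟩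
  apply TrivSqZeroExt.ext
  · rw [TrivSqZeroExt.fst_add, (sw_x_mul P).1, hP1, hQ1, hpq]
  · rw [TrivSqZeroExt.snd_add, (sw_x_mul P).2, hP2, hQ2, hpq']

theorem WW_exactY {d e n : ℕ} (hd : 1 ≤ d) {w : SW} (hw : w ∈ WW (d + 1) (e + 1) n)
    (hyw : (qq X + et) * w ∈ WW (d + 1) (e + 1) n) : w ∈ WW d e n :=
  ⟨W0_exactY hd hw.1 ((sw_y_mul w).1 ▸ hyw.1), W0_exactY hd hw.2 ((sw_y_mul w).2 ▸ hyw.2)⟩

theorem WW_exactX {d e n : ℕ} (hd : 1 ≤ d) {w : SW} (hw : w ∈ WW (d + 1) e n)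
    (hxw : qq X * w ∈ WW (d + 1) e n) : w ∈ WW d e n :=
  ⟨W0_exactX hd hw.1 ((sw_x_mul w).1 ▸ hxw.1), W0_exactX hd hw.2 ((sw_x_mul w).2 ▸ hxw.2)⟩

end

end Vale.Agent.P195
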