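import Vale.Agent.P195.Spec

/-!
The junk module `G`: pencils with natural parameters are invertible on it, and `A'` acts
faithfully on it.
-/

namespace Vale.Agent.P195

open CategoryTheory MulOpposite Polynomial Matrix

noncomputable section

theorem sys_pen_val (f : Vtx 2 → Vtx 3) (hf : IsShift f) (τ : Tau 2) (q : ℂ) :
    ((sys f hf).pen τ q).val = Matrix.single (τ, 0) (τ, 1) (dg (zP - algebraMap ℂ PP q)) := by
  have h : dg (zP - algebraMap ℂ PP q) = dg zP - q • (1 : Mat) := by
    refine (RingHom.map_sub dg.toRingHom zP (algebraMap ℂ PP q)).trans ?_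
    show dg zP - dg (algebraMap ℂ PP q) = _
    rw [AlgHom.commutes, Algebra.algebraMap_eq_smul_one]
  rw [h]
  ext x y : 1
  simp [PencilSystem.pen, sys, Matrix.smul_single, Matrix.single_apply]
  split_ifs <;> first | rfl | simp

theorem cpt_ne {q : ℂ} (hq : q ∈ natSet) (i : Fin 3) : cpt i - q ≠ 0 := by
  obtain ⟨n, rfl⟩ := hq
  intro h
  have h2 : (2 + (i.val : ℂ)) ≠ 0 := by exact_mod_cast (by omega : 2 + i.val ≠ 0)
  have h1 : ((n * (2 + i.val) : ℕ) : ℂ) = ((1 : ℕ) : ℂ) := by
    rw [cpt, sub_eq_zero, div_eq_iff h2] at h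
    push_cast
    exact h.symm
  have h3 : n * (2 + i.val) = 1 := by exact_mod_cast h1
  rcases Nat.eq_zero_or_pos n with h4 | h4
  · simp [h4] at h3
  · have := Nat.le_mul_of_pos_left (2 + i.val) h4
    omega

theorem gf_single_smul {c : ℂ} (a : AP) {u w : Vtx 2} {m : Mat}
    (ha : a.val = Matrix.single u w m) (M : Gf c) (x : Vtx 2) (v : Fin 2) :
    (a • M).val x v = if x = u then substM (C c) m * M.val w v else 0 := by
  rw [gf_smul_val, ha, Matrix.mul_apply]
  split_ifs with h
  · subst h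
    rw [Finset.sum_eq_single w]
    · simp
    · intro k _ hk
      simp [Matrix.single_apply_of_ne, hk.symm]
    · simp
  · refine Finset.sum_eq_zero fun k _ => ?_
    simp [Matrix.single_apply_of_ne, Ne.symm h]

theorem gf_idem_smul {c : ℂ} (u : Vtx 2) (M : Gf c) (x : Vtx 2) (v : Fin 2) :
    (idem iota0 u • M).val x v = if x = u then M.val u v else 0 := by
  rw [gf_single_smul (idem iota0 u) (show (idem iota0 u).val = Matrix.single u u 1 from rfl),
    map_one, one_mul]

theorem gf_fix {c : ℂ} {u : Vtx 2} {M : Gf c} (h : idem iota0 u • M = M) {x : Vtx 2}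
    (hx : x ≠ u) (v : Fin 2) : M.val x v = 0 := by
  rw [← h, gf_idem_smul, if_neg hx]

theorem inverse_identity {R : Type} [CommRing R] (A z a b : R) (h : a * A = 1 + b * A) :
    (z - b) * (A + A * A * a + -(A * A) * z) = -(A * A) * (z - a) ^ 2 + 1 := by
  linear_combination (1 + A * a - A * z) * h

/-- the inverse of a pencil on a fibre -/
theorem pen_inv (c q : ℂ) (hcq : c - q ≠ 0) (τ : Tau 2) :
    ∃ m ∈ H (iota0 (τ, 0)) (iota0 (τ, 1)),
      substM (C c) (dg (zP - algebraMap ℂ PP q)) * substM (C c) m = 1 ∧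
      substM (C c) m * substM (C c) (dg (zP - algebraMap ℂ PP q)) = 1 := by
  have hd : (c - q) * (c - q)⁻¹ = 1 := mul_inv_cancel₀ hcq
  generalize hL : (c - q)⁻¹ = r at hd
  have he : (zP - algebraMap ℂ PP q) *
      (algebraMap ℂ PP (r + r * r * c) + algebraMap ℂ PP (-(r * r)) * zP) =
      algebraMap ℂ PP (-(r * r)) * C (C (X - C c)) ^ 2 + 1 := by
    rw [show (C (C (X - C c)) : PP) = zP - algebraMap ℂ PP c by
      simp [zP, Polynomial.algebraMap_apply]]
    have h1 : algebraMap ℂ PP c * algebraMap ℂ PP r =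
        1 + algebraMap ℂ PP q * algebraMap ℂ PP r := by
      rw [← map_mul, ← map_mul, show c * r = 1 + q * r by linear_combination hd, map_add,
        map_one]
    simp only [map_add, map_mul, map_neg]
    exact inverse_identity (R := PP) _ _ _ _ h1
  refine ⟨dg (algebraMap ℂ PP (r + r * r * c) + algebraMap ℂ PP (-(r * r)) * zP), ?_, ?_, ?_⟩
  · rw [map_add, map_mul, AlgHom.commutes, AlgHom.commutes, ← Algebra.smul_def,
      Algebra.algebraMap_eq_smul_one]
    exact Submodule.add_mem _ (Submodule.smul_mem _ _ (H_s IsShift.iota0 τ))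
      (Submodule.smul_mem _ _ (H_z IsShift.iota0 τ))
  · rw [← map_mul, ← map_mul, he, map_add, map_add, map_mul, map_mul, substM_dg_sq, mul_zero,
      zero_add, map_one, map_one]
  · rw [← map_mul, ← map_mul, mul_comm _ (zP - algebraMap ℂ PP q), he, map_add, map_add,
      map_mul, map_mul, substM_dg_sq, mul_zero, zero_add, map_one, map_one]

theorem gf_pen_inj (c q : ℂ) (hcq : c - q ≠ 0) (τ : Tau 2) (y : Gf c)
    (hy : sysP.f1 τ • y = y) (h : sysP.pen τ q • y = 0) : y = 0 := by
  obtain ⟨m, -, -, hm⟩ := pen_inv c q hcq τ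
  refine Gf.ext (Matrix.ext fun x v => ?_)
  rcases eq_or_ne x (τ, 1) with rfl | hx
  · have h2 := gf_single_smul _ (sys_pen_val iota0 IsShift.iota0 τ q) y (τ, 0) v
    rw [if_pos rfl, show sysP.pen τ q • y = 0 from h, Gf.val_zero, Matrix.zero_apply] at h2
    calc y.val (τ, 1) v = substM (C c) m *
          (substM (C c) (dg (zP - algebraMap ℂ PP q)) * y.val (τ, 1) v) := by
            rw [← mul_assoc, hm, one_mul]
      _ = 0 := by rw [← h2, mul_zero]
  · rw [gf_fix hy hx, Gf.val_zero, Matrix.zero_apply]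

theorem gf_pen_surj (c q : ℂ) (hcq : c - q ≠ 0) (τ : Tau 2) (x : Gf c)
    (hx : sysP.f0 τ • x = x) : ∃ y : Gf c, sysP.f1 τ • y = y ∧ sysP.pen τ q • y = x := by
  obtain ⟨m, hm, hm', -⟩ := pen_inv c q hcq τ
  let Y : ColMat := Matrix.of fun u v => if u = (τ, 1) then substM (C c) m * x.val (τ, 0) v else 0
  have hY : ∀ u v, ∃ k ∈ H (iota0 (u.1, 0)) (topV v), substM (C c) k = Y u v := by
    intro u v
    simp only [Y, Matrix.of_apply]
    split_ifs with h
    · subst h
      obtain ⟨k, hk, hk'⟩ := x.mem (τ, 0) v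
      obtain ⟨k', hk1, hk2⟩ := H_fibre c (w := (τ, 1)) hm hk
      exact ⟨k', hk1, by rw [hk2, map_mul, hk']⟩
    · exact ⟨0, Submodule.zero_mem _, map_zero _⟩
  refine ⟨Gf.mk Y hY, Gf.ext (Matrix.ext fun u v => ?_), Gf.ext (Matrix.ext fun u v => ?_)⟩
  · rw [show sysP.f1 τ = idem iota0 (τ, 1) from rfl, gf_idem_smul]
    simp only [Gf.val_mk, Y, Matrix.of_apply]
    split_ifs <;> rfl
  · rw [gf_single_smul _ (sys_pen_val iota0 IsShift.iota0 τ q)]
    split_ifs with h
    · subst h
      simp only [Gf.val_mk, Y, Matrix.of_apply, if_true]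
      rw [← mul_assoc, hm', one_mul]
    · exact (gf_fix hx h v).symm

theorem gg_bij (τ : Tau 2) {q : ℂ} (hq : q ∈ natSet) :
    BijOnComp (sysP.f0 τ) (sysP.f1 τ) (sysP.pen τ q) (ModuleCat.of AP GG) := by
  refine ⟨fun (y : GG) hy h => funext fun i =>
    gf_pen_inj _ q (cpt_ne hq i) τ (y i) (congrFun hy i) (congrFun h i), fun (x : GG) hx => ?_⟩
  choose y hy hy' using fun i => gf_pen_surj _ q (cpt_ne hq i) τ (x i) (congrFun hx i)
  exact ⟨(y : GG), funext hy, funext hy'⟩

/-! ### Faithfulness -/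

theorem gf_mk_single (c : ℂ) {w : Vtx 2} {v : Fin 2} {m : Mat}
    (hm : m ∈ H (iota0 (w.1, 0)) (topV v)) :
    ∀ u k, ∃ n ∈ H (iota0 (u.1, 0)) (topV k),
      substM (C c) n = Matrix.single w v (substM (C c) m) u k := by
  intro u k
  rw [Matrix.single_apply]
  split_ifs with h
  · exact ⟨m, by rwa [← h.1, ← h.2], rfl⟩
  · exact ⟨0, Submodule.zero_mem _, map_zero _⟩

theorem subst_entry {a : AP} (ha : ∀ g : GG, a • g = 0) (u w : Vtx 2) {v : Fin 2} {m : Mat}
    (hm : m ∈ H (iota0 (w.1, 0)) (topV v)) (i : Fin 3) :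
    substM (C (cpt i)) (a.val u w * m) = 0 := by
  have h := ha (Pi.single i (Gf.mk _ (gf_mk_single (cpt i) hm)))
  have h' := congrArg (fun g : GG => (g i).val u v) h
  simp only [Pi.smul_apply, Pi.single_eq_same, Pi.zero_apply, Gf.val_zero, Matrix.zero_apply,
    gf_smul_val, Gf.val_mk] at h'
  rw [Matrix.mul_apply, Finset.sum_eq_single w] at h'
  · simpa [map_mul] using h'
  · intro k _ hk
    simp [Matrix.single_apply_of_ne, hk.symm]
  · simp

theorem cpt_injective : Function.Injective cpt := fun i j h => by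
  simpa [cpt, Fin.val_inj] using h

theorem poly_eq_zero {r : Polynomial ℂ} (hd : ∀ j, 2 < j → r.coeff j = 0)
    (h : ∀ i, r.eval (cpt i) = 0) : r = 0 :=
  Polynomial.eq_zero_of_natDegree_lt_card_of_eval_eq_zero r cpt_injective h
    (by rw [Fintype.card_fin]
        exact Nat.lt_succ_of_le (natDegree_le_iff_coeff_eq_zero.2 fun j hj => hd j hj))

theorem aeval_C_eq (c : ℂ) (r : Polynomial ℂ) : aeval (C c) r = C (r.eval c) := by
  rw [Polynomial.C_eq_algebraMap, aeval_algebraMap_apply, coe_aeval_eq_eval]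
  rfl

theorem Qx_eq_zero {f : Qx} (hd : ∀ i j, 2 < j → (f.coeff i).coeff j = 0)
    (h : ∀ k, substQ (C (cpt k)) f = 0) : f = 0 := by
  refine Polynomial.ext fun i => ?_
  rw [coeff_zero]
  refine poly_eq_zero (hd i) fun k => ?_
  have := congrArg (fun g : Qx => g.coeff i) (h k)
  simpa [substQ_apply, aeval_C_eq] using this

theorem W0_eq_zero {d e n : ℕ} (hn : n ≤ 2) {w : QE} (hw : w ∈ W0 d e n)
    (h : ∀ k, dmap (substQ (C (cpt k))) w = 0) : w = 0 := by
  obtain ⟨h1, h2, -⟩ := hw
  refine TrivSqZeroExt.ext ?_ ?_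
  · exact Qx_eq_zero (fun i j hj => h1 i j (.inr (by omega))) fun k => by
      simpa [dmap_fst] using congrArg TrivSqZeroExt.fst (h k)
  · exact Qx_eq_zero (fun i j hj => h2 i j (.inr (by omega))) fun k => by
      simpa [dmap_snd] using congrArg TrivSqZeroExt.snd (h k)

theorem WW_eq_zero {d e n : ℕ} (hn : n ≤ 2) {w : SW} (hw : w ∈ WW d e n)
    (h : ∀ k, substW (C (cpt k)) w = 0) : w = 0 :=
  TrivSqZeroExt.ext
    (W0_eq_zero hn hw.1 fun k => by rw [← substW_fst, h k]; rfl)
    (W0_eq_zero hn hw.2 fun k => by rw [← substW_snd, h k]; rfl)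

theorem WW_alW {d e n : ℕ} {w : SW} (hw : w ∈ WW d e n) (v' v : Fin 2) :
    alW v' v * w ∈ WW d e n := by
  unfold alW
  split_ifs
  · simpa using hw
  · simp
  · exact WW_ep hw

theorem WW_beW {d e n : ℕ} {w : SW} (hw : w ∈ WW d e n) (v' v : Fin 2) :
    beW v' v * w ∈ WW d e n := by
  unfold beW
  split_ifs
  · exact WW_ep hw
  · simpa using hw

theorem mW_eq_zero {v' v : Fin 2} {w : SW} (h : mW v' v w = 0) :
    alW v' v * w = 0 ∧ beW v' v * w = 0 := by
  have h1 := congrFun (congrFun h 0) 1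
  have h2 := congrFun (congrFun h 1) 0
  simp [mW_apply, Prod.ext_iff] at h1 h2
  exact ⟨h1, h2⟩

theorem one_mem_top (w : Vtx 2) (a b : Fin 2) (v : Fin 2) (hw : w.1 = Tau.X a b v) :
    (1 : Mat) ∈ H (iota0 (w.1, 0)) (topV v) := by
  rw [hw, H_iota0_X_top]
  exact ⟨1, one_mem_PX _ _ _, by simp [mX_apply, arrX]⟩

theorem entry_X_X {J A B : ℕ} (hJ : J ≤ 2) {p q : Fin 2} {G : PP} (hG : G ∈ PX A B J)
    (h : ∀ i, substM (C (cpt i)) (mX p q G) = 0) : G = 0 := by
  refine Polynomial.ext fun b => ?_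
  rw [coeff_zero]
  refine Qx_eq_zero (fun a j hj => hG b a j (.inr (.inr (by omega)))) fun k => ?_
  have h' := congrFun (congrFun (h k) q) q
  have e : (mX p q G) q q = (dg G) q q := by
    rw [mX_apply, arrX]
    split_ifs <;> simp
  rw [substM, RingHom.mapMatrix_apply, Matrix.map_apply, e, dg_apply, Matrix.diagonal_apply_eq,
    Matrix.zero_apply] at h'
  have h'' : Polynomial.mapAlgHom (substQ (C (cpt k))) G = 0 := by
    fin_cases q <;> exact congrArg Prod.fst h'
  have := congrArg (fun g : PP => g.coeff b) h''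
  simpa using this

/-- the constant term in `η` and `ε` -/
def ffW : SW →+* Qx :=
  (TrivSqZeroExt.fstHom Qx Qx Qx).toRingHom.comp (TrivSqZeroExt.fstHom QE QE QE).toRingHom

theorem ffW_apply (w : SW) : ffW w = w.fst.fst := rfl

theorem ffW_evz {Z : SW} (hZ : ffW Z = C X) (g : Polynomial ℂ) :
    ffW (evz Z (C (C g))) = C g := by
  induction g using Polynomial.induction_on' with
  | add p q hp hq => simp only [map_add, hp, hq]
  | monomial j r =>
    simp only [← C_mul_X_pow_eq_monomial, evz, map_mul, map_pow, aevalTower_C, aeval_C, aeval_X,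
      hZ]
    congr 1

theorem entry_Z_Z {J : ℕ} (hJ : J ≤ 2) {p q : Fin 2} {G : PP} (hG : G ∈ PX 0 0 J)
    (h : ∀ i v, substM (C (cpt i)) (mZ p q G * mW q v 1) = 0) : G = 0 := by
  have hb : ∀ b, 0 < b → G.coeff b = 0 := fun b hb => Polynomial.ext fun a =>
    Polynomial.ext fun j => by simpa using hG b a j (.inl hb)
  have ha : ∀ a, 0 < a → (G.coeff 0).coeff a = 0 := fun a ha =>
    Polynomial.ext fun j => by simpa using hG 0 a j (.inr (.inl ha))
  obtain ⟨g, rfl⟩ : ∃ g, G = C (C g) := by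
    refine ⟨(G.coeff 0).coeff 0, ?_⟩
    have e1 : G = C (G.coeff 0) := Polynomial.ext fun b => by
      rcases Nat.eq_zero_or_pos b with rfl | hb'
      · simp
      · simp [hb b hb', Polynomial.coeff_C, hb'.ne']
    have e2 : G.coeff 0 = C ((G.coeff 0).coeff 0) := Polynomial.ext fun a => by
      rcases Nat.eq_zero_or_pos a with rfl | ha'
      · simp
      · simp [ha a ha', Polynomial.coeff_C, ha'.ne']
    rwa [← e2]
  suffices g = 0 by simp [this]
  refine poly_eq_zero (fun j hj => by simpa using hG 0 0 j (.inr (.inr (by omega)))) fun k => ?_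
  have hh : ∀ v, alW p v * substW (C (cpt k)) (wmulZ p q v (C (C g)) 1) = 0 ∧
      beW p v * substW (C (cpt k)) (wmulZ p q v (C (C g)) 1) = 0 := fun v =>
    mW_eq_zero (by rw [← substM_mW, ← mZ_mul_mW]; exact h k v)
  have hf : ∀ Z, ffW Z = C X → ffW (substW (C (cpt k)) (evz Z (C (C g)))) = 0 →
      g.eval (cpt k) = 0 := by
    intro Z hZ h0
    rw [ffW_apply, substW_fst, dmap_fst, ← ffW_apply, ffW_evz hZ] at h0
    simpa [substQ, aeval_C_eq] using h0
  have hp : ffW (qq (C X)) = C X := rfl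
  have hs : ffW (qq (C X) + ep) = C X := by
    rw [map_add, hp, show ffW ep = 0 from rfl, add_zero]
  fin_cases p
  · have h1 := (hh 1).1
    simp only [alW, wmulZ, Fin.zero_eta, Fin.isValue, and_self, if_true, zero_ne_one,
      one_ne_zero, reduceIte, one_mul, mul_one] at h1
    split_ifs at h1
    · exact hf _ hp (by rw [← pl_eq, h1, map_zero])
    · refine hf _ hp ?_
      rw [← pl_eq]
      rw [map_mul, substW_ep] at h1
      have := congrArg (fun z : SW => z.snd.fst) h1
      simpa [fst_ep, snd_ep, ffW_apply] using this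
  · have h1 := (hh 0).2
    simp only [beW, wmulZ, Fin.mk_one, Fin.isValue, zero_ne_one, one_ne_zero,
      and_false, reduceIte, one_mul, mul_one, ite_self] at h1
    exact hf _ hs (by rw [← sg_eq, h1, map_zero])

theorem one_mem_WW : (1 : SW) ∈ WW 5 3 2 := by
  refine ⟨⟨fun i j h => ?_, fun i j h => ?_, ?_⟩, ?_⟩
  · simp only [TrivSqZeroExt.fst_one, coeff_one]
    split_ifs with hi
    · rw [coeff_one, if_neg (by omega)]
    · exact coeff_zero j
  · simp
  · simp [coeff_one]
  · simp

theorem rho_inj : Function.Injective rho := by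
  refine (injective_iff_map_eq_zero rho).2 fun a ha => ?_
  have ha' : ∀ g : GG, a • g = 0 := fun g => by rw [← rho_apply, ha]; rfl
  refine Cor.ext (Matrix.ext fun u w => ?_)
  rw [Cor.val_zero, Matrix.zero_apply]
  have hm := a.mem u w
  obtain ⟨τ, i⟩ := u
  obtain ⟨σ, j⟩ := w
  rcases σ with ⟨a₁, b₁, q⟩ | q
  · have h1 : ∀ k, substM (C (cpt k)) (a.val (τ, i) (Tau.X a₁ b₁ q, j)) = 0 := fun k => by
      simpa using subst_entry ha' (τ, i) (Tau.X a₁ b₁ q, j) (one_mem_top _ _ _ _ rfl) k
    rcases τ with ⟨a₀, b₀, p⟩ | p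
    · simp only [iota0, Tau.map, H] at hm
      split_ifs at hm
      swap; · exact (Submodule.mem_bot ℂ).1 hm
      obtain ⟨G, hG, e⟩ := hm
      rw [← e] at h1 ⊢
      rw [entry_X_X (by omega) hG h1, map_zero]
    · simp only [iota0, Tau.map, H] at hm
      obtain ⟨W, hW, e⟩ := hm
      rw [← e] at h1 ⊢
      have hn : 1 + j.val - i.val ≤ 2 := by omega
      have h2 := fun k => mW_eq_zero (by rw [← substM_mW]; exact h1 k)
      have hal : alW p q * W = 0 := WW_eq_zero hn (WW_alW hW p q) fun k => by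
        have e : substW (C (cpt k)) (alW p q) = alW p q := by
          unfold alW; split_ifs <;> simp [substW_ep]
        rw [map_mul, e, (h2 k).1]
      have hbe : beW p q * W = 0 := WW_eq_zero hn (WW_beW hW p q) fun k => by
        have e : substW (C (cpt k)) (beW p q) = beW p q := by
          unfold beW; split_ifs <;> simp [substW_ep]
        rw [map_mul, e, (h2 k).2]
      ext x y : 1
      rw [mW_apply, hal, hbe]
      fin_cases x <;> fin_cases y <;> rfl
  · rcases τ with ⟨a₀, b₀, p⟩ | p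
    · simpa [iota0, Tau.map, H] using hm
    · have hmem : ∀ v, mW q v 1 ∈ H (iota0 ((Tau.Z q : Tau 2), 0)) (topV v) := fun v => by
        rw [H_iota0_Z_top]
        exact ⟨1, one_mem_WW, rfl⟩
      simp only [iota0, Tau.map, H] at hm
      split_ifs at hm
      swap; · exact (Submodule.mem_bot ℂ).1 hm
      obtain ⟨G, hG, e⟩ := hm
      rw [← e, entry_Z_Z (by omega) hG fun k v => by
        rw [e]; exact subst_entry ha' (Tau.Z p, i) (Tau.Z q, j) (hmem v) k, map_zero]

end

end Vale.Agent.P195
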