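import Vale.Agent.P195.RCols

/-!
From the vanishing of the extensions of `C` to a counterexample: the fourth syzygy of `C`
(for covers by the columns of the lower levels) has no extensions by itself or by `R`,
and is not projective.
-/

namespace Vale.Agent.P195

open CategoryTheory MulOpposite RCols

noncomputable section

namespace MainStep

theorem jTop_mul_col {l : Fin 5} (hl : l ≠ Fin.last 4) {r : RR} (hr : r * jLev l 1 = r) :
    jTop 1 * r = 0 := by
  rw [← hr, ← mul_assoc, jLev_apply, jTop_apply]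
  apply TrivSqZeroExt.ext
  · rw [TrivSqZeroExt.fst_mul, TrivSqZeroExt.fst_mul, TrivSqZeroExt.fst_inl,
      TrivSqZeroExt.fst_inl, TrivSqZeroExt.fst_zero]
    refine Prod.ext ?_ ?_
    · rw [Prod.fst_mul, Prod.fst_mul, dTop_fst, zero_mul, zero_mul]
      rfl
    · rw [Prod.snd_mul, Prod.snd_mul, dLev_snd, mul_zero]
      rfl
  · rw [TrivSqZeroExt.snd_mul, TrivSqZeroExt.snd_inl, TrivSqZeroExt.fst_inl, smul_zero, zero_add,
      TrivSqZeroExt.snd_mul, TrivSqZeroExt.snd_inl, TrivSqZeroExt.fst_inl, smul_zero, add_zero,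
      TrivSqZeroExt.snd_zero]
    refine RB.ext (funext fun i => ?_) ?_ ?_
    · rw [id_op_smul, id_smul, dTop_fst, Pi.zero_apply, zero_mul, zero_mul]
      rfl
    · rw [uu_op_smul, dLev_fst, Pi.single_eq_of_ne (Ne.symm hl)]
      exact zero_smul APᵐᵒᵖ _
    · rw [pp_op_smul, dLev_snd]
      exact zero_smul AXᵐᵒᵖ _

theorem jLev_mul_col {l k : Fin 5} (hk : l.val + 1 < k.val) {r : RR} (hr : r * jLev l 1 = r) :
    jLev k 1 * r = 0 := by
  rw [← hr, ← mul_assoc, jLev_apply, jLev_apply]
  apply TrivSqZeroExt.ext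
  · rw [TrivSqZeroExt.fst_mul, TrivSqZeroExt.fst_mul, TrivSqZeroExt.fst_inl,
      TrivSqZeroExt.fst_inl, TrivSqZeroExt.fst_zero]
    refine Prod.ext (funext fun i => ?_) ?_
    · rw [Prod.fst_mul, Prod.fst_mul, Pi.mul_apply, Pi.mul_apply, dLev_fst, dLev_fst]
      rcases eq_or_ne i k with rfl | h
      · rw [Pi.single_eq_of_ne (fun e : i = l => by subst e; omega), mul_zero]
        rfl
      · rw [Pi.single_eq_of_ne h, zero_mul, zero_mul]
        rfl
    · rw [Prod.snd_mul, Prod.snd_mul, dLev_snd, zero_mul, zero_mul]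
      rfl
  · rw [TrivSqZeroExt.snd_mul, TrivSqZeroExt.snd_inl, TrivSqZeroExt.fst_inl, smul_zero, zero_add,
      TrivSqZeroExt.snd_mul, TrivSqZeroExt.snd_inl, TrivSqZeroExt.fst_inl, smul_zero, add_zero,
      TrivSqZeroExt.snd_zero]
    refine RB.ext (funext fun i => ?_) ?_ ?_
    · rw [id_op_smul, id_smul, dLev_fst, dLev_fst]
      rcases eq_or_ne i.succ k with h | h
      · rw [Pi.single_eq_of_ne (fun e : i.castSucc = l => by subst h; subst e; simp at hk),
          mul_zero]
        rfl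
      · rw [Pi.single_eq_of_ne h, zero_mul, zero_mul]
        rfl
    · rw [uu_op_smul, uu_smul, dLev_snd, zero_smul, smul_zero]
      rfl
    · rw [pp_op_smul, pp_smul, dLev_fst,
        Pi.single_eq_of_ne (fun e : (0 : Fin 5) = k => by subst e; simp at hk), zero_smul,
        smul_zero]
      rfl

/-- supported at the levels at most `j` -/
def Sup (j : ℕ) (N : ModuleCat.{0} RR) : Prop :=
  ∀ x : N, jTop 1 • x = 0 ∧ ∀ k : Fin 5, j < k.val → jLev k 1 • x = 0

theorem sup_modC : Sup 0 ModC := by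
  intro x
  refine ⟨?_, fun k hk => ?_⟩
  · show toC0 (jTop 1 • x) = 0
    rw [toC0_smul, show projZero (jTop 1) = 0 from rfl, zero_smul]
  · have h0 : projZero (jLev k 1) = 0 := by
      show (Pi.single k (1 : AP) : Fin 5 → AP) 0 = 0
      exact Pi.single_eq_of_ne (fun e : (0 : Fin 5) = k => by subst e; simp at hk) 1
    show toC0 (jLev k 1 • x) = 0
    rw [toC0_smul, h0, zero_smul]

/-- a sum of columns -/
abbrev Pcols {ι : Type} (lv : ι → Fin 5) : ModuleCat.{0} RR :=
  ModuleCat.of RR (∀ i, levCol (lv i))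

/-- right multiplication onto a column -/
def toCol (l : Fin 5) : RR →ₗ[RR] levCol l where
  toFun r := ⟨r * jLev l 1, mem_col (by rw [mul_assoc, jLev_one_mul])⟩
  map_add' r s := Subtype.ext (add_mul r s _)
  map_smul' r s := Subtype.ext (mul_assoc r s _)

/-- the generator of a column -/
def colGen (l : Fin 5) : levCol l := ⟨jLev l 1, Submodule.mem_span_singleton_self _⟩

theorem toCol_self (l : Fin 5) (v : levCol l) : toCol l v.1 = v :=
  Subtype.ext (col_eq (jLev_one_mul l) v.2)

theorem pcols_finite {ι : Type} [Fintype ι] (lv : ι → Fin 5) : Module.Finite RR (Pcols lv) := by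
  have : ∀ i, Module.Finite RR (levCol (lv i)) := fun i => Module.Finite.span_singleton RR _
  exact Module.Finite.pi

theorem pcols_ev_left {ι : Type} [Fintype ι] (lv : ι → Fin 5) {n : ℕ} (hn : 1 ≤ n)
    (Z : ModuleCat.{0} RR) : EV n (Pcols lv) Z := by
  classical
  refine ev_of_factor_left (fun _ : ι => ModuleCat.of RR RR)
    (fun i => (Submodule.span RR {jLev (lv i) 1}).subtype ∘ₗ LinearMap.proj i)
    (fun i => LinearMap.single RR (fun i => levCol (lv i)) i ∘ₗ toCol (lv i))
    (fun v => ?_) (fun _ => ev_ring hn Z)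
  show (∑ i, Pi.single i (toCol (lv i) (v i).1)) = v
  exact (Finset.sum_congr rfl fun i _ => congrArg (Pi.single i) (toCol_self (lv i) (v i))).trans
    (Finset.univ_sum_single v)

theorem pcols_ev_right {ι : Type} [Fintype ι] (lv : ι → Fin 5) {n : ℕ} (X : ModuleCat.{0} RR)
    (h : ∀ i, EV n X (levCol (lv i))) : EV n X (Pcols lv) := by
  classical
  refine ev_of_factor (fun i => levCol (lv i)) (fun i => LinearMap.proj i)
    (fun i => LinearMap.single RR (fun i => levCol (lv i)) i) (fun v => ?_) h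
  exact Finset.univ_sum_single v

/-- evaluation at given elements -/
def evalAt {ι : Type} [Fintype ι] {lv : ι → Fin 5} {N : ModuleCat.{0} RR} (u : ι → N) :
    Pcols lv →ₗ[RR] N where
  toFun v := ∑ i, (v i).1 • u i
  map_add' v w := by
    show (∑ i, ((v i).1 + (w i).1) • u i) = _
    simp only [add_smul, Finset.sum_add_distrib]
  map_smul' r v := by
    show (∑ i, (r * (v i).1) • u i) = r • _
    simp only [mul_smul, Finset.smul_sum]

theorem evalAt_single {ι : Type} [Fintype ι] [DecidableEq ι] {lv : ι → Fin 5}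
    {N : ModuleCat.{0} RR} (u : ι → N) (i : ι) :
    evalAt (lv := lv) u (Pi.single i (colGen (lv i))) = jLev (lv i) 1 • u i := by
  show (∑ k, ((Pi.single i (colGen (lv i)) : ∀ k, levCol (lv k)) k).1 • u k) = _
  rw [Finset.sum_eq_single i]
  · rw [Pi.single_eq_same]
    rfl
  · intro k _ hk
    rw [Pi.single_eq_of_ne hk]
    exact zero_smul RR (u k)
  · exact fun h => absurd (Finset.mem_univ i) h

/-- a module supported at the levels at most `j` is covered by their columns -/
theorem exists_cover (j : ℕ) (N : ModuleCat.{0} RR) (hfin : Module.Finite RR N) (hsup : Sup j N) :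
    ∃ (ι : Type) (_ : Fintype ι) (lv : ι → Fin 5), (∀ i, (lv i).val ≤ j) ∧
      ∃ g : Pcols lv →ₗ[RR] N, Function.Surjective g := by
  classical
  obtain ⟨m, s, hs⟩ := Module.Finite.exists_fin (R := RR) (M := N)
  refine ⟨Fin m × {l : Fin 5 // l.val ≤ j}, inferInstance, fun i => i.2.1, fun i => i.2.2,
    evalAt (fun i => s i.1), ?_⟩
  rw [← LinearMap.range_eq_top, eq_top_iff, ← hs, Submodule.span_le]
  rintro _ ⟨t, rfl⟩
  have hx : s t = ((∑ l : Fin 5, jLev l 1) + jTop 1) • s t := by rw [sum_jLev_one, one_smul]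
  rw [SetLike.mem_coe, hx, add_smul, Finset.sum_smul, (hsup (s t)).1, add_zero]
  refine Submodule.sum_mem _ fun l _ => ?_
  by_cases hl : l.val ≤ j
  · exact ⟨_, evalAt_single (lv := fun i : Fin m × {l : Fin 5 // l.val ≤ j} => i.2.1)
      (fun i => s i.1) (t, ⟨l, hl⟩)⟩
  · rw [(hsup (s t)).2 l (by omega)]
    exact Submodule.zero_mem _

theorem sup_pcols {ι : Type} (lv : ι → Fin 5) {j : ℕ} (hj : j ≤ 3) (h : ∀ i, (lv i).val ≤ j) :
    Sup (j + 1) (Pcols lv) := by
  intro v
  refine ⟨funext fun i => Subtype.ext ?_, fun k hk => funext fun i => Subtype.ext ?_⟩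
  · show jTop 1 * (v i).1 = 0
    refine jTop_mul_col (fun e => ?_) (col_eq (jLev_one_mul _) (v i).2)
    have := h i
    rw [e] at this
    simp at this
    omega
  · show jLev k 1 * (v i).1 = 0
    exact jLev_mul_col (by have := h i; omega) (col_eq (jLev_one_mul _) (v i).2)

/-- one step of the resolution -/
theorem syz_step (hN : IsNoetherianRing RR) (hLow : SpecCLow) (j : ℕ) (hj : j ≤ 3)
    (N : ModuleCat.{0} RR) (hfin : Module.Finite RR N) (hsup : Sup j N) :
    ∃ K : ModuleCat.{0} RR, Module.Finite RR K ∧ Sup (j + 1) K ∧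
      (∀ n Z, EV (n + 2) N Z → EV (n + 1) K Z) ∧
      (∀ n, EV n ModC N → EV (n + 1) ModC K) ∧
      (∀ n, EV (n + 1) ModC K → EV n ModC N) := by
  obtain ⟨ι, hι, lv, hlv, g, hg⟩ := exists_cover j N hfin hsup
  have hne : ∀ i, lv i ≠ Fin.last 4 := fun i e => by
    have := hlv i
    rw [e] at this
    simp at this
    omega
  have hP : ∀ n, EV n ModC (Pcols lv) := fun n =>
    pcols_ev_right lv ModC fun i => hLow n (lv i) (hne i)
  have := pcols_finite lv
  have : IsNoetherian RR (Pcols lv) := isNoetherian_of_isNoetherianRing_of_finite RR _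
  have hS := shortExact_mk (X := ModuleCat.of RR (LinearMap.ker g)) (LinearMap.ker g).subtype g
    Subtype.val_injective hg (LinearMap.exact_subtype_ker_map g)
  refine ⟨ModuleCat.of RR (LinearMap.ker g), Module.IsNoetherian.finite RR _, fun x => ?_,
    fun n Z h => ev_left hS Z (pcols_ev_left lv (by omega) Z) h,
    fun n h => ev_left' hS ModC h (hP (n + 1)),
    fun n h => ev_right' hS ModC (hP n) h⟩
  refine ⟨Subtype.ext ((sup_pcols lv hj hlv x.1).1), fun k hk => Subtype.ext ?_⟩
  exact (sup_pcols lv hj hlv x.1).2 k hk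

/-- `Ext^n(C, R) = 0` for `n ≥ 5` -/
theorem ev_modC_ring (hLow : SpecCLow) (hMid : SpecCMid) (hTop : SpecCTop) {n : ℕ} (hn : 5 ≤ n) :
    EV n ModC (ModuleCat.of RR RR) := by
  let W : Option (Fin 5) → ModuleCat.{0} RR := fun o => match o with
    | none => topCol
    | some l => levCol l
  let toTop : RR →ₗ[RR] topCol :=
    { toFun := fun r => ⟨r * jTop 1, mem_col (by rw [mul_assoc, RCols.jTop_one_mul])⟩
      map_add' := fun r s => Subtype.ext (add_mul r s _)
      map_smul' := fun r s => Subtype.ext (mul_assoc r s _) }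
  refine ev_of_factor W
    (fun o => match o with | none => toTop | some l => toCol l)
    (fun o => match o with
      | none => (Submodule.span RR {jTop 1}).subtype
      | some l => (Submodule.span RR {jLev l 1}).subtype)
    (fun r => ?_) (fun o => ?_)
  · rw [Fintype.sum_option]
    show r * jTop 1 + ∑ l, r * jLev l 1 = r
    rw [← Finset.mul_sum, ← mul_add, add_comm, sum_jLev_one, mul_one]
  · rcases o with _ | l
    · exact hTop n hn
    · by_cases hl : l = Fin.last 4
      · subst hl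
        exact hMid n
      · exact hLow n l hl

theorem modC_not_ev_zero : ¬ EV 0 ModC ModC := by
  intro h
  have hx : (show ModC from C0.of fun _ => 1) = 0 :=
    LinearMap.congr_fun (ev_zero_iff.1 h LinearMap.id) _
  exact one_ne_zero (congrFun (congrArg toC0 hx) (0, 0))

end MainStep

open MainStep

/-- The conditions on `C` give a counterexample to the Auslander-Reiten conjecture. -/
theorem ar_counterexample (hCC : SpecCC) (hLow : SpecCLow) (hMid : SpecCMid) (hTop : SpecCTop)
    (hFin : Module.Finite ℂ RR) :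
    ∃ (R : Type) (_ : Ring R) (_ : Algebra ℂ R), Module.Finite ℂ R ∧
      ∃ M : ModuleCat.{0} R, Module.Finite R M ∧ ¬ Module.Projective R M ∧
        ∀ i : ℕ, 1 ≤ i → Subsingleton (CategoryTheory.Abelian.Ext M M i) ∧
          Subsingleton (CategoryTheory.Abelian.Ext M (ModuleCat.of R R) i) := by
  have hN : IsNoetherianRing RR := IsNoetherianRing.of_finite ℂ RR
  obtain ⟨K₁, f₁, s₁, a₁, b₁, c₁⟩ := syz_step hN hLow 0 (by omega) ModC cr_finite sup_modC
  obtain ⟨K₂, f₂, s₂, a₂, b₂, c₂⟩ := syz_step hN hLow 1 (by omega) K₁ f₁ s₁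
  obtain ⟨K₃, f₃, s₃, a₃, b₃, c₃⟩ := syz_step hN hLow 2 (by omega) K₂ f₂ s₂
  obtain ⟨M, f₄, s₄, a₄, b₄, c₄⟩ := syz_step hN hLow 3 (by omega) K₃ f₃ s₃
  have shift : ∀ i Z, 1 ≤ i → EV (i + 4) ModC Z → EV i M Z := by
    intro i Z hi h
    obtain ⟨n, rfl⟩ : ∃ n, i = n + 1 := ⟨i - 1, by omega⟩
    exact a₄ n Z (a₃ (n + 1) Z (a₂ (n + 2) Z (a₁ (n + 3) Z h)))
  refine ⟨RR, instRingRR, instAlgebraRR, hFin, M, f₄, fun hproj => ?_,
    fun i hi => ⟨shift i M hi ?_, shift i _ hi (ev_modC_ring hLow hMid hTop (by omega))⟩⟩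
  · obtain ⟨ι, hι, lv, hlv, g, hg⟩ := exists_cover 4 M f₄ s₄
    obtain ⟨h, hh⟩ := Module.projective_lifting_property g (LinearMap.id (R := RR) (M := M)) hg
    have h4 : EV 4 ModC M := by
      refine ev_of_factor (ι := Unit) (fun _ => Pcols lv) (fun _ => h) (fun _ => g)
        (fun y => by simpa using LinearMap.congr_fun hh y) (fun _ => ?_)
      refine pcols_ev_right lv ModC fun i => ?_
      by_cases hl : lv i = Fin.last 4
      · rw [hl]
        exact hMid 4
      · exact hLow 4 _ hl
    exact modC_not_ev_zero (c₁ 0 (c₂ 1 (c₃ 2 (c₄ 3 h4))))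
  · exact b₄ _ (b₃ _ (b₂ _ (b₁ i (hCC i hi))))

end

end Vale.Agent.P195
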