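import Vale.Agent.P195.EV

/-!
Pencil systems: families of Kronecker pairs inside an algebra, spectral classes of modules,
and the vanishing of all `Ext` between modules of disjoint spectral classes.
-/

namespace Vale.Agent.P195

open CategoryTheory

/-- Left multiplication by `a` is a bijection from the `e1`-component of `M` to the
`e0`-component. -/
def BijOnComp {A : Type} [Ring A] (e0 e1 a : A) (M : ModuleCat.{0} A) : Prop :=
  (∀ y : M, e1 • y = y → a • y = 0 → y = 0) ∧
    ∀ x : M, e0 • x = x → ∃ y : M, e1 • y = y ∧ a • y = x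

/-- A finite family of Kronecker pairs `s i, t i ∈ f0 i * A * f1 i` in an algebra, the
idempotents summing to `1`. -/
structure PencilSystem (A : Type) [Ring A] [Algebra ℂ A] (ι : Type) [Fintype ι] where
  f0 : ι → A
  f1 : ι → A
  s : ι → A
  t : ι → A
  f0_idem : ∀ i, f0 i * f0 i = f0 i
  f1_idem : ∀ i, f1 i * f1 i = f1 i
  left_s : ∀ i, f0 i * s i = s i
  right_s : ∀ i, s i * f1 i = s i
  left_t : ∀ i, f0 i * t i = t i
  right_t : ∀ i, t i * f1 i = t i
  complete : ∑ i, (f0 i + f1 i) = 1

namespace PencilSystem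

variable {A : Type} [Ring A] [Algebra ℂ A] {ι : Type} [Fintype ι] (P : PencilSystem A ι)

/-- the pencil `t - q s` -/
def pen (i : ι) (q : ℂ) : A := P.t i - q • P.s i

theorem left_pen (i : ι) (q : ℂ) : P.f0 i * P.pen i q = P.pen i q := by
  simp [pen, mul_sub, P.left_t, P.left_s]

theorem right_pen (i : ι) (q : ℂ) : P.pen i q * P.f1 i = P.pen i q := by
  simp [pen, sub_mul, P.right_t, P.right_s]

/-- the spectral class `Cl S` : finitely generated, `s` bijective, pencils outside `S` bijective -/
def Cl (S : ι → Set ℂ) (M : ModuleCat.{0} A) : Prop :=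
  Module.Finite A M ∧ (∀ i, BijOnComp (P.f0 i) (P.f1 i) (P.s i) M) ∧
    ∀ i, ∀ q, q ∉ S i → BijOnComp (P.f0 i) (P.f1 i) (P.pen i q) M

/-- disjointness from `S` : pencils inside `S` bijective -/
def Disj (S : ι → Set ℂ) (M : ModuleCat.{0} A) : Prop :=
  ∀ i, ∀ q, q ∈ S i → BijOnComp (P.f0 i) (P.f1 i) (P.pen i q) M

/-- the kernel of right multiplication by the pencil on the column `A * f0 i` -/
noncomputable def kerPen (i : ι) (p : ℂ) : Submodule A A :=
  Submodule.span A {P.f0 i} ⊓ LinearMap.ker (LinearMap.toSpanSingleton A A (P.pen i p))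

/-- the cokernel of right multiplication by the pencil, `A * f1 i / A * pen` -/
noncomputable abbrev cokPen (i : ι) (p : ℂ) :=
  ↥(Submodule.span A {P.f1 i}) ⧸
    (Submodule.span A {P.pen i p}).comap (Submodule.span A {P.f1 i}).subtype

/-- the hypothesis on the columns of the algebra -/
def Regular (S : ι → Set ℂ) : Prop :=
  ∀ i, ∀ p, p ∈ S i →
    P.Cl S (ModuleCat.of A (P.kerPen i p)) ∧ P.Cl S (ModuleCat.of A (P.cokPen i p))

end PencilSystem

end Vale.Agent.P195
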