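import Vale.Agent.P195.Cat
import Vale.Agent.P195.Pencil
import Vale.Agent.P195.HomP

/-!
The algebras, the bimodules, and the junk module of the counterexample (P195).
-/

namespace Vale.Agent.P195

open Polynomial Matrix

noncomputable section

/-- the algebra of a corner, as a type of its own (this keeps instance search short) -/
def Cor (f : Vtx 2 → Vtx 3) : Type := ↥(corner f)

instance (f : Vtx 2 → Vtx 3) : Ring (Cor f) := inferInstanceAs (Ring ↥(corner f))
instance (f : Vtx 2 → Vtx 3) : Algebra ℂ (Cor f) := inferInstanceAs (Algebra ℂ ↥(corner f))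

namespace Cor

variable {f : Vtx 2 → Vtx 3}

/-- the underlying matrix -/
def val (a : Cor f) : BigMat := Subtype.val (a : ↥(corner f))
/-- constructor -/
def mk (M : BigMat) (h : ∀ u w, M u w ∈ H (f u) (f w)) : Cor f := (⟨M, h⟩ : ↥(corner f))

theorem mem (a : Cor f) : ∀ u w, a.val u w ∈ H (f u) (f w) := Subtype.prop (a : ↥(corner f))

@[ext] theorem ext {a b : Cor f} (h : a.val = b.val) : a = b := Subtype.ext h

theorem val_injective : Function.Injective (val (f := f)) := fun _ _ h => Cor.ext h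

@[simp] theorem val_mk (M : BigMat) (h) : (mk (f := f) M h).val = M := rfl
@[simp] theorem val_one : (1 : Cor f).val = 1 := rfl
@[simp] theorem val_zero : (0 : Cor f).val = 0 := rfl
@[simp] theorem val_add (a b : Cor f) : (a + b).val = a.val + b.val := rfl
@[simp] theorem val_sub (a b : Cor f) : (a - b).val = a.val - b.val := rfl
@[simp] theorem val_neg (a : Cor f) : (-a).val = -a.val := rfl
@[simp] theorem val_mul (a b : Cor f) : (a * b).val = a.val * b.val := rfl
@[simp] theorem val_smul (c : ℂ) (a : Cor f) : (c • a).val = c • a.val := rfl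

/-- `val` as an additive map -/
def valHom : Cor f →+ BigMat where
  toFun := val
  map_zero' := rfl
  map_add' _ _ := rfl

@[simp] theorem val_sum {κ : Type} (s : Finset κ) (a : κ → Cor f) :
    (∑ k ∈ s, a k).val = ∑ k ∈ s, (a k).val := map_sum valHom a s

/-- the matrix unit -/
def single (u w : Vtx 2) (m : Mat) (h : m ∈ H (f u) (f w)) : Cor f :=
  mk (Matrix.single u w m) (single_mem_corner h)

@[simp] theorem val_single (u w : Vtx 2) (m : Mat) (h) :
    (single (f := f) u w m h).val = Matrix.single u w m := rfl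

end Cor

/-- the algebra `A'` -/
abbrev AP := Cor iota0
/-- the top algebra, in the first frame -/
abbrev AX := Cor px
/-- the top algebra, in the second frame -/
abbrev AY := Cor py

/-- the bimodule of morphisms between two corners, as a subspace -/
def BlkSub (f g : Vtx 2 → Vtx 3) : Submodule ℂ BigMat where
  carrier := {M | ∀ u w, M u w ∈ H (f u) (g w)}
  zero_mem' := fun u w => Submodule.zero_mem (H (f u) (g w))
  add_mem' := fun hM hN u w => Submodule.add_mem (H (f u) (g w)) (hM u w) (hN u w)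
  smul_mem' := fun c _ hM u w => Submodule.smul_mem (H (f u) (g w)) c (hM u w)

/-- the bimodule of morphisms between two corners -/
def Blk (f g : Vtx 2 → Vtx 3) : Type := ↥(BlkSub f g)

instance (f g : Vtx 2 → Vtx 3) : AddCommGroup (Blk f g) :=
  inferInstanceAs (AddCommGroup ↥(BlkSub f g))
instance (f g : Vtx 2 → Vtx 3) : Module ℂ (Blk f g) :=
  inferInstanceAs (Module ℂ ↥(BlkSub f g))

namespace Blk

variable {f g h : Vtx 2 → Vtx 3}

/-- the underlying matrix -/
def val (a : Blk f g) : BigMat := Subtype.val (a : ↥(BlkSub f g))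
/-- constructor -/
def mk (M : BigMat) (h : ∀ u w, M u w ∈ H (f u) (g w)) : Blk f g := (⟨M, h⟩ : ↥(BlkSub f g))

theorem mem (a : Blk f g) : ∀ u w, a.val u w ∈ H (f u) (g w) := Subtype.prop (a : ↥(BlkSub f g))

@[ext] theorem ext {a b : Blk f g} (h : a.val = b.val) : a = b := Subtype.ext h

@[simp] theorem val_mk (M : BigMat) (h) : (mk (f := f) (g := g) M h).val = M := rfl
@[simp] theorem val_zero : (0 : Blk f g).val = 0 := rfl
@[simp] theorem val_add (a b : Blk f g) : (a + b).val = a.val + b.val := rfl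
@[simp] theorem val_sub (a b : Blk f g) : (a - b).val = a.val - b.val := rfl
@[simp] theorem val_neg (a : Blk f g) : (-a).val = -a.val := rfl
@[simp] theorem val_smul (c : ℂ) (a : Blk f g) : (c • a).val = c • a.val := rfl

theorem mul_mem {M N : BigMat} (hM : ∀ u w, M u w ∈ H (f u) (g w))
    (hN : ∀ u w, N u w ∈ H (g u) (h w)) : ∀ u w, (M * N) u w ∈ H (f u) (h w) := by
  intro u w
  rw [Matrix.mul_apply]
  exact Submodule.sum_mem _ fun v _ => H_mul (hM u v) (hN v w)

end Blk

instance blkModule (f g : Vtx 2 → Vtx 3) : Module (Cor f) (Blk f g) where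
  smul a m := Blk.mk (a.val * m.val) (Blk.mul_mem a.mem m.mem)
  one_smul m := Blk.ext (one_mul m.val)
  mul_smul a b m := Blk.ext (mul_assoc a.val b.val m.val)
  smul_zero a := Blk.ext (mul_zero a.val)
  smul_add a m n := Blk.ext (mul_add a.val m.val n.val)
  add_smul a b m := Blk.ext (add_mul a.val b.val m.val)
  zero_smul m := Blk.ext (zero_mul m.val)

instance blkModuleR (f g : Vtx 2 → Vtx 3) : Module (Cor g)ᵐᵒᵖ (Blk f g) where
  smul a m := Blk.mk (m.val * a.unop.val) (Blk.mul_mem m.mem a.unop.mem)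
  one_smul m := Blk.ext (mul_one m.val)
  mul_smul a b m := Blk.ext (mul_assoc m.val b.unop.val a.unop.val).symm
  smul_zero a := Blk.ext (zero_mul a.unop.val)
  smul_add a m n := Blk.ext (add_mul m.val n.val a.unop.val)
  add_smul a b m := Blk.ext (mul_add m.val a.unop.val b.unop.val)
  zero_smul m := Blk.ext (mul_zero m.val)

instance blkComm (f g : Vtx 2 → Vtx 3) : SMulCommClass (Cor f) (Cor g)ᵐᵒᵖ (Blk f g) :=
  ⟨fun a b m => Blk.ext (mul_assoc a.val m.val b.unop.val).symm⟩

@[simp] theorem blk_smul_val {f g : Vtx 2 → Vtx 3} (a : Cor f) (m : Blk f g) :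
    (a • m).val = a.val * m.val := rfl

@[simp] theorem blk_op_smul_val {f g : Vtx 2 → Vtx 3} (a : (Cor g)ᵐᵒᵖ) (m : Blk f g) :
    (a • m).val = m.val * a.unop.val := rfl

instance blkTower (f g : Vtx 2 → Vtx 3) : IsScalarTower ℂ (Cor f) (Blk f g) :=
  ⟨fun c a m => Blk.ext (by simp)⟩

/-- the vertex idempotents -/
def idem (f : Vtx 2 → Vtx 3) (u : Vtx 2) : Cor f := Cor.single u u 1 (H_one (f u))

theorem idem_mul_self (f : Vtx 2 → Vtx 3) (u : Vtx 2) : idem f u * idem f u = idem f u :=
  Cor.ext (by simp [idem])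

/-- the polynomial `z` -/
def zP : PP := C (C X)

/-- `f` is one of the three corner inclusions -/
def IsShift (f : Vtx 2 → Vtx 3) : Prop := f = iota0 ∨ f = px ∨ f = py

theorem IsShift.iota0 : IsShift iota0 := .inl rfl
theorem IsShift.px : IsShift px := .inr (.inl rfl)
theorem IsShift.py : IsShift py := .inr (.inr rfl)

theorem zP_mem : zP ∈ PX 0 0 1 := by
  have := mono_mem (B := 0) (A := 0) (J := 1) le_rfl le_rfl le_rfl (1 : ℂ)
  simpa [mono, zP] using this

theorem H_z {f : Vtx 2 → Vtx 3} (hf : IsShift f) (τ : Tau 2) :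
    dg zP ∈ H (f (τ, 0)) (f (τ, 1)) := by
  rcases hf with rfl | rfl | rfl <;> rcases τ with ⟨a, b, v⟩ | v <;>
    simp only [iota0, P195.px, P195.py, Tau.map, H, le_refl, and_self, Fin.zero_le,
      if_true] <;>
    refine ⟨zP, ?_, by simp [mX_apply, mZ_apply, arrX, arrZ]⟩ <;> simpa using zP_mem

theorem H_s {f : Vtx 2 → Vtx 3} (hf : IsShift f) (τ : Tau 2) :
    (1 : Mat) ∈ H (f (τ, 0)) (f (τ, 1)) := by
  rcases hf with rfl | rfl | rfl <;> rcases τ with ⟨a, b, v⟩ | v <;>
    simp only [iota0, P195.px, P195.py, Tau.map, H, le_refl, and_self, Fin.zero_le,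
      if_true] <;>
    exact ⟨1, one_mem_PX _ _ _, by simp [mX_apply, mZ_apply, arrX, arrZ]⟩

theorem single_sum_one : (∑ u : Vtx 2, Matrix.single u u (1 : Mat)) = 1 := by
  ext u w : 1
  rw [Matrix.sum_apply, Matrix.one_apply]
  rcases eq_or_ne u w with rfl | h
  · rw [Finset.sum_eq_single u (fun x _ hx => Matrix.single_apply_of_ne _ _ _ _ _ (fun h => hx h.1))
      (fun h => absurd (Finset.mem_univ u) h), Matrix.single_apply_same, if_pos rfl]
  · rw [if_neg h]
    exact Finset.sum_eq_zero fun x _ =>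
      Matrix.single_apply_of_ne _ _ _ _ _ (fun hx => h (hx.1.symm.trans hx.2))

/-- the pencils of a corner algebra -/
def sys (f : Vtx 2 → Vtx 3) (hf : IsShift f) : PencilSystem (Cor f) (Tau 2) where
  f0 τ := idem f (τ, 0)
  f1 τ := idem f (τ, 1)
  s τ := Cor.single (τ, 0) (τ, 1) 1 (H_s hf τ)
  t τ := Cor.single (τ, 0) (τ, 1) (dg zP) (H_z hf τ)
  f0_idem τ := idem_mul_self f _
  f1_idem τ := idem_mul_self f _
  left_s τ := Cor.ext (by simp [idem])
  right_s τ := Cor.ext (by simp [idem])
  left_t τ := Cor.ext (by simp [idem])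
  right_t τ := Cor.ext (by simp [idem])
  complete := Cor.ext (by
    rw [Cor.val_one, ← single_sum_one, Fintype.sum_prod_type, Cor.val_sum]
    exact Finset.sum_congr rfl fun τ _ => by rw [Fin.sum_univ_two]; rfl)

abbrev sysP : PencilSystem AP (Tau 2) := sys iota0 IsShift.iota0
abbrev sysX : PencilSystem AX (Tau 2) := sys px IsShift.px
abbrev sysY : PencilSystem AY (Tau 2) := sys py IsShift.py

/-- functoriality of dual numbers -/
def dmap {A B : Type} [CommRing A] [CommRing B] [Algebra ℂ A] [Algebra ℂ B] (f : A →ₐ[ℂ] B) :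
    DualNumber A →+* DualNumber B where
  toFun x := TrivSqZeroExt.inl (f x.fst) + TrivSqZeroExt.inr (f x.snd)
  map_one' := by ext <;> simp
  map_mul' x y := by ext <;> simp [mul_comm]
  map_zero' := by ext <;> simp
  map_add' x y := by ext <;> simp

theorem dmap_fst {A B : Type} [CommRing A] [CommRing B] [Algebra ℂ A] [Algebra ℂ B]
    (f : A →ₐ[ℂ] B) (x : DualNumber A) : (dmap f x).fst = f x.fst := by simp [dmap]

theorem dmap_snd {A B : Type} [CommRing A] [CommRing B] [Algebra ℂ A] [Algebra ℂ B]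
    (f : A →ₐ[ℂ] B) (x : DualNumber A) : (dmap f x).snd = f x.snd := by simp [dmap]

/-- substitution `z ↦ p` in `ℂ[z][x]` -/
def substQ (p : Polynomial ℂ) : Qx →ₐ[ℂ] Qx := Polynomial.mapAlgHom (aeval p)

/-- substitution `z ↦ p` on `SW` -/
def substW (p : Polynomial ℂ) : SW →+* SW :=
  (DualNumber.lift ⟨((TrivSqZeroExt.inlAlgHom ℂ QE QE).comp
        (AlgHom.mk (dmap (substQ p)) (fun r => TrivSqZeroExt.ext
          (by refine (dmap_fst (substQ p) _).trans ?_
              rw [TrivSqZeroExt.algebraMap_eq_inl', TrivSqZeroExt.fst_inl]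
              exact (substQ p).commutes r)
          (by refine (dmap_snd (substQ p) _).trans ?_
              rw [TrivSqZeroExt.algebraMap_eq_inl', TrivSqZeroExt.snd_inl]
              exact map_zero (substQ p)))), ep), ep_mul_ep,
        fun a => DualNumber.commute_eps_left _⟩).toRingHom

/-- substitution `z ↦ p` -/
def substS (p : Polynomial ℂ) : SS →+* SS :=
  ((Polynomial.mapAlgHom (substQ p)).toRingHom.comp (RingHom.fst PP SW)).prod
    ((substW p).comp (RingHom.snd PP SW))

/-- substitution `z ↦ p` in 2x2 matrices -/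
def substM (p : Polynomial ℂ) : Mat →+* Mat := (substS p).mapMatrix

/-- substitution in big matrices -/
def substB (p : Polynomial ℂ) : BigMat →+* BigMat := (substM p).mapMatrix

/-- `P_x` -/
abbrev Px := Blk iota0 px
/-- `P_y` -/
abbrev Py := Blk iota0 py

/-- the three evaluation points -/
def cpt (i : Fin 3) : ℂ := 1 / (2 + i.val)

/-- the top vertices -/
def topV (v : Fin 2) : Vtx 3 := (Tau.X 2 2 v, 1)

abbrev ColMat := Matrix (Vtx 2) (Fin 2) Mat

theorem substQ_apply (p : Polynomial ℂ) (f : Qx) (i : ℕ) :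
    (substQ p f).coeff i = aeval p (f.coeff i) := by
  simp [substQ]

theorem substW_fst (p : Polynomial ℂ) (w : SW) :
    (substW p w).fst = dmap (substQ p) w.fst := by
  simp [substW, DualNumber.lift_apply_apply, fst_ep]

theorem substW_snd (p : Polynomial ℂ) (w : SW) :
    (substW p w).snd = dmap (substQ p) w.snd := by
  simp [substW, DualNumber.lift_apply_apply, fst_ep, snd_ep]

theorem substW_ep (p : Polynomial ℂ) : substW p ep = ep :=
  TrivSqZeroExt.ext (by simp [substW_fst, fst_ep]) (by simp [substW_snd, snd_ep])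

theorem substW_qq (p : Polynomial ℂ) (f : Qx) : substW p (qq f) = qq (substQ p f) :=
  TrivSqZeroExt.ext
    (by rw [substW_fst, fst_qq, fst_qq]
        exact TrivSqZeroExt.ext (by simp [dmap_fst]) (by simp [dmap_snd]))
    (by rw [substW_snd, snd_qq, snd_qq, map_zero])

theorem substW_smul (p : Polynomial ℂ) (c : ℂ) (w : SW) : substW p (c • w) = c • substW p w := by
  ext : 2 <;> simp [substW_fst, substW_snd, dmap_fst, dmap_snd, map_smul]

/-- (z - c)² is killed by the substitution `z ↦ c` -/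
theorem substM_dg_sq (c : ℂ) :
    substM (C c) (dg ((C (C (X - C c))) ^ 2)) = 0 := by
  have hq : substQ (C c) (C (X - C c)) = 0 := by simp [substQ]
  have h0 : ∀ Z : SW, substW (C c) (evz Z (C (C (X - C c)))) =
      substW (C c) Z - algebraMap ℂ SW c := by
    intro Z
    have e : evz Z (C (C (X - C c))) = Z - algebraMap ℂ SW c := by simp [evz]
    rw [e, map_sub, Algebra.algebraMap_eq_smul_one, substW_smul, map_one]
  have hz : substW (C c) (qq (C X)) = algebraMap ℂ SW c := by
    rw [substW_qq]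
    have hX : substQ (C c) (C X) = algebraMap ℂ Qx c := by
      simp [substQ, Polynomial.algebraMap_apply]
    rw [hX]
    ext : 2 <;> simp [qq, TrivSqZeroExt.algebraMap_eq_inl']
  have h1 : substS (C c) (C (C (X - C c)), pl (C (C (X - C c)))) = 0 := by
    refine Prod.ext ?_ ?_
    · show Polynomial.mapAlgHom (substQ (C c)) (C (C (X - C c))) = 0
      simp only [coe_mapAlgHom, map_C, RingHom.coe_coe, hq, map_zero]
    · show substW (C c) (pl (C (C (X - C c)))) = 0
      rw [pl_eq, h0, hz, sub_self]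
  have h2 : substS (C c) (C (C (X - C c)), sg (C (C (X - C c)))) = (0, ep) := by
    refine Prod.ext ?_ ?_
    · show Polynomial.mapAlgHom (substQ (C c)) (C (C (X - C c))) = 0
      simp only [coe_mapAlgHom, map_C, RingHom.coe_coe, hq, map_zero]
    · show substW (C c) (sg (C (C (X - C c)))) = ep
      rw [sg_eq, h0, map_add, hz, substW_ep, add_sub_cancel_left]
  rw [map_pow, map_pow, dg_apply, substM, RingHom.mapMatrix_apply,
    Matrix.diagonal_map (map_zero _), Matrix.diagonal_pow]
  refine Matrix.diagonal_eq_zero.2 (funext fun i => ?_)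
  fin_cases i
  · show (substS (C c) (C (C (X - C c)), pl (C (C (X - C c))))) ^ 2 = 0
    rw [h1]
    exact zero_pow two_ne_zero
  · show (substS (C c) (C (C (X - C c)), sg (C (C (X - C c))))) ^ 2 = 0
    rw [h2]
    exact Prod.ext (zero_pow two_ne_zero) (by rw [Prod.pow_snd, sq, ep_mul_ep]; rfl)

/-- after the substitution only the part of degree at most `1` in `z` remains -/
theorem PX_lin (c : ℂ) {A B J : ℕ} {G : PP} (hG : G ∈ PX A B J) :
    ∃ L ∈ PX A B 1, substM (C c) (dg L) = substM (C c) (dg G) := by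
  refine PX_induction (p := fun G => ∃ L ∈ PX A B 1, substM (C c) (dg L) = substM (C c) (dg G))
    ⟨0, Submodule.zero_mem _, rfl⟩ ?_ ?_ hG
  · rintro f g ⟨L, hL, hL'⟩ ⟨K, hK, hK'⟩
    exact ⟨L + K, Submodule.add_mem _ hL hK, by simp only [map_add, hL', hK']⟩
  · intro b a j r hb ha hj0
    clear hj0
    induction j using Nat.strong_induction_on generalizing r with
    | _ j ih =>
      rcases Nat.lt_or_ge j 2 with hj | hj
      · exact ⟨mono b a j r, mono_mem hb ha (by omega) r, rfl⟩
      · obtain ⟨k, rfl⟩ : ∃ k, j = k + 2 := ⟨j - 2, by omega⟩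
        obtain ⟨L, hL, hL'⟩ := ih (k + 1) (by omega) (2 * c * r)
        obtain ⟨K, hK, hK'⟩ := ih k (by omega) (-(c ^ 2 * r))
        refine ⟨L + K, Submodule.add_mem _ hL hK, ?_⟩
        have e : mono b a (k + 2) r = (C (C (X - C c))) ^ 2 * mono b a k r +
            mono b a (k + 1) (2 * c * r) + mono b a k (-(c ^ 2 * r)) := by
          simp only [mono, map_mul, map_neg, map_pow, map_sub, map_ofNat, pow_succ]
          ring
        rw [e]
        simp only [map_add, map_mul, substM_dg_sq, zero_mul, zero_add, hL', hK']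

/-- after the substitution the spaces `W(d,e,n)` no longer depend on `n` -/
theorem W0_lin (c : ℂ) {d e n : ℕ} (hd : 1 ≤ d) {w : QE} (hw : w ∈ W0 d e n) :
    ∃ w' ∈ W0 d e 1, dmap (substQ (C c)) w' = dmap (substQ (C c)) w := by
  obtain ⟨h1, h2, h3⟩ := hw
  have z1 : ∀ i, d < i → w.fst.coeff i = 0 := fun i hi =>
    Polynomial.ext fun j => by simpa using h1 i j (.inl hi)
  have z2 : ∀ i, d ≤ i → w.snd.coeff i = 0 := fun i hi =>
    Polynomial.ext fun j => by simpa using h2 i j (.inl hi)
  have hC : ∀ r : Polynomial ℂ, aeval (C c) r = C (r.eval c) := fun r => by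
    rw [Polynomial.C_eq_algebraMap, aeval_algebraMap_apply, coe_aeval_eq_eval]
    rfl
  refine ⟨TrivSqZeroExt.inl (substQ (C c) w.fst) + TrivSqZeroExt.inr (substQ (C c) w.snd +
      monomial (d - 1) ((X - C c) * aeval (C c) (w.fst.coeff d))), ⟨?_, ?_, ?_⟩, ?_⟩
  · intro i j h
    simp only [TrivSqZeroExt.fst_add, TrivSqZeroExt.fst_inl, TrivSqZeroExt.fst_inr, add_zero,
      substQ_apply, hC, coeff_C]
    rcases h with h | h
    · simp [z1 i h]
    · rw [if_neg (by omega)]
  · intro i j h
    simp only [TrivSqZeroExt.snd_add, TrivSqZeroExt.snd_inl, TrivSqZeroExt.snd_inr, zero_add,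
      coeff_add, substQ_apply, coeff_monomial]
    rcases h with h | h
    · rw [if_neg (by omega), z2 i h]; simp
    · split_ifs
      · simp only [hC, sub_mul, coeff_sub, coeff_C_mul, coeff_C]
        obtain ⟨k, rfl⟩ : ∃ k, j = k + 2 := ⟨j - 2, by omega⟩
        simp
      · simp only [hC, coeff_C]
        rw [if_neg (by omega)]; simp
  · simp only [TrivSqZeroExt.snd_add, TrivSqZeroExt.snd_inl, TrivSqZeroExt.snd_inr, zero_add,
      TrivSqZeroExt.fst_add, TrivSqZeroExt.fst_inl, TrivSqZeroExt.fst_inr, add_zero,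
      coeff_add, substQ_apply, coeff_monomial, if_true, h3, map_mul, map_add, aeval_X, aeval_C]
    rw [← Polynomial.C_eq_algebraMap]
    ring
  · have e : ∀ r : Polynomial ℂ, aeval (C c) (aeval (C c) r) = aeval (C c) r := fun r => by
      simp only [hC, eval_C]
    refine TrivSqZeroExt.ext (Polynomial.ext fun i => ?_) (Polynomial.ext fun i => ?_)
    · simp only [dmap_fst, substQ_apply, TrivSqZeroExt.fst_add, TrivSqZeroExt.fst_inl,
        TrivSqZeroExt.fst_inr, add_zero, e]
    · simp only [dmap_snd, substQ_apply, TrivSqZeroExt.snd_add, TrivSqZeroExt.snd_inl,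
        TrivSqZeroExt.snd_inr, coeff_add, map_add, coeff_monomial, e]
      split_ifs <;> simp

theorem WW_lin (c : ℂ) {d e n : ℕ} (hd : 1 ≤ d) {w : SW} (hw : w ∈ WW d e n) :
    ∃ w' ∈ WW d e 1, substW (C c) w' = substW (C c) w := by
  obtain ⟨a, ha, ha'⟩ := W0_lin c hd hw.1
  obtain ⟨b, hb, hb'⟩ := W0_lin c hd hw.2
  refine ⟨TrivSqZeroExt.inl a + TrivSqZeroExt.inr b, ⟨by simpa using ha, by simpa using hb⟩, ?_⟩
  exact TrivSqZeroExt.ext (by rw [substW_fst, substW_fst, ← ha']; simp)
    (by rw [substW_snd, substW_snd, ← hb']; simp)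

theorem substM_mW (p : Polynomial ℂ) (v' v : Fin 2) (w : SW) :
    substM p (mW v' v w) = mW v' v (substW p w) := by
  have ha : substW p (alW v' v) = alW v' v := by unfold alW; split_ifs <;> simp [substW_ep]
  have hb : substW p (beW v' v) = beW v' v := by unfold beW; split_ifs <;> simp [substW_ep]
  ext i j : 1
  rw [mW_apply, mW_apply]
  fin_cases i <;> fin_cases j <;> simp [substM, substS, ha, hb]

theorem H_iota0_X_top (a b : Fin 2) (v' v : Fin 2) :
    H (iota0 (Tau.X a b v', 0)) (topV v) = (PX (2 - a.val) (2 - b.val) 1).map (mX v' v) := by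
  rw [show iota0 (Tau.X a b v', 0) = (Tau.X a.castSucc b.castSucc v', 0) from rfl,
    show topV v = (Tau.X 2 2 v, 1) from rfl]
  simp only [H]
  rw [if_pos ⟨by omega, by omega, by omega⟩]
  rfl

theorem H_iota0_Z_top (v' v : Fin 2) :
    H (iota0 (Tau.Z v', 0)) (topV v) = (WW 5 3 2).map (mW v' v) := rfl

/-- stability of the fibres of the level `0` spaces under the action of `A'` -/
theorem H_fibre (c : ℂ) {u w : Vtx 2} {v : Fin 2} {a m : Mat}
    (ha : a ∈ H (iota0 u) (iota0 w)) (hm : m ∈ H (iota0 (w.1, 0)) (topV v)) :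
    ∃ m' ∈ H (iota0 (u.1, 0)) (topV v), substM (C c) m' = substM (C c) (a * m) := by
  obtain ⟨τ, i⟩ := u
  obtain ⟨σ, j⟩ := w
  have hzero : a * m = 0 → ∃ m' ∈ H (iota0 (τ, 0)) (topV v),
      substM (C c) m' = substM (C c) (a * m) :=
    fun h => ⟨0, Submodule.zero_mem _, by rw [h]⟩
  rcases τ with ⟨a₀, b₀, p⟩ | p <;> rcases σ with ⟨a₁, b₁, q⟩ | q
  · simp only [iota0, Tau.map, H] at ha
    split_ifs at ha with h1
    swap; · exact hzero (by simp [(Submodule.mem_bot ℂ).1 ha])
    rw [H_iota0_X_top] at hm ⊢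
    obtain ⟨G, hG, rfl⟩ := ha
    obtain ⟨G', hG', rfl⟩ := hm
    rw [mX_mul_mX]
    split_ifs
    swap; · exact ⟨0, Submodule.zero_mem _, rfl⟩
    obtain ⟨L, hL, hL'⟩ := PX_lin c (PX_mul hG hG')
    simp only [Fin.val_castSucc] at hL
    rw [show a₁.val - a₀.val + (2 - a₁.val) = 2 - a₀.val by
        have := a₁.isLt; have : a₀.val ≤ a₁.val := h1.1; omega,
      show b₁.val - b₀.val + (2 - b₁.val) = 2 - b₀.val by
        have := b₁.isLt; have : b₀.val ≤ b₁.val := h1.2.1; omega] at hL
    exact ⟨_, ⟨L, hL, rfl⟩, by simp only [mX_apply, map_mul, hL']⟩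
  · simp only [iota0, Tau.map, H, Submodule.mem_bot] at ha
    exact hzero (by simp [ha])
  · simp only [iota0, Tau.map, H] at ha
    rw [H_iota0_X_top] at hm
    rw [H_iota0_Z_top]
    obtain ⟨W, hW, rfl⟩ := ha
    obtain ⟨G', hG', rfl⟩ := hm
    rw [mW_mul_mX]
    obtain ⟨L, hL, hL'⟩ := WW_lin c (by omega) (WW_wmulX (by omega) p q v hW hG')
    simp only [Fin.val_castSucc] at hL
    rw [show 1 + a₁.val + b₁.val + (2 - a₁.val) + (2 - b₁.val) = 5 by omega,
      show 1 + b₁.val + (2 - b₁.val) = 3 by omega] at hL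
    exact ⟨_, ⟨L, WW_le (by omega) hL, rfl⟩, by rw [substM_mW, substM_mW, hL']⟩
  · simp only [iota0, Tau.map, H] at ha
    split_ifs at ha with h1
    swap; · exact hzero (by simp [(Submodule.mem_bot ℂ).1 ha])
    rw [H_iota0_Z_top] at hm ⊢
    obtain ⟨G, hG, rfl⟩ := ha
    obtain ⟨W, hW, rfl⟩ := hm
    rw [mZ_mul_mW]
    obtain ⟨L, hL, hL'⟩ := WW_lin c (by omega) (WW_wmulZ (by omega) p q v hW hG)
    exact ⟨_, ⟨L, WW_le (by omega) hL, rfl⟩, by rw [substM_mW, substM_mW, hL']⟩

/-- the fibre at `z = c` of the top columns at the level `0` (the same at both levels), as a subgroup -/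
def Gsub (c : ℂ) : AddSubgroup ColMat where
  carrier := {M | ∀ u v, ∃ m ∈ H (iota0 (u.1, 0)) (topV v), substM (C c) m = M u v}
  zero_mem' := fun u v => ⟨0, Submodule.zero_mem _, by simp⟩
  add_mem' := by
    intro M N hM hN u v
    obtain ⟨m, hm, hm'⟩ := hM u v
    obtain ⟨n, hn, hn'⟩ := hN u v
    exact ⟨m + n, Submodule.add_mem _ hm hn, by simp [hm', hn']⟩
  neg_mem' := by
    intro M hM u v
    obtain ⟨m, hm, hm'⟩ := hM u v
    exact ⟨-m, Submodule.neg_mem _ hm, by simp [hm']⟩

/-- the fibre at `z = c` of the top columns -/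
def Gf (c : ℂ) : Type := ↥(Gsub c)

instance (c : ℂ) : AddCommGroup (Gf c) := inferInstanceAs (AddCommGroup ↥(Gsub c))

namespace Gf

variable {c : ℂ}

/-- the underlying matrix -/
def val (M : Gf c) : ColMat := Subtype.val (M : ↥(Gsub c))
/-- constructor -/
def mk (M : ColMat) (h : ∀ u v, ∃ m ∈ H (iota0 (u.1, 0)) (topV v), substM (C c) m = M u v) : Gf c :=
  (⟨M, h⟩ : ↥(Gsub c))

theorem mem (M : Gf c) : ∀ u v, ∃ m ∈ H (iota0 (u.1, 0)) (topV v), substM (C c) m = M.val u v :=
  Subtype.prop (M : ↥(Gsub c))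

@[ext] theorem ext {M N : Gf c} (h : M.val = N.val) : M = N := Subtype.ext h

@[simp] theorem val_mk (M : ColMat) (h) : (mk (c := c) M h).val = M := rfl
@[simp] theorem val_zero : (0 : Gf c).val = 0 := rfl
@[simp] theorem val_add (M N : Gf c) : (M + N).val = M.val + N.val := rfl
@[simp] theorem val_sub (M N : Gf c) : (M - N).val = M.val - N.val := rfl
@[simp] theorem val_neg (M : Gf c) : (-M).val = -M.val := rfl

end Gf

instance gfModule (c : ℂ) : Module AP (Gf c) where
  smul a M := Gf.mk (a.val.map (substM (C c)) * M.val) (by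
    intro u v
    choose m hm hm' using fun w => M.mem w v
    choose n hn hn' using fun w => H_fibre c (a.mem u w) (hm w)
    refine ⟨∑ w, n w, Submodule.sum_mem _ fun w _ => hn w, ?_⟩
    simp only [map_sum, hn', map_mul, hm', Matrix.mul_apply, Matrix.map_apply])
  one_smul M := Gf.ext (show (1 : BigMat).map (substM (C c)) * M.val = M.val by simp)
  mul_smul a b M := Gf.ext (show (a.val * b.val).map (substM (C c)) * M.val =
    a.val.map (substM (C c)) * (b.val.map (substM (C c)) * M.val) by
      rw [Matrix.map_mul, Matrix.mul_assoc])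
  smul_zero a := Gf.ext (Matrix.mul_zero _)
  smul_add a M N := Gf.ext (Matrix.mul_add _ M.val N.val)
  add_smul a b M := Gf.ext (show (a.val + b.val).map (substM (C c)) * M.val =
    a.val.map (substM (C c)) * M.val + b.val.map (substM (C c)) * M.val by
      rw [Matrix.map_add _ (map_add _), Matrix.add_mul])
  zero_smul M := Gf.ext (show (0 : BigMat).map (substM (C c)) * M.val = 0 by simp)

theorem gf_smul_val {c : ℂ} (a : AP) (M : Gf c) :
    (a • M).val = a.val.map (substM (C c)) * M.val := rfl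

instance gfComplex (c : ℂ) : Module ℂ (Gf c) := Module.compHom _ (algebraMap ℂ AP)

instance gfTower (c : ℂ) : IsScalarTower ℂ AP (Gf c) :=
  ⟨fun r a M => by
    show (r • a) • M = algebraMap ℂ AP r • a • M
    rw [Algebra.smul_def, mul_smul]⟩

instance gfComm (c : ℂ) : SMulCommClass ℂ AP (Gf c) :=
  ⟨fun r a M => by
    show algebraMap ℂ AP r • a • M = a • algebraMap ℂ AP r • M
    rw [← mul_smul, ← mul_smul, Algebra.commutes]⟩

instance gfComm' (c : ℂ) : SMulCommClass AP ℂ (Gf c) := SMulCommClass.symm _ _ _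

/-- the junk module `G` -/
abbrev GG := ∀ i : Fin 3, Gf (cpt i)

instance ggTower : IsScalarTower ℂ AP GG :=
  ⟨fun r a g => funext fun i => smul_assoc r a (g i)⟩

/-- `I = End_ℂ G` -/
def II : Type := Module.End ℂ GG

instance : Ring II := inferInstanceAs (Ring (Module.End ℂ GG))
instance : Algebra ℂ II := inferInstanceAs (Algebra ℂ (Module.End ℂ GG))

/-- an element of `I` as a linear map -/
def II.toEnd (f : II) : Module.End ℂ GG := f
/-- a linear map as an element of `I` -/
def II.ofEnd (f : Module.End ℂ GG) : II := f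

theorem II.ext {f g : II} (h : ∀ x, f.toEnd x = g.toEnd x) : f = g :=
  LinearMap.ext (f := f.toEnd) (g := g.toEnd) h

theorem II.mul_apply (f g : II) (x : GG) : (f * g).toEnd x = f.toEnd (g.toEnd x) := rfl

/-- the action map `A' → I` -/
def rho : AP →ₐ[ℂ] II := Algebra.lsmul ℂ ℂ GG

theorem rho_apply (a : AP) (g : GG) : (rho a).toEnd g = a • g := rfl

instance iiModule : Module AP II := Module.compHom II rho.toRingHom

theorem II_smul_eq (a : AP) (f : II) : a • f = rho a * f := rfl

instance iiTower : IsScalarTower ℂ AP II :=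
  ⟨fun c a f => by rw [II_smul_eq, II_smul_eq, map_smul, smul_mul_assoc]⟩

/-- right multiplication on `I` by an element of `A'` -/
def IImulR (a : AP) : II →ₗ[AP] II where
  toFun f := f * rho a
  map_add' f g := add_mul f g _
  map_smul' b f := by simp only [II_smul_eq, RingHom.id_apply, mul_assoc]

theorem IImulR_apply (a : AP) (f : II) : IImulR a f = f * rho a := rfl

/-- the image of `A'` in `I` -/
def IIsub : Submodule AP II := Submodule.span AP {(1 : II)}

theorem mem_IIsub {f : II} : f ∈ IIsub ↔ ∃ b : AP, rho b = f := by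
  rw [IIsub, Submodule.mem_span_singleton]
  simp only [II_smul_eq, mul_one]

theorem IImulR_mem (a : AP) : IIsub ≤ IIsub.comap (IImulR a) := by
  intro f hf
  obtain ⟨b, rfl⟩ := mem_IIsub.1 hf
  rw [Submodule.mem_comap, IImulR_apply, ← map_mul]
  exact mem_IIsub.2 ⟨_, rfl⟩

/-- `N' = I / A'` -/
abbrev NP := II ⧸ IIsub

/-- right multiplication on `N'` -/
def NPmulR (a : AP) : NP →ₗ[AP] NP := IIsub.mapQ IIsub (IImulR a) (IImulR_mem a)

theorem NPmulR_mk (a : AP) (f : II) :
    NPmulR a (Submodule.Quotient.mk f) = Submodule.Quotient.mk (f * rho a) := rfl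

instance npRight : Module APᵐᵒᵖ NP where
  smul a x := NPmulR a.unop x
  one_smul x := by
    obtain ⟨f, rfl⟩ := Submodule.Quotient.mk_surjective IIsub x
    show NPmulR 1 _ = _
    rw [NPmulR_mk, map_one, mul_one]
  mul_smul a b x := by
    obtain ⟨f, rfl⟩ := Submodule.Quotient.mk_surjective IIsub x
    show NPmulR (b.unop * a.unop) _ = NPmulR a.unop (NPmulR b.unop _)
    rw [NPmulR_mk, NPmulR_mk, NPmulR_mk, map_mul, mul_assoc]
  smul_zero a := map_zero (NPmulR a.unop)
  smul_add a := map_add (NPmulR a.unop)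
  add_smul a b x := by
    obtain ⟨f, rfl⟩ := Submodule.Quotient.mk_surjective IIsub x
    show NPmulR (a.unop + b.unop) _ = NPmulR a.unop _ + NPmulR b.unop _
    rw [NPmulR_mk, NPmulR_mk, NPmulR_mk, map_add, mul_add, Submodule.Quotient.mk_add]
  zero_smul x := by
    obtain ⟨f, rfl⟩ := Submodule.Quotient.mk_surjective IIsub x
    show NPmulR 0 _ = 0
    rw [NPmulR_mk, map_zero, mul_zero, Submodule.Quotient.mk_zero]

instance npComm : SMulCommClass AP APᵐᵒᵖ NP :=
  ⟨fun a b x => ((NPmulR b.unop).map_smul a x).symm⟩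

end

end Vale.Agent.P195
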