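import Vale.Agent.P195.Shift
import Vale.Agent.P195.Corner

/-!
The algebra `R` of the counterexample: five copies of `A'` and one copy of the top algebra,
glued along a cycle of bimodules, with the products of any two bimodule elements equal to zero.
-/

namespace Vale.Agent.P195

open MulOpposite

noncomputable section

/-- the diagonal part -/
abbrev RD := (Fin 5 → AP) × AX
/-- the off-diagonal part -/
def RB : Type := (Fin 4 → AP) × UU × Px

instance : AddCommGroup RB := inferInstanceAs (AddCommGroup ((Fin 4 → AP) × UU × Px))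

namespace RB

def id_ (b : RB) : Fin 4 → AP := Prod.fst (b : (Fin 4 → AP) × UU × Px)
def uu (b : RB) : UU := (Prod.snd (b : (Fin 4 → AP) × UU × Px)).1
def pp (b : RB) : Px := (Prod.snd (b : (Fin 4 → AP) × UU × Px)).2
def mk (l : Fin 4 → AP) (u : UU) (p : Px) : RB := ((l, u, p) : (Fin 4 → AP) × UU × Px)

@[ext] theorem ext {a b : RB} (h1 : a.id_ = b.id_) (h2 : a.uu = b.uu) (h3 : a.pp = b.pp) :
    a = b := Prod.ext h1 (Prod.ext h2 h3)

@[simp] theorem id_mk (l u p) : (mk l u p).id_ = l := rfl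
@[simp] theorem uu_mk (l u p) : (mk l u p).uu = u := rfl
@[simp] theorem pp_mk (l u p) : (mk l u p).pp = p := rfl
@[simp] theorem id_add (a b : RB) : (a + b).id_ = a.id_ + b.id_ := rfl
@[simp] theorem uu_add (a b : RB) : (a + b).uu = a.uu + b.uu := rfl
@[simp] theorem pp_add (a b : RB) : (a + b).pp = a.pp + b.pp := rfl
@[simp] theorem id_zero : (0 : RB).id_ = 0 := rfl
@[simp] theorem uu_zero : (0 : RB).uu = 0 := rfl
@[simp] theorem pp_zero : (0 : RB).pp = 0 := rfl

end RB

instance rbLeft : Module RD RB where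
  smul d b := RB.mk (fun l => d.1 l.succ * b.id_ l) (d.2 • b.uu) (d.1 0 • b.pp)
  one_smul b := RB.ext (funext fun _ => one_mul _) (one_smul AX b.uu) (one_smul AP b.pp)
  mul_smul c d b := RB.ext (funext fun _ => mul_assoc _ _ _) (mul_smul c.2 d.2 b.uu)
    (mul_smul (c.1 0) (d.1 0) b.pp)
  smul_zero d := RB.ext (funext fun _ => mul_zero _) (smul_zero d.2) (smul_zero (d.1 0))
  smul_add d b c := RB.ext (funext fun _ => mul_add _ _ _) (smul_add d.2 b.uu c.uu)
    (smul_add (d.1 0) b.pp c.pp)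
  add_smul c d b := RB.ext (funext fun _ => add_mul _ _ _) (add_smul c.2 d.2 b.uu)
    (add_smul (c.1 0) (d.1 0) b.pp)
  zero_smul b := RB.ext (funext fun _ => zero_mul _) (zero_smul AX b.uu) (zero_smul AP b.pp)

instance rbRight : Module RDᵐᵒᵖ RB where
  smul d b := RB.mk (fun l => b.id_ l * d.unop.1 l.castSucc) (op (d.unop.1 (Fin.last 4)) • b.uu)
    (op d.unop.2 • b.pp)
  one_smul b := RB.ext (funext fun _ => mul_one _) (one_smul APᵐᵒᵖ b.uu) (one_smul AXᵐᵒᵖ b.pp)
  mul_smul c d b := RB.ext (funext fun _ => (mul_assoc _ _ _).symm)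
    (mul_smul (op (c.unop.1 (Fin.last 4))) (op (d.unop.1 (Fin.last 4))) b.uu)
    (mul_smul (op c.unop.2) (op d.unop.2) b.pp)
  smul_zero d := RB.ext (funext fun _ => zero_mul _) (smul_zero (op (d.unop.1 (Fin.last 4))))
    (smul_zero (op d.unop.2))
  smul_add d b c := RB.ext (funext fun _ => add_mul _ _ _)
    (smul_add (op (d.unop.1 (Fin.last 4))) b.uu c.uu) (smul_add (op d.unop.2) b.pp c.pp)
  add_smul c d b := RB.ext (funext fun _ => mul_add _ _ _)
    (add_smul (op (c.unop.1 (Fin.last 4))) (op (d.unop.1 (Fin.last 4))) b.uu)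
    (add_smul (op c.unop.2) (op d.unop.2) b.pp)
  zero_smul b := RB.ext (funext fun _ => mul_zero _) (zero_smul APᵐᵒᵖ b.uu)
    (zero_smul AXᵐᵒᵖ b.pp)

theorem rb_smul (d : RD) (b : RB) :
    d • b = RB.mk (fun l => d.1 l.succ * b.id_ l) (d.2 • b.uu) (d.1 0 • b.pp) := rfl

theorem rb_op_smul (d : RD) (b : RB) :
    op d • b = RB.mk (fun l => b.id_ l * d.1 l.castSucc) (op (d.1 (Fin.last 4)) • b.uu)
      (op d.2 • b.pp) := rfl

instance rbComm : SMulCommClass RD RDᵐᵒᵖ RB :=
  ⟨fun c d b => RB.ext (funext fun _ => (mul_assoc _ _ _).symm)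
    (smul_comm c.2 (op (d.unop.1 (Fin.last 4))) b.uu) (smul_comm (c.1 0) (op d.unop.2) b.pp)⟩

/-- the algebra -/
abbrev RR := TrivSqZeroExt RD RB

instance instRingRR : Ring RR := TrivSqZeroExt.ring

theorem cor_algebraMap_val {f : Vtx 2 → Vtx 3} (c : ℂ) :
    (algebraMap ℂ (Cor f) c).val = algebraMap ℂ BigMat c := rfl

theorem np_central (c : ℂ) (x : NP) :
    algebraMap ℂ AP c • x = op (algebraMap ℂ AP c) • x := by
  obtain ⟨f, rfl⟩ := Submodule.Quotient.mk_surjective IIsub x
  show _ = NPmulR (algebraMap ℂ AP c) _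
  rw [NPmulR_mk, ← Submodule.Quotient.mk_smul, II_smul_eq, AlgHom.commutes, Algebra.commutes]

theorem px_central (c : ℂ) (p : Px) :
    algebraMap ℂ AP c • p = op (algebraMap ℂ AX c) • p := by
  apply Blk.ext
  rw [blk_smul_val, blk_op_smul_val, MulOpposite.unop_op, cor_algebraMap_val, cor_algebraMap_val,
    Algebra.commutes]

theorem toy_algebraMap (c : ℂ) : toy (algebraMap ℂ AX c) = algebraMap ℂ AY c := by
  apply Cor.ext
  rw [toy_val, cor_algebraMap_val, cor_algebraMap_val]
  ext u w : 1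
  simp only [substB, RingHom.mapMatrix_apply, Matrix.map_apply, Matrix.algebraMap_matrix_apply]
  split_ifs with h
  · have e : (algebraMap ℂ Mat c) = dg (algebraMap ℂ PP c) := (dg.commutes c).symm
    rw [e, substM_dg_translate, AlgHom.commutes]
  · exact map_zero _

theorem py_central (c : ℂ) (p : Py) :
    algebraMap ℂ AP c • p = op (algebraMap ℂ AX c) • p := by
  apply Blk.ext
  rw [py_op_smul, MulOpposite.unop_op, toy_algebraMap, blk_smul_val, blk_op_smul_val,
    MulOpposite.unop_op, cor_algebraMap_val, cor_algebraMap_val, Algebra.commutes]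

theorem uu_central (c : ℂ) (u : UU) :
    algebraMap ℂ AX c • u = op (algebraMap ℂ AP c) • u := by
  apply HomP.ext
  intro p
  rw [HomP.smul_apply, HomP.op_smul_apply, ← py_central, HomP.map_smul', np_central]

theorem rb_central (c : ℂ) (b : RB) :
    algebraMap ℂ RD c • b = op (algebraMap ℂ RD c) • b := by
  rw [rb_smul, rb_op_smul]
  refine RB.ext (funext fun l => ?_) ?_ ?_
  · exact Algebra.commutes c (b.id_ l)
  · exact uu_central c b.uu
  · exact px_central c b.pp

instance rbComplex : Module ℂ RB := Module.compHom RB (algebraMap ℂ RD)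

instance rbTower : IsScalarTower ℂ RD RB :=
  ⟨fun c d b => by
    show (c • d) • b = algebraMap ℂ RD c • d • b
    rw [Algebra.smul_def, mul_smul]⟩

instance rbTowerOp : IsScalarTower ℂ RDᵐᵒᵖ RB :=
  ⟨fun c d b => by
    show (c • d) • b = algebraMap ℂ RD c • d • b
    rw [rb_central, show c • d = op (algebraMap ℂ RD c) * d from ?_, mul_smul]
    rw [Algebra.smul_def]
    rfl⟩

instance instAlgebraRR : Algebra ℂ RR := TrivSqZeroExt.algebra' ℂ RD RB

/-- the level `l` copy of `A'` in the diagonal part -/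
def dLev (l : Fin 5) : AP →ₙ+* RD where
  toFun a := (Pi.single l a, 0)
  map_mul' a b := Prod.ext (Pi.single_mul (α := fun _ : Fin 5 => AP) l a b) (mul_zero (0 : AX)).symm
  map_zero' := Prod.ext (Pi.single_zero l) rfl
  map_add' a b := Prod.ext (Pi.single_add (f := fun _ : Fin 5 => AP) l a b) (add_zero (0 : AX)).symm

/-- the top copy in the diagonal part -/
def dTop : AX →ₙ+* RD where
  toFun a := (0, a)
  map_mul' a b := Prod.ext (mul_zero (0 : Fin 5 → AP)).symm rfl
  map_zero' := rfl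
  map_add' a b := Prod.ext (add_zero (0 : Fin 5 → AP)).symm rfl

/-- the level `l` copy of `A'` -/
def jLev (l : Fin 5) : AP →ₙ+* RR :=
  ((TrivSqZeroExt.inlHom RD RB : RD →+* RR) : RD →ₙ+* RR).comp (dLev l)

/-- the top copy -/
def jTop : AX →ₙ+* RR := ((TrivSqZeroExt.inlHom RD RB : RD →+* RR) : RD →ₙ+* RR).comp dTop

theorem jLev_apply (l : Fin 5) (a : AP) : jLev l a = TrivSqZeroExt.inl (dLev l a) := rfl
theorem jTop_apply (a : AX) : jTop a = TrivSqZeroExt.inl (dTop a) := rfl

/-- the identity bimodule element from level `l` to level `l + 1` -/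
def edgeId (l : Fin 4) (a : AP) : RR := TrivSqZeroExt.inr (RB.mk (Pi.single l a) 0 0)
/-- elements of `U` in `R` -/
def edgeU (u : UU) : RR := TrivSqZeroExt.inr (RB.mk 0 u 0)
/-- elements of `P_x` in `R` -/
def edgeP (p : Px) : RR := TrivSqZeroExt.inr (RB.mk 0 0 p)

/-- the spectral sets -/
def natSet : Set ℂ := Set.range fun n : ℕ => (n : ℂ)
/-- the spectral sets at the top -/
def posSet : Set ℂ := Set.range fun n : ℕ => ((n + 1 : ℕ) : ℂ)

/-- the spectral sets of `R`, indexed by level (`none` is the top) -/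
def specR : Option (Fin 5) × Tau 2 → Set ℂ
  | (some _, _) => natSet
  | (none, _) => posSet

theorem dLev_fst (l : Fin 5) (a : AP) : (dLev l a).1 = Pi.single l a := rfl
theorem dLev_snd (l : Fin 5) (a : AP) : (dLev l a).2 = 0 := rfl
theorem dTop_fst (a : AX) : (dTop a).1 = 0 := rfl
theorem dTop_snd (a : AX) : (dTop a).2 = a := rfl

theorem sum_dLev_one : (∑ l : Fin 5, dLev l 1) + dTop 1 = 1 := by
  refine Prod.ext (funext fun k => ?_) ?_
  · rw [Prod.fst_add, Prod.fst_sum, Pi.add_apply, Finset.sum_apply, dTop_fst]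
    simp only [dLev_fst]
    rw [Finset.sum_eq_single k]
    · rw [Pi.single_eq_same]
      exact add_zero (1 : AP)
    · exact fun i _ hi => Pi.single_eq_of_ne (Ne.symm hi) 1
    · exact fun h => absurd (Finset.mem_univ k) h
  · rw [Prod.snd_add, Prod.snd_sum, dTop_snd]
    simp only [dLev_snd]
    rw [Finset.sum_const_zero, zero_add]
    rfl

theorem sum_jLev_one : (∑ l : Fin 5, jLev l 1) + jTop 1 = 1 := by
  simp only [jLev_apply, jTop_apply]
  rw [← TrivSqZeroExt.inl_sum, ← TrivSqZeroExt.inl_add, sum_dLev_one, TrivSqZeroExt.inl_one]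

end

end Vale.Agent.P195
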