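import Vale.Agent.P195.Spec2
import Mathlib.Algebra.Category.ModuleCat.Projective

/-!
The columns of `R` at the lower levels and at the top are coinduced from a corner, so the module
`C` has no extensions by the lower columns and none in high degrees by the top column.
-/

namespace Vale.Agent.P195

open CategoryTheory MulOpposite

noncomputable section

namespace RCols

section generic

variable {R A : Type} [Ring R] [Ring A] (j : A →ₙ+* R) {Y : ModuleCat.{0} A}

/-- the pairing `r ↦ (x ↦ ψ (x r))` -/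
def pairing (ψ : R →+ Y) (hψ : ∀ a y, ψ (j a * y) = a • ψ y) : R →ₗ[R] CoindT j Y where
  toFun r := show eR j →ₗ[A] Y from
    { toFun := fun x => ψ ((x.1 : R) * r)
      map_add' := fun x y => by
        show ψ (((x.1 : R) + (y.1 : R)) * r) = ψ ((x.1 : R) * r) + ψ ((y.1 : R) * r)
        rw [add_mul, map_add]
      map_smul' := fun a x => by
        show ψ (j a * (x.1 : R) * r) = a • ψ ((x.1 : R) * r)
        rw [mul_assoc, hψ] }
  map_add' r s := CoindT.ext fun x => by
    show ψ ((x.1 : R) * (r + s)) = ψ ((x.1 : R) * r) + ψ ((x.1 : R) * s)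
    rw [mul_add, map_add]
  map_smul' r s := CoindT.ext fun x => by
    show ψ ((x.1 : R) * (r * s)) = ψ ((x.1 : R) * r * s)
    rw [mul_assoc]

theorem pairing_apply (ψ : R →+ Y) (hψ : ∀ a y, ψ (j a * y) = a • ψ y) (r : R) (x : eR j) :
    pairing j ψ hψ r x = ψ ((x.1 : R) * r) := rfl

/-- an element of `e R` -/
def mkE (y : R) (hy : j 1 * y = y) : eR j := ⟨y, hy⟩

/-- vanishing for a module with two complementary pieces -/
theorem ev_two {n : ℕ} {X V W₁ W₂ : ModuleCat.{0} A}
    (a₁ : X →ₗ[A] W₁) (b₁ : W₁ →ₗ[A] X) (a₂ : X →ₗ[A] W₂) (b₂ : W₂ →ₗ[A] X)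
    (hid : ∀ x, b₁ (a₁ x) + b₂ (a₂ x) = x) (h₁ : EV n W₁ V) (h₂ : EV n W₂ V) : EV n X V :=
  ev_of_factor_left (ι := Bool) (fun i => Bool.rec W₁ W₂ i)
    (fun i => match i with | false => a₁ | true => a₂)
    (fun i => match i with | false => b₁ | true => b₂)
    (fun x => by rw [Fintype.sum_bool, add_comm]; exact hid x)
    (fun i => by cases i <;> assumption)

theorem ev_of_all_zero {n : ℕ} {X V : ModuleCat.{0} A} (h : ∀ x : X, x = 0) : EV n X V :=
  ev_of_factor_left (ι := Empty) (fun i => i.elim) (fun i => i.elim) (fun i => i.elim)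
    (fun x => by simp [h x]) (fun i => i.elim)

theorem ev_ring {n : ℕ} (hn : 1 ≤ n) (V : ModuleCat.{0} A) : EV n (ModuleCat.of A A) V :=
  have : Projective (ModuleCat.of A A) := (IsProjective.iff_projective A).1 inferInstance
  ev_of_projective hn

end generic

theorem single_one_mul {ι : Type} [DecidableEq ι] {B : Type} [Ring B] (l : ι) (f : ι → B) :
    Pi.single l 1 * f = Pi.single l (f l) := by
  funext i
  rcases eq_or_ne i l with rfl | h
  · simp
  · simp [h]

theorem id_smul (d : RD) (b : RB) (k : Fin 4) : (d • b).id_ k = d.1 k.succ * b.id_ k := rfl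
theorem id_op_smul (d : RD) (b : RB) (k : Fin 4) :
    (op d • b).id_ k = b.id_ k * d.1 k.castSucc := rfl
theorem pp_smul (d : RD) (b : RB) : (d • b).pp = d.1 0 • b.pp := rfl
theorem pp_op_smul (d : RD) (b : RB) : (op d • b).pp = op d.2 • b.pp := rfl
theorem uu_smul (d : RD) (b : RB) : (d • b).uu = d.2 • b.uu := rfl
theorem uu_op_smul (d : RD) (b : RB) : (op d • b).uu = op (d.1 (Fin.last 4)) • b.uu := rfl

theorem fst_jLev_mul (l : Fin 5) (a : AP) (y : RR) : (jLev l a * y).fst = dLev l a * y.fst := rfl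

theorem snd_jLev_mul (l : Fin 5) (a : AP) (y : RR) : (jLev l a * y).snd = dLev l a • y.snd := by
  rw [TrivSqZeroExt.snd_mul, jLev_apply, TrivSqZeroExt.snd_inl, smul_zero, add_zero,
    TrivSqZeroExt.fst_inl]

/-- the coefficient of the edge from the level `k` to the next one -/
def psiLow (k : Fin 4) : RR →+ AP where
  toFun y := y.snd.id_ k
  map_zero' := rfl
  map_add' _ _ := rfl

theorem psiLow_smul (k : Fin 4) (a : AP) (y : RR) :
    psiLow k (jLev k.succ a * y) = a * psiLow k y := by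
  show (jLev k.succ a * y).snd.id_ k = a * y.snd.id_ k
  rw [snd_jLev_mul, id_smul, dLev_fst, Pi.single_eq_same]

theorem jLev_one_mul (l : Fin 5) : jLev l 1 * jLev l 1 = jLev l 1 := by rw [← map_mul, one_mul]

theorem jLev_mul_edgeId (k : Fin 4) (a b : AP) :
    jLev k.succ a * edgeId k b = edgeId k (a * b) := by
  rw [jLev_apply, edgeId, TrivSqZeroExt.inl_mul_inr, edgeId]
  refine congrArg TrivSqZeroExt.inr (RB.ext (funext fun i => ?_) ?_ ?_)
  · rw [id_smul, RB.id_mk, RB.id_mk, dLev_fst]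
    rcases eq_or_ne i k with rfl | h
    · simp
    · simp [h]
  · rw [uu_smul, RB.uu_mk, RB.uu_mk, dLev_snd, zero_smul]
  · rw [pp_smul, RB.pp_mk, RB.pp_mk, smul_zero]

theorem edgeId_mul_jLev (k : Fin 4) (a b : AP) :
    edgeId k a * jLev k.castSucc b = edgeId k (a * b) := by
  rw [jLev_apply, edgeId, TrivSqZeroExt.inr_mul_inl, edgeId]
  refine congrArg TrivSqZeroExt.inr (RB.ext (funext fun i => ?_) ?_ ?_)
  · rw [id_op_smul, RB.id_mk, RB.id_mk, dLev_fst]
    rcases eq_or_ne i k with rfl | h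
    · simp
    · simp [h]
  · rw [uu_op_smul, RB.uu_mk, RB.uu_mk, smul_zero]
  · rw [pp_op_smul, RB.pp_mk, RB.pp_mk, smul_zero]

theorem decomp_low (k : Fin 4) (x : RR) (hx : jLev k.succ 1 * x = x) :
    jLev k.succ (x.fst.1 k.succ) + edgeId k (x.snd.id_ k) = x := by
  have hf : dLev k.succ 1 * x.fst = x.fst := by rw [← fst_jLev_mul, hx]
  have hs : dLev k.succ 1 • x.snd = x.snd := by rw [← snd_jLev_mul, hx]
  apply TrivSqZeroExt.ext
  · rw [jLev_apply, edgeId, TrivSqZeroExt.fst_add, TrivSqZeroExt.fst_inl, TrivSqZeroExt.fst_inr,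
      add_zero]
    conv_rhs => rw [← hf]
    refine Prod.ext ?_ ?_
    · rw [Prod.fst_mul, dLev_fst, dLev_fst, single_one_mul]
    · rw [Prod.snd_mul, dLev_snd, dLev_snd, zero_mul]
  · rw [jLev_apply, edgeId, TrivSqZeroExt.snd_add, TrivSqZeroExt.snd_inl, TrivSqZeroExt.snd_inr,
      zero_add]
    conv_rhs => rw [← hs]
    refine RB.ext (funext fun i => ?_) ?_ ?_
    · rw [id_smul, RB.id_mk, dLev_fst]
      rcases eq_or_ne i k with rfl | h
      · simp
      · simp [h]
    · rw [uu_smul, RB.uu_mk, dLev_snd, zero_smul]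
    · rw [pp_smul, RB.pp_mk, dLev_fst, Pi.single_eq_of_ne (Fin.succ_ne_zero k).symm, zero_smul]

/-- `e_{k+1} R` has no higher extensions -/
theorem ev_eR_low (k : Fin 4) {n : ℕ} (hn : 1 ≤ n) (V : ModuleCat.{0} AP) :
    EV n (eR (jLev k.succ)) V := by
  have h1 : EV n (ModuleCat.of AP AP) V := ev_ring hn V
  let e0 : eR (jLev k.succ) := mkE _ (jLev k.succ 1) (jLev_one_mul _)
  let v0 : eR (jLev k.succ) := mkE _ (edgeId k 1) (by rw [jLev_mul_edgeId, one_mul])
  refine ev_two (W₁ := ModuleCat.of AP AP) (W₂ := ModuleCat.of AP AP)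
    { toFun := fun x => (x.1 : RR).fst.1 k.succ
      map_add' := fun x y => rfl
      map_smul' := fun a x => by
        show ((jLev k.succ a * (x.1 : RR)).fst).1 k.succ = a * (x.1 : RR).fst.1 k.succ
        rw [fst_jLev_mul, Prod.fst_mul, Pi.mul_apply, dLev_fst, Pi.single_eq_same] }
    (LinearMap.toSpanSingleton AP (eR (jLev k.succ)) e0)
    { toFun := fun x => psiLow k (x.1 : RR)
      map_add' := fun x y => rfl
      map_smul' := fun a x => psiLow_smul k a (x.1 : RR) }
    (LinearMap.toSpanSingleton AP (eR (jLev k.succ)) v0) (fun x => ?_) h1 h1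
  apply Subtype.ext
  show jLev k.succ ((x.1 : RR).fst.1 k.succ) * jLev k.succ 1 +
    jLev k.succ ((x.1 : RR).snd.id_ k) * edgeId k 1 = (x.1 : RR)
  rw [← map_mul, jLev_mul_edgeId, mul_one, mul_one]
  exact decomp_low k _ x.2

theorem psiLow_edge_mul (k : Fin 4) (a : AP) (r : RR) :
    psiLow k (edgeId k a * r) = a * r.fst.1 k.castSucc := by
  show (edgeId k a * r).snd.id_ k = _
  rw [TrivSqZeroExt.snd_mul, edgeId, TrivSqZeroExt.fst_inr, TrivSqZeroExt.snd_inr, zero_smul,
    zero_add, id_op_smul, RB.id_mk, Pi.single_eq_same]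

theorem psiLow_lev_mul (k : Fin 4) (a : AP) (r : RR) :
    psiLow k (jLev k.succ a * r) = a * r.snd.id_ k := psiLow_smul k a r

theorem mem_col {e r : RR} (h : r * e = r) : r ∈ Submodule.span RR {e} :=
  Submodule.mem_span_singleton.mpr ⟨r, h⟩

theorem col_eq {e r : RR} (he : e * e = e) (h : r ∈ Submodule.span RR {e}) : r * e = r := by
  obtain ⟨s, rfl⟩ := Submodule.mem_span_singleton.mp h
  show s * e * e = s * e
  rw [mul_assoc, he]

/-- the comparison map at a lower level -/
def phiLow (k : Fin 4) :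
    levCol k.castSucc →ₗ[RR] CoindT (jLev k.succ) (ModuleCat.of AP AP) :=
  (pairing (jLev k.succ) (Y := ModuleCat.of AP AP) (psiLow k) (psiLow_smul k)) ∘ₗ
    (Submodule.span RR {jLev k.castSucc 1}).subtype

theorem phiLow_bijective (k : Fin 4) : Function.Bijective (phiLow k) := by
  let e0 : eR (jLev k.succ) := mkE _ (jLev k.succ 1) (jLev_one_mul _)
  let v0 : eR (jLev k.succ) := mkE _ (edgeId k 1) (by rw [jLev_mul_edgeId, one_mul])
  constructor
  · rw [injective_iff_map_eq_zero]
    rintro ⟨r, hr⟩ h0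
    have ha : r.fst.1 k.castSucc = 0 := by
      have h : psiLow k (edgeId k 1 * r) = 0 := congrArg (fun f => f v0) h0
      rwa [psiLow_edge_mul, one_mul] at h
    have hb : r.snd.id_ k = 0 := by
      have h : psiLow k (jLev k.succ 1 * r) = 0 := congrArg (fun f => f e0) h0
      rwa [psiLow_lev_mul, one_mul] at h
    have he := col_eq (jLev_one_mul k.castSucc) hr
    apply Subtype.ext
    show r = 0
    rw [← he, jLev_apply]
    apply TrivSqZeroExt.ext
    · rw [TrivSqZeroExt.fst_mul, TrivSqZeroExt.fst_inl, TrivSqZeroExt.fst_zero]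
      refine Prod.ext (funext fun i => ?_) ?_
      · rw [Prod.fst_mul, Pi.mul_apply, dLev_fst]
        rcases eq_or_ne i k.castSucc with rfl | h
        · rw [ha, zero_mul]; rfl
        · rw [Pi.single_eq_of_ne h, mul_zero]; rfl
      · rw [Prod.snd_mul, dLev_snd, mul_zero]; rfl
    · rw [TrivSqZeroExt.snd_mul, TrivSqZeroExt.snd_inl, TrivSqZeroExt.fst_inl, smul_zero,
        zero_add, TrivSqZeroExt.snd_zero]
      refine RB.ext (funext fun i => ?_) ?_ ?_
      · rw [id_op_smul, dLev_fst]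
        rcases eq_or_ne i k with rfl | h
        · rw [hb, zero_mul]; rfl
        · rw [Pi.single_eq_of_ne (by simpa using h), mul_zero]; rfl
      · rw [uu_op_smul, dLev_fst, Pi.single_eq_of_ne (Fin.castSucc_ne_last k).symm]
        exact zero_smul APᵐᵒᵖ r.snd.uu
      · rw [pp_op_smul, dLev_snd]
        exact zero_smul AXᵐᵒᵖ r.snd.pp
  · intro f
    let F : eR (jLev k.succ) →ₗ[AP] ModuleCat.of AP AP := f
    let a : AP := F v0
    let b : AP := F e0
    refine ⟨⟨jLev k.castSucc a + edgeId k b, mem_col ?_⟩, CoindT.ext fun x => ?_⟩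
    · rw [add_mul, ← map_mul, edgeId_mul_jLev, mul_one, mul_one]
    show psiLow k ((x.1 : RR) * (jLev k.castSucc a + edgeId k b)) = F x
    have hx : x = ((x.1 : RR).fst.1 k.succ) • e0 + ((x.1 : RR).snd.id_ k) • v0 := by
      apply Subtype.ext
      show (x.1 : RR) = jLev k.succ ((x.1 : RR).fst.1 k.succ) * jLev k.succ 1 +
        jLev k.succ ((x.1 : RR).snd.id_ k) * edgeId k 1
      rw [← map_mul, jLev_mul_edgeId, mul_one, mul_one]
      exact (decomp_low k _ x.2).symm
    conv_rhs => rw [hx]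
    rw [map_add, map_smul, map_smul]
    conv_lhs => rw [← decomp_low k _ x.2]
    rw [add_mul, map_add, psiLow_lev_mul, psiLow_edge_mul]
    show _ = (x.1 : RR).fst.1 k.succ * b + (x.1 : RR).snd.id_ k * a
    congr 2
    · rw [TrivSqZeroExt.snd_add, jLev_apply, TrivSqZeroExt.snd_inl, zero_add, edgeId,
        TrivSqZeroExt.snd_inr, RB.id_mk, Pi.single_eq_same]
    · rw [TrivSqZeroExt.fst_add, jLev_apply, TrivSqZeroExt.fst_inl, edgeId,
        TrivSqZeroExt.fst_inr, add_zero, dLev_fst, Pi.single_eq_same]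

/-- the underlying vector of `C` -/
def toC0 (c : ModC) : C0 := c

theorem toC0_smul (r : RR) (c : ModC) : toC0 (r • c) = projZero r • toC0 c := rfl

theorem resC_low_zero (k : Fin 4) (x : resC (jLev k.succ) ModC) : x = 0 := by
  obtain ⟨c, hc⟩ := x
  refine Subtype.ext ?_
  have h0 : projZero (jLev k.succ 1) = 0 := by
    show (Pi.single k.succ (1 : AP) : Fin 5 → AP) 0 = 0
    exact Pi.single_eq_of_ne (Fin.succ_ne_zero k).symm 1
  show toC0 c = 0
  rw [← mem_comp.1 hc, toC0_smul, h0, zero_smul]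

/-- the `P_x` part -/
def psiTop : RR →+ Px where
  toFun y := y.snd.pp
  map_zero' := rfl
  map_add' _ _ := rfl

theorem psiTop_smul (a : AP) (y : RR) : psiTop (jLev 0 a * y) = a • psiTop y := by
  show (jLev 0 a * y).snd.pp = a • y.snd.pp
  rw [snd_jLev_mul, pp_smul, dLev_fst, Pi.single_eq_same]

theorem psiTop_edge_mul (q : Px) (r : RR) : psiTop (edgeP q * r) = op r.fst.2 • q := by
  show (edgeP q * r).snd.pp = _
  rw [TrivSqZeroExt.snd_mul, edgeP, TrivSqZeroExt.fst_inr, TrivSqZeroExt.snd_inr, zero_smul,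
    zero_add, pp_op_smul, RB.pp_mk]

theorem jLev_mul_edgeP (a : AP) (q : Px) : jLev 0 a * edgeP q = edgeP (a • q) := by
  rw [jLev_apply, edgeP, TrivSqZeroExt.inl_mul_inr, edgeP]
  refine congrArg TrivSqZeroExt.inr (RB.ext (funext fun i => ?_) ?_ ?_)
  · rw [id_smul, RB.id_mk, RB.id_mk]
    exact mul_zero _
  · rw [uu_smul, RB.uu_mk, RB.uu_mk, smul_zero]
  · rw [pp_smul, RB.pp_mk, RB.pp_mk, dLev_fst, Pi.single_eq_same]

theorem edgeP_mul_jTop (q : Px) (a : AX) : edgeP q * jTop a = edgeP (op a • q) := by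
  rw [jTop_apply, edgeP, TrivSqZeroExt.inr_mul_inl, edgeP]
  refine congrArg TrivSqZeroExt.inr (RB.ext (funext fun i => ?_) ?_ ?_)
  · rw [id_op_smul, RB.id_mk, RB.id_mk]
    exact zero_mul _
  · rw [uu_op_smul, RB.uu_mk, RB.uu_mk, smul_zero]
  · rw [pp_op_smul, RB.pp_mk, RB.pp_mk, dTop_snd]

theorem edgeP_add (p q : Px) : edgeP (p + q) = edgeP p + edgeP q := by
  rw [edgeP, edgeP, edgeP, ← TrivSqZeroExt.inr_add]
  congr 1
  refine RB.ext ?_ ?_ ?_
  · rw [RB.id_mk, RB.id_add, RB.id_mk, RB.id_mk, add_zero]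
  · rw [RB.uu_mk, RB.uu_add, RB.uu_mk, RB.uu_mk, add_zero]
  · rw [RB.pp_mk, RB.pp_add, RB.pp_mk, RB.pp_mk]

theorem decomp_top (x : RR) (hx : jLev 0 1 * x = x) :
    jLev 0 (x.fst.1 0) + edgeP x.snd.pp = x := by
  have hf : dLev 0 1 * x.fst = x.fst := by rw [← fst_jLev_mul, hx]
  have hs : dLev 0 1 • x.snd = x.snd := by rw [← snd_jLev_mul, hx]
  apply TrivSqZeroExt.ext
  · rw [jLev_apply, edgeP, TrivSqZeroExt.fst_add, TrivSqZeroExt.fst_inl, TrivSqZeroExt.fst_inr,
      add_zero]
    conv_rhs => rw [← hf]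
    refine Prod.ext ?_ ?_
    · rw [Prod.fst_mul, dLev_fst, dLev_fst, single_one_mul]
    · rw [Prod.snd_mul, dLev_snd, dLev_snd, zero_mul]
  · rw [jLev_apply, edgeP, TrivSqZeroExt.snd_add, TrivSqZeroExt.snd_inl, TrivSqZeroExt.snd_inr,
      zero_add]
    conv_rhs => rw [← hs]
    refine RB.ext (funext fun i => ?_) ?_ ?_
    · rw [id_smul, RB.id_mk, dLev_fst, Pi.single_eq_of_ne (Fin.succ_ne_zero i), zero_mul]
      rfl
    · rw [uu_smul, RB.uu_mk, dLev_snd, zero_smul]
    · rw [pp_smul, RB.pp_mk, dLev_fst, Pi.single_eq_same, one_smul]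

theorem ev_eR_top (hE : SpecEuler) {n : ℕ} (hn : 1 ≤ n) :
    EV n (eR (jLev 0)) (ModuleCat.of AP Px) := by
  have h2 : EV n (ModuleCat.of AP Px) (ModuleCat.of AP Px) := by
    rcases eq_or_lt_of_le hn with rfl | h
    · exact hE.2.1
    · exact (hE.1 n h _).1
  let e0 : eR (jLev 0) := mkE _ (jLev 0 1) (jLev_one_mul _)
  refine ev_two (W₁ := ModuleCat.of AP AP) (W₂ := ModuleCat.of AP Px)
    { toFun := fun x => (x.1 : RR).fst.1 0
      map_add' := fun x y => rfl
      map_smul' := fun a x => by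
        show ((jLev 0 a * (x.1 : RR)).fst).1 0 = a * (x.1 : RR).fst.1 0
        rw [fst_jLev_mul, Prod.fst_mul, Pi.mul_apply, dLev_fst, Pi.single_eq_same] }
    (LinearMap.toSpanSingleton AP (eR (jLev 0)) e0)
    { toFun := fun x => psiTop (x.1 : RR)
      map_add' := fun x y => rfl
      map_smul' := fun a x => psiTop_smul a (x.1 : RR) }
    { toFun := fun q => mkE _ (edgeP q) (by rw [jLev_mul_edgeP, one_smul])
      map_add' := fun p q => Subtype.ext (edgeP_add p q)
      map_smul' := fun a q => Subtype.ext (jLev_mul_edgeP a q).symm }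
    (fun x => ?_) (ev_ring hn _) h2
  apply Subtype.ext
  show jLev 0 ((x.1 : RR).fst.1 0) * jLev 0 1 + edgeP (x.1 : RR).snd.pp = (x.1 : RR)
  rw [← map_mul, mul_one]
  exact decomp_top _ x.2

theorem jTop_one_mul : jTop 1 * jTop 1 = jTop 1 := by rw [← map_mul, one_mul]

/-- the comparison map at the top -/
def phiTop : topCol →ₗ[RR] CoindT (jLev 0) (ModuleCat.of AP Px) :=
  (pairing (jLev 0) (Y := ModuleCat.of AP Px) psiTop psiTop_smul) ∘ₗ
    (Submodule.span RR {jTop 1}).subtype

theorem phiTop_bijective (hE : SpecEuler) : Function.Bijective phiTop := by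
  let e0 : eR (jLev 0) := mkE _ (jLev 0 1) (jLev_one_mul _)
  let v (q : Px) : eR (jLev 0) := mkE _ (edgeP q) (by rw [jLev_mul_edgeP, one_smul])
  constructor
  · rw [injective_iff_map_eq_zero]
    rintro ⟨r, hr⟩ h0
    have ha : r.fst.2 = 0 := hE.2.2.2.2.1 _ fun q => by
      have h : psiTop (edgeP q * r) = 0 := congrArg (fun f => f (v q)) h0
      rwa [psiTop_edge_mul] at h
    have hb : r.snd.pp = 0 := by
      have h : psiTop (jLev 0 1 * r) = 0 := congrArg (fun f => f e0) h0
      rw [psiTop_smul] at h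
      rwa [one_smul] at h
    have he := col_eq jTop_one_mul hr
    apply Subtype.ext
    show r = 0
    rw [← he, jTop_apply]
    apply TrivSqZeroExt.ext
    · rw [TrivSqZeroExt.fst_mul, TrivSqZeroExt.fst_inl, TrivSqZeroExt.fst_zero]
      refine Prod.ext ?_ ?_
      · rw [Prod.fst_mul, dTop_fst, mul_zero]; rfl
      · rw [Prod.snd_mul, ha, zero_mul]; rfl
    · rw [TrivSqZeroExt.snd_mul, TrivSqZeroExt.snd_inl, TrivSqZeroExt.fst_inl, smul_zero,
        zero_add, TrivSqZeroExt.snd_zero]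
      refine RB.ext (funext fun i => ?_) ?_ ?_
      · rw [id_op_smul, dTop_fst, Pi.zero_apply, mul_zero]; rfl
      · rw [uu_op_smul, dTop_fst, Pi.zero_apply]
        exact zero_smul APᵐᵒᵖ r.snd.uu
      · rw [pp_op_smul, hb, smul_zero]; rfl
  · intro f
    let F : eR (jLev 0) →ₗ[AP] ModuleCat.of AP Px := f
    let p : Px := F e0
    let hlin : Px →ₗ[AP] Px :=
      { toFun := fun q => F (v q)
        map_add' := fun s t => by
          rw [show v (s + t) = v s + v t from Subtype.ext (edgeP_add s t)]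
          exact map_add F _ _
        map_smul' := fun b q => by
          rw [show v (b • q) = b • v q from Subtype.ext (jLev_mul_edgeP b q).symm]
          exact map_smul F b _ }
    obtain ⟨a, ha⟩ := hE.2.2.2.1 hlin
    refine ⟨⟨jTop a + edgeP p, mem_col ?_⟩, CoindT.ext fun x => ?_⟩
    · rw [add_mul, ← map_mul, edgeP_mul_jTop, mul_one, MulOpposite.op_one, one_smul]
    show psiTop ((x.1 : RR) * (jTop a + edgeP p)) = F x
    have hx : x = ((x.1 : RR).fst.1 0) • e0 + v (x.1 : RR).snd.pp := by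
      apply Subtype.ext
      show (x.1 : RR) = jLev 0 ((x.1 : RR).fst.1 0) * jLev 0 1 + edgeP (x.1 : RR).snd.pp
      rw [← map_mul, mul_one]
      exact (decomp_top _ x.2).symm
    conv_rhs => rw [hx]
    rw [map_add, map_smul]
    conv_lhs => rw [← decomp_top _ x.2]
    rw [add_mul, map_add, psiTop_smul, psiTop_edge_mul]
    refine congrArg₂ (· + ·) (congrArg (fun z => (x.1 : RR).fst.1 0 • z) ?_) ?_
    · show (jTop a + edgeP p).snd.pp = p
      rw [TrivSqZeroExt.snd_add, jTop_apply, TrivSqZeroExt.snd_inl, zero_add, edgeP,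
        TrivSqZeroExt.snd_inr, RB.pp_mk]
    · rw [TrivSqZeroExt.fst_add, jTop_apply, TrivSqZeroExt.fst_inl, edgeP,
        TrivSqZeroExt.fst_inr, add_zero, dTop_snd]
      exact (ha _).symm

theorem projZero_jLev (a : AP) : projZero (jLev 0 a) = a := by
  show (Pi.single (0 : Fin 5) a : Fin 5 → AP) 0 = a
  exact Pi.single_eq_same _ _

/-- `C` restricted to the level zero is `C₀` -/
def resTopEquiv : resC (jLev 0) ModC ≃ₗ[AP] ModuleCat.of AP C0 where
  toFun x := toC0 x.1
  invFun c := ⟨c, by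
    show toC0 (jLev 0 1 • (show ModC from c)) = c
    rw [toC0_smul, projZero_jLev, one_smul]
    rfl⟩
  left_inv x := Subtype.ext rfl
  right_inv c := rfl
  map_add' x y := rfl
  map_smul' a x := by
    show toC0 (jLev 0 a • x.1) = a • toC0 x.1
    rw [toC0_smul, projZero_jLev]

/-- scalars act on `C₀` as scalars -/
theorem chi_algebraMap (c : ℂ) : chi (algebraMap ℂ AP c) = c • 1 := by
  ext p q
  rw [chi_apply, cor_algebraMap_val, Matrix.algebraMap_matrix_apply, Matrix.smul_apply,
    Matrix.one_apply]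
  by_cases h : p = q
  · subst h
    rw [if_pos rfl, if_pos rfl, Algebra.algebraMap_eq_smul_one, map_smul, lamM_one]
  · rw [if_neg (fun e => h (supp0_injective e)), if_neg h, map_zero, smul_zero]

theorem cr_finite : Module.Finite RR CR := by
  classical
  refine ⟨⟨Finset.univ.image fun p => (C0.of (Pi.single p 1) : CR), ?_⟩⟩
  rw [eq_top_iff]
  intro x _
  have hdecomp : ∀ x : C0, x = ∑ p, algebraMap ℂ AP (x.vec p) • C0.of (Pi.single p 1) := by
    intro x
    have e : ∀ p, algebraMap ℂ AP (x.vec p) • C0.of (Pi.single p 1) =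
        C0.of (Pi.single p (x.vec p)) := by
      intro p
      show (chi (algebraMap ℂ AP (x.vec p))).mulVec (Pi.single p 1) = Pi.single p (x.vec p)
      rw [chi_algebraMap, Matrix.smul_mulVec, Matrix.one_mulVec, ← Pi.single_smul, smul_eq_mul,
        mul_one]
    simp only [e]
    exact (Finset.univ_sum_single (x.vec)).symm
  have hx := hdecomp x
  rw [hx]
  refine Submodule.sum_mem _ fun p _ => ?_
  rw [← projZero_jLev (algebraMap ℂ AP (C0.vec x p))]
  exact Submodule.smul_mem _ (jLev 0 (algebraMap ℂ AP (C0.vec x p)))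
    (Submodule.subset_span (Finset.mem_coe.mpr (Finset.mem_image.mpr ⟨p, Finset.mem_univ p, rfl⟩)))

end RCols

open RCols

/-- the lower levels -/
theorem specCLow (hN : IsNoetherianRing RR) (hC : SpecCorner) : SpecCLow := by
  intro n l hl
  obtain ⟨k, rfl⟩ := Fin.exists_castSucc_eq.mpr hl
  refine ev_of_linearEquiv (Y' := coind (jLev k.succ) (ModuleCat.of AP AP))
    (LinearEquiv.ofBijective (phiLow k) (phiLow_bijective k) :
    levCol k.castSucc ≃ₗ[RR] coind (jLev k.succ) (ModuleCat.of AP AP)) ?_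
  exact (hC RR AP (jLev k.succ) (ModuleCat.of AP AP) (fun m hm => ev_eR_low k hm _) n ModC
    cr_finite).1 (ev_of_all_zero (resC_low_zero k))

/-- the top -/
theorem specCTop (hN : IsNoetherianRing RR) (hC : SpecCorner) (hE : SpecEuler) (h0 : SpecC0Px) :
    SpecCTop := by
  intro n hn
  refine ev_of_linearEquiv (Y' := coind (jLev 0) (ModuleCat.of AP Px))
    (LinearEquiv.ofBijective phiTop (phiTop_bijective hE) :
    topCol ≃ₗ[RR] coind (jLev 0) (ModuleCat.of AP Px)) ?_
  exact (hC RR AP (jLev 0) (ModuleCat.of AP Px) (fun m hm => ev_eR_top hE hm) n ModC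
    cr_finite).1 (ev_of_linearEquiv_left resTopEquiv (h0 n hn))

end

end Vale.Agent.P195
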