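import Vale.Agent.P195.Spec2

/-!
Module H, first part: coinduction from the top corner, its decomposition into the top and level-4
components, and the disjointness criterion for modules supported at the level 4.
-/

namespace Vale.Agent.P195.RMid

open CategoryTheory MulOpposite

noncomputable section

/-! ### Finiteness -/

theorem py_finite (hF : SpecFinite) : Module.Finite AP Py :=
  haveI := hF.2.2.2.1
  Module.Finite.of_restrictScalars_finite ℂ AP Py

theorem ii_finite (hF : SpecFinite) : Module.Finite ℂ II :=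
  haveI := hF.2.2.2.2
  inferInstanceAs (Module.Finite ℂ (Module.End ℂ GG))

theorem np_finite (hF : SpecFinite) : Module.Finite AP NP :=
  haveI := ii_finite hF
  haveI : Module.Finite AP II := Module.Finite.of_restrictScalars_finite ℂ AP II
  inferInstance

theorem npC_finite (hF : SpecFinite) : Module.Finite ℂ NP :=
  haveI := hF.1
  haveI := np_finite hF
  Module.Finite.trans AP NP

/-- coordinates of the bimodule part -/
def rbCoord (s : Finset Py) : RB →ₗ[ℂ] (Fin 4 → AP) × (s → NP) × Px where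
  toFun b := (b.id_, fun p => b.uu (p : Py), b.pp)
  map_add' a b := Prod.ext rfl (Prod.ext (funext fun p => HomP.add_apply a.uu b.uu _) rfl)
  map_smul' c b := by
    refine Prod.ext (funext fun l => ?_) (Prod.ext (funext fun p => ?_) ?_)
    · exact (Algebra.smul_def c (b.id_ l)).symm
    · show (algebraMap ℂ AX c • b.uu) (p : Py) = c • b.uu (p : Py)
      rw [HomP.smul_apply, ← py_central, HomP.map_smul', algebraMap_smul]
    · show algebraMap ℂ AP c • b.pp = c • b.pp
      exact algebraMap_smul AP c b.pp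

theorem rbCoord_injective (s : Finset Py) (hs : Submodule.span AP (s : Set Py) = ⊤) :
    Function.Injective (rbCoord s) := by
  intro a b h
  have h1 : a.id_ = b.id_ := by
    have e := congrArg (fun x : (Fin 4 → AP) × (s → NP) × Px => x.1) h
    exact e
  have h2 : (fun p : s => a.uu (p : Py)) = fun p : s => b.uu (p : Py) :=
    congrArg (fun x => x.2.1) h
  have h3 : a.pp = b.pp := congrArg (fun x => x.2.2) h
  refine RB.ext h1 ?_ h3
  have : HomP.toLin a.uu = HomP.toLin b.uu :=
    LinearMap.ext_on hs fun p hp => congrFun h2 ⟨p, hp⟩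
  exact this

theorem rr_finite' (hF : SpecFinite) : Module.Finite ℂ RR := by
  haveI := hF.1
  haveI := hF.2.1
  haveI := hF.2.2.1
  haveI := npC_finite hF
  haveI := py_finite hF
  obtain ⟨s, hs⟩ := Module.Finite.fg_top (R := AP) (M := Py)
  haveI : Module.Finite ℂ RB := Module.Finite.of_injective _ (rbCoord_injective s hs)
  exact inferInstanceAs (Module.Finite ℂ (RD × RB))

theorem rr_noetherian (hF : SpecFinite) : IsNoetherianRing RR :=
  haveI := rr_finite' hF
  isNoetherian_of_tower ℂ inferInstance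

/-! ### Elements of `e R` for the top corner -/

/-- the element of `R` underlying an element of `e R` -/
def rval (x : eR jTop) : RR := x.1

theorem rval_fix (x : eR jTop) : jTop 1 * rval x = rval x := x.2

theorem rval_add (x y : eR jTop) : rval (x + y) = rval x + rval y := rfl
theorem rval_smul (a : AX) (x : eR jTop) : rval (a • x) = jTop a * rval x := rfl
theorem rval_mul (r : RR) (x : eR jTop) : rval (eRmul jTop r x) = rval x * r := rfl
theorem rval_ext {x y : eR jTop} (h : rval x = rval y) : x = y := Subtype.ext h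

/-- the top coordinate -/
def topc (r : RR) : AX := r.fst.2
/-- the coordinate in `U` -/
def uc (r : RR) : UU := r.snd.uu

theorem topc_add (r s : RR) : topc (r + s) = topc r + topc s := rfl
theorem uc_add (r s : RR) : uc (r + s) = uc r + uc s := rfl

theorem topc_mul (r s : RR) : topc (r * s) = topc r * topc s := rfl

theorem uc_mul (r s : RR) :
    uc (r * s) = topc r • uc s + op (s.fst.1 (Fin.last 4)) • uc r := by
  show ((r * s).snd).uu = _
  rw [TrivSqZeroExt.snd_mul, RB.uu_add]
  rfl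

theorem topc_jTop (a : AX) : topc (jTop a) = a := rfl
theorem uc_jTop (a : AX) : uc (jTop a) = 0 := rfl
theorem topc_jLev (l : Fin 5) (a : AP) : topc (jLev l a) = 0 := rfl
theorem uc_jLev (l : Fin 5) (a : AP) : uc (jLev l a) = 0 := rfl
theorem topc_edgeU (u : UU) : topc (edgeU u) = 0 := rfl
theorem uc_edgeU (u : UU) : uc (edgeU u) = u := rfl
theorem fst_edgeU (u : UU) : (edgeU u).fst = 0 := rfl
theorem fst_jLev (l : Fin 5) (a : AP) : (jLev l a).fst.1 = Pi.single l a := rfl
theorem fst_jTop (a : AX) : (jTop a).fst.1 = 0 := rfl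

theorem rval_smul_topc (a : AX) (x : eR jTop) : topc (rval (a • x)) = a * topc (rval x) := by
  rw [rval_smul, topc_mul, topc_jTop]

theorem rval_smul_uc (a : AX) (x : eR jTop) : uc (rval (a • x)) = a • uc (rval x) := by
  rw [rval_smul, uc_mul, topc_jTop, uc_jTop, smul_zero, add_zero]

/-- the top coordinate as a linear map -/
def topcL : eR jTop →ₗ[AX] AX where
  toFun x := topc (rval x)
  map_add' x y := rfl
  map_smul' a x := rval_smul_topc a x

/-- the coordinate in `U` as a linear map -/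
def ucL : eR jTop →ₗ[AX] UU where
  toFun x := uc (rval x)
  map_add' x y := rfl
  map_smul' a x := rval_smul_uc a x

theorem topcL_apply (x : eR jTop) : topcL x = topc (rval x) := rfl
theorem ucL_apply (x : eR jTop) : ucL x = uc (rval x) := rfl

theorem jTop_one_mul (r : RR) :
    jTop 1 * r = jTop (topc r) + edgeU (uc r) := by
  refine TrivSqZeroExt.ext ?_ ?_
  · rw [TrivSqZeroExt.fst_mul, TrivSqZeroExt.fst_add, fst_edgeU, add_zero]
    exact Prod.ext (zero_mul r.fst.1) (one_mul r.fst.2)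
  · rw [TrivSqZeroExt.snd_mul, TrivSqZeroExt.snd_add]
    show (dTop 1 : RD) • r.snd + op r.fst • (0 : RB) = 0 + RB.mk 0 (uc r) 0
    rw [smul_zero, add_zero, zero_add, rb_smul]
    refine RB.ext (funext fun l => ?_) ?_ ?_
    · exact zero_mul _
    · exact one_smul AX r.snd.uu
    · exact zero_smul AP r.snd.pp

/-- the top idempotent in `e R` -/
def tE : eR jTop := ⟨jTop 1, show jTop 1 * jTop 1 = jTop 1 by rw [← map_mul, one_mul]⟩

theorem rval_tE : rval tE = jTop 1 := rfl

/-- `U` inside `e R` -/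
def uE (u : UU) : eR jTop :=
  ⟨edgeU u, show jTop 1 * edgeU u = edgeU u by
    rw [jTop_one_mul, topc_edgeU, uc_edgeU, map_zero, zero_add]⟩

theorem rval_uE (u : UU) : rval (uE u) = edgeU u := rfl

theorem edgeU_add (u v : UU) : edgeU (u + v) = edgeU u + edgeU v := by
  rw [edgeU, edgeU, edgeU, ← TrivSqZeroExt.inr_add]
  congr 1
  refine RB.ext ?_ ?_ ?_
  · rw [RB.id_mk, RB.id_add, RB.id_mk, RB.id_mk, add_zero]
  · rw [RB.uu_mk, RB.uu_add, RB.uu_mk, RB.uu_mk]
  · rw [RB.pp_mk, RB.pp_add, RB.pp_mk, RB.pp_mk, add_zero]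

theorem jTop_mul_edgeU (a : AX) (u : UU) : jTop a * edgeU u = edgeU (a • u) := by
  rw [jTop_apply, edgeU, edgeU, TrivSqZeroExt.inl_mul_inr, rb_smul]
  congr 1
  refine RB.ext ?_ ?_ ?_
  · rw [RB.id_mk, RB.id_mk]
    exact funext fun l => mul_zero _
  · rw [RB.uu_mk, RB.uu_mk, RB.uu_mk, dTop_snd]
  · rw [RB.pp_mk, RB.pp_mk, RB.pp_mk, smul_zero]

/-- `U` inside `e R`, linearly -/
def uEL : UU →ₗ[AX] eR jTop where
  toFun := uE
  map_add' u v := rval_ext (by rw [rval_add, rval_uE, rval_uE, rval_uE, edgeU_add])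
  map_smul' a u := rval_ext (by
    rw [RingHom.id_apply, rval_smul, rval_uE, rval_uE, jTop_mul_edgeU])

theorem eR_decomp (x : eR jTop) : x = topcL x • tE + uE (ucL x) := by
  refine rval_ext ?_
  rw [rval_add, rval_smul, rval_tE, rval_uE, ← map_mul, mul_one, topcL_apply, ucL_apply,
    ← jTop_one_mul, rval_fix]

theorem topcL_tE : topcL tE = 1 := rfl
theorem ucL_tE : ucL tE = 0 := rfl
theorem topcL_uE (u : UU) : topcL (uE u) = 0 := rfl
theorem ucL_uE (u : UU) : ucL (uE u) = u := rfl

/-! ### Coinduced modules -/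

/-- constructor -/
def cmk {Y : ModuleCat.{0} AX} (f : eR jTop →ₗ[AX] Y) : coind jTop Y := f
/-- the underlying linear map -/
def clin {Y : ModuleCat.{0} AX} (f : coind jTop Y) : eR jTop →ₗ[AX] Y := f

theorem cext {Y : ModuleCat.{0} AX} {f g : coind jTop Y}
    (h : ∀ x, clin f x = clin g x) : f = g := LinearMap.ext (f := clin f) (g := clin g) h

theorem clin_cmk {Y : ModuleCat.{0} AX} (f : eR jTop →ₗ[AX] Y) : clin (cmk f) = f := rfl
theorem clin_add {Y : ModuleCat.{0} AX} (f g : coind jTop Y) (x : eR jTop) :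
    clin (f + g) x = clin f x + clin g x := rfl
theorem clin_zero {Y : ModuleCat.{0} AX} (x : eR jTop) :
    clin (0 : coind jTop Y) x = 0 := rfl
theorem clin_smul {Y : ModuleCat.{0} AX} (r : RR) (f : coind jTop Y) (x : eR jTop) :
    clin (r • f) x = clin f (eRmul jTop r x) := rfl

theorem cext2 {Y : ModuleCat.{0} AX} {f g : coind jTop Y}
    (h1 : clin f tE = clin g tE) (h2 : ∀ u, clin f (uE u) = clin g (uE u)) : f = g := by
  refine cext fun x => ?_
  rw [eR_decomp x, map_add, map_add, map_smul, map_smul, h1, h2]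

/-- functoriality of coinduction -/
def coindMap {Y Y' : ModuleCat.{0} AX} (g : Y →ₗ[AX] Y') :
    coind jTop Y →ₗ[RR] coind jTop Y' where
  toFun f := cmk (g ∘ₗ clin f)
  map_add' f f' := cext fun x => map_add g (clin f x) (clin f' x)
  map_smul' r f := cext fun _ => rfl

theorem clin_coindMap {Y Y' : ModuleCat.{0} AX} (g : Y →ₗ[AX] Y') (f : coind jTop Y)
    (x : eR jTop) : clin (coindMap g f) x = g (clin f x) := rfl

theorem coindMap_injective {Y Y' : ModuleCat.{0} AX} (g : Y →ₗ[AX] Y')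
    (hg : Function.Injective g) : Function.Injective (coindMap g) :=
  fun f f' h => cext fun x => hg (congrArg (fun q => clin q x) h)

theorem exists_factor {A : Type} [Ring A] {M N P : Type} [AddCommGroup M] [Module A M]
    [AddCommGroup N] [Module A N] [AddCommGroup P] [Module A P] (i : M →ₗ[A] N)
    (hi : Function.Injective i) (f : P →ₗ[A] N) (h : ∀ x, f x ∈ LinearMap.range i) :
    ∃ f' : P →ₗ[A] M, i ∘ₗ f' = f := by
  refine ⟨(LinearEquiv.ofInjective i hi).symm.toLinearMap ∘ₗ f.codRestrict _ h,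
    LinearMap.ext fun x => ?_⟩
  show i ((LinearEquiv.ofInjective i hi).symm ⟨f x, h x⟩) = f x
  exact congrArg Subtype.val
    ((LinearEquiv.ofInjective i hi).apply_symm_apply (⟨f x, h x⟩ : LinearMap.range i))

theorem coindMap_exact {Y Y' Y'' : ModuleCat.{0} AX} (i : Y →ₗ[AX] Y') (p : Y' →ₗ[AX] Y'')
    (hi : Function.Injective i) (h : Function.Exact i p) :
    Function.Exact (coindMap i) (coindMap p) := by
  intro f
  constructor
  · intro hf
    obtain ⟨f', hf'⟩ := exists_factor i hi (clin f)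
      (fun x => (h (clin f x)).1 (congrArg (fun q => clin q x) hf))
    exact ⟨cmk f', cext fun x => congrArg (fun q => q x) hf'⟩
  · rintro ⟨g, rfl⟩
    exact cext fun x => (h _).2 ⟨clin g x, rfl⟩

/-! ### The functor `Θ` -/

/-- `Hom_{A'}(P_y, Z)` -/
abbrev HY (Z : ModuleCat.{0} AP) : ModuleCat.{0} AX := ModuleCat.of AX (HomP AP Py Z)

/-- `Θ Z` -/
abbrev Theta (Z : ModuleCat.{0} AP) : ModuleCat.{0} RR := coind jTop (HY Z)

/-- `Hom(P_y, g)` -/
def hyMap {Z Z' : ModuleCat.{0} AP} (g : Z →ₗ[AP] Z') : HY Z →ₗ[AX] HY Z' :=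
  HomP.map (A := AP) (B := AX) (P := Py) g

theorem hyMap_apply {Z Z' : ModuleCat.{0} AP} (g : Z →ₗ[AP] Z') (f : HY Z) (p : Py) :
    (hyMap g f : HomP AP Py Z') p = g ((f : HomP AP Py Z) p) := rfl

theorem hyMap_injective {Z Z' : ModuleCat.{0} AP} (g : Z →ₗ[AP] Z') (hg : Function.Injective g) :
    Function.Injective (hyMap g) :=
  fun f f' h => HomP.ext fun p => hg (congrArg (fun q : HomP AP Py Z' => q p) h)

theorem hyMap_exact {Y Y' Y'' : ModuleCat.{0} AP} (i : Y →ₗ[AP] Y') (p : Y' →ₗ[AP] Y'')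
    (hi : Function.Injective i) (h : Function.Exact i p) :
    Function.Exact (hyMap i) (hyMap p) := by
  intro f
  constructor
  · intro hf
    obtain ⟨f', hf'⟩ := exists_factor i hi (HomP.toLin (f : HomP AP Py Y'))
      (fun x => (h _).1 (congrArg (fun q : HomP AP Py Y'' => q x) hf))
    exact ⟨HomP.ofLin f', HomP.ext fun x => congrArg (fun q => q x) hf'⟩
  · rintro ⟨g, rfl⟩
    exact HomP.ext fun x => (h _).2 ⟨(g : HomP AP Py Y) x, rfl⟩

/-- the element of `Θ Z` at the top -/
def thT {Z : ModuleCat.{0} AP} (h : HY Z) : Theta Z :=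
  cmk ((LinearMap.toSpanSingleton AX (HY Z) h) ∘ₗ topcL)

/-- `Hom(N', Z)` to `Hom(U, Hom(P_y, Z))` -/
def postU {Z : ModuleCat.{0} AP} (g : HomP AP NP Z) : UU →ₗ[AX] HY Z :=
  HomP.map (A := AP) (B := AX) (P := Py) (HomP.toLin g)

theorem postU_apply {Z : ModuleCat.{0} AP} (g : HomP AP NP Z) (u : UU) (p : Py) :
    (postU g u : HomP AP Py Z) p = g (u p) := rfl

theorem postU_smul {Z : ModuleCat.{0} AP} (a : AP) (g : HomP AP NP Z) (u : UU) :
    postU (a • g) u = postU g (op a • u) := HomP.ext fun p => rfl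

/-- the element of `Θ Z` at the level 4 -/
def thL {Z : ModuleCat.{0} AP} (g : HomP AP NP Z) : Theta Z := cmk (postU g ∘ₗ ucL)

theorem thT_tE {Z : ModuleCat.{0} AP} (h : HY Z) : clin (thT h) tE = h := one_smul AX h
theorem thT_uE {Z : ModuleCat.{0} AP} (h : HY Z) (u : UU) : clin (thT h) (uE u) = 0 :=
  zero_smul AX h
theorem thL_tE {Z : ModuleCat.{0} AP} (g : HomP AP NP Z) : clin (thL g) tE = 0 :=
  map_zero (postU g)
theorem thL_uE {Z : ModuleCat.{0} AP} (g : HomP AP NP Z) (u : UU) :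
    clin (thL g) (uE u) = postU g u := rfl

theorem thL_apply {Z : ModuleCat.{0} AP} (g : HomP AP NP Z) (x : eR jTop) :
    clin (thL g) x = postU g (uc (rval x)) := rfl
theorem thT_apply {Z : ModuleCat.{0} AP} (h : HY Z) (x : eR jTop) :
    clin (thT h) x = topc (rval x) • h := rfl

theorem thL_add {Z : ModuleCat.{0} AP} (g g' : HomP AP NP Z) : thL (g + g') = thL g + thL g' :=
  cext fun _ => HomP.ext fun _ => rfl

theorem thT_zero {Z : ModuleCat.{0} AP} : thT (0 : HY Z) = 0 :=
  cext fun x => smul_zero (topc (rval x))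

theorem coindMap_thT {Z Z' : ModuleCat.{0} AP} (g : Z →ₗ[AP] Z') (h : HY Z) :
    coindMap (hyMap g) (thT h) = thT (hyMap g h) :=
  cext fun x => map_smul (hyMap g) (topc (rval x)) h

theorem coindMap_thL {Z Z' : ModuleCat.{0} AP} (g : Z →ₗ[AP] Z') (h : HomP AP NP Z) :
    coindMap (hyMap g) (thL h) = thL (HomP.map (A := AP) (B := AP) (P := NP) g h) :=
  cext fun _ => HomP.ext fun _ => rfl

theorem jLev_one_mul_self (l : Fin 5) (a : AP) : jLev l 1 * jLev l a = jLev l a := by
  rw [← map_mul, one_mul]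

theorem jLev_smul_thT {Z : ModuleCat.{0} AP} (l : Fin 5) (a : AP) (h : HY Z) :
    jLev l a • thT h = 0 := by
  refine cext fun x => ?_
  rw [clin_smul, clin_zero, thT_apply, rval_mul, topc_mul, topc_jLev, mul_zero, zero_smul]

theorem uc_mul_jLev (r : RR) (l : Fin 5) (a : AP) :
    uc (r * jLev l a) = op (Pi.single (M := fun _ : Fin 5 => AP) l a (Fin.last 4)) • uc r := by
  rw [uc_mul, uc_jLev, smul_zero, zero_add, fst_jLev]

theorem jLev_last_smul_thL {Z : ModuleCat.{0} AP} (a : AP) (g : HomP AP NP Z) :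
    jLev (Fin.last 4) a • thL g = thL (a • g) := by
  refine cext fun x => ?_
  rw [clin_smul, thL_apply, thL_apply, rval_mul, uc_mul_jLev, Pi.single_eq_same, postU_smul]

theorem jLev_smul_thL {Z : ModuleCat.{0} AP} {l : Fin 5} (hl : l ≠ Fin.last 4) (a : AP)
    (g : HomP AP NP Z) : jLev l a • thL g = 0 := by
  refine cext fun x => ?_
  rw [clin_smul, thL_apply, rval_mul, uc_mul_jLev, Pi.single_eq_of_ne hl.symm, clin_zero]
  exact (congrArg (postU g) (zero_smul APᵐᵒᵖ (uc (rval x)))).trans (map_zero _)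

theorem jTop_smul_thL {Z : ModuleCat.{0} AP} (a : AX) (g : HomP AP NP Z) :
    jTop a • thL g = 0 := by
  refine cext fun x => ?_
  rw [clin_smul, thL_apply, rval_mul, uc_mul, uc_jTop, smul_zero, zero_add, fst_jTop,
    clin_zero]
  exact (congrArg (postU g) (zero_smul APᵐᵒᵖ (uc (rval x)))).trans (map_zero _)

theorem jTop_one_smul_thT {Z : ModuleCat.{0} AP} (h : HY Z) : jTop 1 • thT h = thT h := by
  refine cext fun x => ?_
  rw [clin_smul, thT_apply, thT_apply, rval_mul, topc_mul, topc_jTop, mul_one]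

/-- the linear map `Hom(N',Z)` to the level 4 of a quotient of `Θ Z` -/
def levQ {Z : ModuleCat.{0} AP} (W : Submodule RR (Theta Z)) :
    HomP AP NP Z →ₗ[AP] resC (jLev (Fin.last 4)) (ModuleCat.of RR (Theta Z ⧸ W)) where
  toFun g := ⟨W.mkQ (thL g), by
    rw [mem_comp, ← map_smul, jLev_last_smul_thL, one_smul]⟩
  map_add' g g' := Subtype.ext (by
    show W.mkQ (thL (g + g')) = W.mkQ (thL g) + W.mkQ (thL g')
    rw [thL_add, map_add])
  map_smul' a g := Subtype.ext (by
    show W.mkQ (thL (a • g)) = jLev (Fin.last 4) a • W.mkQ (thL g)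
    rw [← map_smul, jLev_last_smul_thL])

/-! ### Disjointness from components -/

theorem bij_zero {R A : Type} [Ring R] [Ring A] (j : A →ₙ+* R) (M : ModuleCat.{0} R) (e0 e1 : A)
    (r : R) (h : ∀ x : M, j 1 • x = x → x = 0) : BijOnComp (j e0) (j e1) r M := by
  have h' : ∀ (e : A) (x : M), j e • x = x → x = 0 := fun e x hx => h x (by
    conv_rhs => rw [← hx]
    conv_lhs => rw [← hx, ← mul_smul, ← map_mul, one_mul])
  exact ⟨fun y hy _ => h' e1 y hy, fun x hx => ⟨0, smul_zero _, by rw [smul_zero, h' e0 x hx]⟩⟩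

theorem bij_transfer {R A : Type} [Ring R] [Ring A] (j : A →ₙ+* R) (M : ModuleCat.{0} R)
    (N : ModuleCat.{0} A) (φ : N →ₗ[A] resC j M) (hφ : Function.Bijective φ) (e0 e1 a : A)
    (hb : BijOnComp e0 e1 a N) : BijOnComp (j e0) (j e1) (j a) M := by
  have h' : ∀ (e : A) (x : M), j e • x = x → ∃ n : N, e • n = n ∧ (φ n).1 = x := by
    intro e x hx
    have hm : j 1 • x = x := by
      conv_rhs => rw [← hx]
      conv_lhs => rw [← hx, ← mul_smul, ← map_mul, one_mul]
    obtain ⟨n, hn⟩ := hφ.2 (⟨x, hm⟩ : Comp j M)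
    refine ⟨n, hφ.1 ?_, by rw [hn]⟩
    rw [map_smul, hn]
    exact Subtype.ext hx
  constructor
  · intro y hy hay
    obtain ⟨n, hn, rfl⟩ := h' e1 y hy
    have : a • n = 0 := hφ.1 (by
      rw [map_smul, map_zero]
      exact Subtype.ext hay)
    rw [hb.1 n hn this, map_zero]
    rfl
  · intro x hx
    obtain ⟨n, hn, rfl⟩ := h' e0 x hx
    obtain ⟨m, hm, hm'⟩ := hb.2 n hn
    refine ⟨(φ m).1, ?_, ?_⟩
    · conv_rhs => rw [← hm, map_smul]
      rfl
    · conv_rhs => rw [← hm', map_smul]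
      rfl

theorem dLev_algebraMap (l : Fin 5) (q : ℂ) (a : AP) :
    dLev l (algebraMap ℂ AP q * a) = algebraMap ℂ RD q * dLev l a := by
  refine Prod.ext (funext fun k => ?_) ?_
  · rw [Prod.fst_mul, Pi.mul_apply, dLev_fst, dLev_fst]
    rcases eq_or_ne k l with rfl | hk
    · rw [Pi.single_eq_same, Pi.single_eq_same]
      rfl
    · rw [Pi.single_eq_of_ne hk, Pi.single_eq_of_ne hk, mul_zero]
  · rw [Prod.snd_mul, dLev_snd, dLev_snd, mul_zero]

theorem jLev_smulC (l : Fin 5) (q : ℂ) (a : AP) : jLev l (q • a) = q • jLev l a := by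
  rw [Algebra.smul_def q a, Algebra.smul_def q (jLev l a), jLev_apply, jLev_apply,
    dLev_algebraMap, TrivSqZeroExt.algebraMap_eq_inl', TrivSqZeroExt.inl_mul]

theorem sysR_pen_some (l : Fin 5) (τ : Tau 2) (q : ℂ) :
    sysR.pen (some l, τ) q = jLev l (sysP.pen τ q) := by
  rw [PencilSystem.pen, PencilSystem.pen, map_sub, jLev_smulC]
  rfl

/-- the spectral data used here -/
def sig : Option (Fin 5) → Set ℂ
  | some _ => natSet
  | none => posSet

theorem sig_closed : Closed sig := by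
  refine ⟨fun l => subset_rfl, ?_, ?_, ?_⟩
  · rintro p ⟨n, rfl⟩
    exact ⟨n, by push_cast; rfl⟩
  · rintro p ⟨n, rfl⟩
    exact ⟨n + 1, rfl⟩
  · rintro (_ | l) p hp
    · obtain ⟨n, rfl⟩ := hp
      exact ⟨n + 1, rfl⟩
    · exact hp

theorem disj_sig (M : ModuleCat.{0} RR) (htop : ∀ x : M, jTop 1 • x = x → x = 0)
    (hlow : ∀ l, l ≠ Fin.last 4 → ∀ x : M, jLev l 1 • x = x → x = 0)
    (N : ModuleCat.{0} AP) (φ : N →ₗ[AP] resC (jLev (Fin.last 4)) M)
    (hφ : Function.Bijective φ) (hN : sysP.Disj (fun _ => natSet) N) :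
    sysR.Disj (fun x => sig x.1) M := by
  rintro ⟨_ | l, τ⟩ q hq
  · exact bij_zero jTop M _ _ _ htop
  · rcases eq_or_ne l (Fin.last 4) with rfl | hl
    · rw [sysR_pen_some]
      exact bij_transfer _ M N φ hφ _ _ _ (hN τ q hq)
    · exact bij_zero (jLev l) M _ _ _ (hlow l hl)

end

end Vale.Agent.P195.RMid
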