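import Vale.Agent.P195.Spec2
import Vale.Agent.P195.RRegularPen

/-!
Module E of P195: pencils on columns, in elementwise form; the cokernel of the pencil at infinity.
-/

namespace Vale.Agent.P195.RReg

open CategoryTheory Polynomial Matrix MulOpposite

noncomputable section

/-! ### entries -/

theorem mX_injective (v' v : Fin 2) : Function.Injective (mX v' v) := by
  intro G G' h
  have h' := congrArg (fun M : Mat => (M v v).1) h
  simp only [mX_apply, dg_apply, arrX] at h'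
  fin_cases v' <;> fin_cases v <;> simpa using h'

theorem mZ_injective (v' v : Fin 2) : Function.Injective (mZ v' v) := by
  intro G G' h
  have h' := congrArg (fun M : Mat => (M v' v').1) h
  simp only [mZ_apply, dg_apply, arrZ] at h'
  fin_cases v' <;> fin_cases v <;> simpa using h'

theorem mW_injective (a b : Fin 2) : Function.Injective (mW a b) := by
  intro w w' h
  have h0 := congrArg (fun M : Mat => (M 1 0).2) h
  have h1 := congrArg (fun M : Mat => (M 0 1).2) h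
  simp only [mW_apply, alW, beW] at h0 h1
  revert h0 h1
  fin_cases a <;> fin_cases b <;> simp +contextual

theorem dgz_mX (a b : Fin 2) (G : PP) : dg zP * mX a b G = mX a b (zP * G) := by
  rw [mX_apply, mX_apply, map_mul, mul_assoc]

theorem dgz_mZ (a b : Fin 2) (G : PP) : dg zP * mZ a b G = mZ a b (zP * G) := by
  rw [mZ_apply, mZ_apply, map_mul, mul_assoc]

/-- the image of `z` acting on a block of `W` -/
def zW (a b : Fin 2) : SW := if a = 0 ∧ b = 1 then qq (C X) else qq (C X) + ep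

theorem pl_zP : pl zP = qq (C X) := by simp [pl, zP]
theorem sg_zP : sg zP = qq (C X) + ep := by simp [sg, zP]

theorem dgz_mW (a b : Fin 2) (w : SW) : dg zP * mW a b w = mW a b (zW a b * w) := by
  have e : dg zP = mZ a a zP := by simp [mZ_apply, arrZ]
  rw [e, mZ_mul_mW, wmulZ, if_pos rfl, zW]
  split_ifs
  · rw [pl_zP]
  · rw [sg_zP]

theorem zW_mul_fst (a b : Fin 2) (w : SW) :
    (zW a b * w).fst = TrivSqZeroExt.inl (C X) * w.fst := by
  unfold zW; split_ifs <;> simp [fst_qq, fst_ep]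

theorem zW_mul_snd (a b : Fin 2) (w : SW) :
    ∃ c : ℂ, (zW a b * w).snd = TrivSqZeroExt.inl (C X) * w.snd + c • w.fst := by
  unfold zW; split_ifs
  · exact ⟨0, by simp [TrivSqZeroExt.snd_mul, fst_qq, snd_qq]⟩
  · exact ⟨1, by simp [TrivSqZeroExt.snd_mul, fst_qq, snd_qq, fst_ep, snd_ep]⟩

theorem W0_div {d e : ℕ} {v : QE} (hv : v ∈ W0 d e 1)
    (hz : TrivSqZeroExt.inl (C X) * v ∈ W0 d e 1) : v ∈ W0 d e 0 := by
  obtain ⟨h1, h2, h3⟩ := hv
  obtain ⟨k1, k2, -⟩ := hz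
  refine ⟨fun i j _ => ?_, fun i j h => ?_, h3⟩
  · rcases j with - | j
    · simpa [Polynomial.coeff_X_mul] using k1 i 1 (.inr le_rfl)
    · exact h1 i (j + 1) (.inr (by omega))
  · rcases h with h | h
    · exact h2 i j (.inl h)
    · rcases (by omega : j = 1 ∨ 1 < j) with rfl | h'
      · simpa [Polynomial.coeff_X_mul] using k2 i 2 (.inr one_lt_two)
      · exact h2 i j (.inr h')

theorem W0_decomp {d e : ℕ} (hd : 1 ≤ d) {v : QE} (hv : v ∈ W0 d e 2) :
    ∃ v2 ∈ W0 d e 1, ∃ v1 ∈ W0 d e 1, TrivSqZeroExt.inl (C X) * v2 + v1 = v := by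
  obtain ⟨h1, h2, h3⟩ := hv
  set f2 : Qx := ∑ i ∈ Finset.range (d + 1), C ((v.fst.coeff i).divX) * X ^ i with hf2
  set D2 : Qx := (∑ i ∈ Finset.range (d - 1), C ((v.snd.coeff i).divX) * X ^ i) +
    C ((X + C (e : ℂ)) * (v.fst.coeff d).divX) * X ^ (d - 1) with hD2
  have cf : ∀ i, f2.coeff i = if i ≤ d then (v.fst.coeff i).divX else 0 := fun i => by
    rw [hf2, finsetSum_coeff]
    simp only [coeff_C_mul_X_pow, Finset.sum_ite_eq, Finset.mem_range, Nat.lt_succ_iff]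
  have cD : ∀ i, D2.coeff i = if i < d - 1 then (v.snd.coeff i).divX else
      if i = d - 1 then (X + C (e : ℂ)) * (v.fst.coeff d).divX else 0 := fun i => by
    rw [hD2, coeff_add, finsetSum_coeff]
    simp only [coeff_C_mul_X_pow, Finset.sum_ite_eq, Finset.mem_range]
    split_ifs <;> first | omega | simp
  have mem2 : (TrivSqZeroExt.inl f2 + TrivSqZeroExt.inr D2 : QE) ∈ W0 d e 1 := by
    refine ⟨fun i j h => ?_, fun i j h => ?_, ?_⟩
    · simp only [TrivSqZeroExt.fst_add, TrivSqZeroExt.fst_inl, TrivSqZeroExt.fst_inr, add_zero, cf]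
      split_ifs with hi
      · rw [coeff_divX]; exact h1 i (j + 1) (.inr (by omega))
      · simp
    · simp only [TrivSqZeroExt.snd_add, TrivSqZeroExt.snd_inl, TrivSqZeroExt.snd_inr, zero_add, cD]
      split_ifs with hi hi'
      · rw [coeff_divX]; exact h2 i (j + 1) (.inr (by omega))
      · have hj : 1 < j := by omega
        obtain ⟨k, rfl⟩ : ∃ k, j = k + 1 := ⟨j - 1, by omega⟩
        simp only [add_mul, coeff_add, Polynomial.coeff_X_mul, coeff_C_mul, coeff_divX]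
        rw [h1 d (k + 1) (.inr (by omega)), h1 d (k + 1 + 1) (.inr (by omega))]
        simp
      · simp
    · simp [cf, cD]
  refine ⟨_, mem2, v - TrivSqZeroExt.inl (C X) *
    (TrivSqZeroExt.inl f2 + TrivSqZeroExt.inr D2), ⟨fun i j h => ?_, fun i j h => ?_, ?_⟩, by simp⟩
  · simp only [TrivSqZeroExt.fst_sub, TrivSqZeroExt.fst_mul, TrivSqZeroExt.fst_inl,
      TrivSqZeroExt.fst_add, TrivSqZeroExt.fst_inr, add_zero, coeff_sub, coeff_C_mul, cf]
    rcases h with h | h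
    · rw [h1 i j (.inl h), if_neg (by omega)]; simp
    · obtain ⟨k, rfl⟩ : ∃ k, j = k + 1 := ⟨j - 1, by omega⟩
      split_ifs with hi
      · simp [Polynomial.coeff_X_mul, coeff_divX]
      · rw [h1 i _ (.inl (by omega))]; simp
  · simp only [TrivSqZeroExt.snd_sub, TrivSqZeroExt.snd_mul, TrivSqZeroExt.fst_inl,
      TrivSqZeroExt.snd_inl, TrivSqZeroExt.snd_add, TrivSqZeroExt.snd_inr, smul_zero, add_zero,
      zero_add, smul_eq_mul, coeff_sub, coeff_C_mul, cD]
    rcases h with h | h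
    · rw [h2 i j (.inl h), if_neg (by omega), if_neg (by omega)]; simp
    · obtain ⟨k, rfl⟩ : ∃ k, j = k + 1 := ⟨j - 1, by omega⟩
      split_ifs with hi hi'
      · simp [Polynomial.coeff_X_mul, coeff_divX]
      · subst hi'
        obtain ⟨l, rfl⟩ : ∃ l, k = l + 1 := ⟨k - 1, by omega⟩
        simp [h3, add_mul, Polynomial.coeff_X_mul, coeff_divX]
      · rw [h2 i _ (.inl (by omega))]; simp
  · simp only [TrivSqZeroExt.fst_sub, TrivSqZeroExt.fst_mul, TrivSqZeroExt.fst_inl,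
      TrivSqZeroExt.fst_add, TrivSqZeroExt.fst_inr, add_zero, TrivSqZeroExt.snd_sub,
      TrivSqZeroExt.snd_mul, TrivSqZeroExt.snd_inl, TrivSqZeroExt.snd_add, TrivSqZeroExt.snd_inr,
      smul_zero, zero_add, smul_eq_mul, coeff_sub, coeff_C_mul, cf, cD, h3, le_refl, if_true,
      lt_irrefl, if_false]
    simp
    ring

theorem PX_zdiv {A B : ℕ} {G : PP} (hG : G ∈ PX A B 0) (hz : zP * G ∈ PX A B 0) : G = 0 := by
  refine Polynomial.ext fun b => Polynomial.ext fun a => Polynomial.ext fun j => ?_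
  rcases j with - | j
  · simpa [zP, Polynomial.coeff_X_mul] using hz b a 1 (.inr (.inr one_pos))
  · simpa using hG b a (j + 1) (.inr (.inr (by omega)))

theorem PX_decomp {A B : ℕ} {G : PP} (hG : G ∈ PX A B 1) :
    ∃ G1 ∈ PX A B 0, ∃ G0 ∈ PX A B 0, zP * G1 + G0 = G := by
  refine PX_induction (p := fun G => ∃ G1 ∈ PX A B 0, ∃ G0 ∈ PX A B 0, zP * G1 + G0 = G)
    ⟨0, zero_mem _, 0, zero_mem _, by simp⟩ ?_ ?_ hG
  · rintro f g ⟨f1, hf1, f0, hf0, rfl⟩ ⟨g1, hg1, g0, hg0, rfl⟩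
    exact ⟨f1 + g1, add_mem hf1 hg1, f0 + g0, add_mem hf0 hg0, by ring⟩
  · intro b a j c hb ha hj
    rcases (by omega : j = 0 ∨ j = 1) with rfl | rfl
    · exact ⟨0, zero_mem _, mono b a 0 c, mono_mem hb ha le_rfl c, by simp⟩
    · refine ⟨mono b a 0 c, mono_mem hb ha le_rfl c, 0, zero_mem _, ?_⟩
      simp [mono, zP]
      ring

/-- entries at lower Kronecker indices -/
theorem H_down {A B : Tau 3} {m : Mat} (h : m ∈ H (A, 1) (B, 1)) : m ∈ H (A, 0) (B, 0) := by
  rcases A with ⟨a, b, v'⟩ | v' <;> rcases B with ⟨a', b', v⟩ | v <;>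
    simpa [H] using h

/-- division by `z` -/
theorem H_zdiv {A B : Tau 3} {m : Mat} (h : m ∈ H (A, 1) (B, 1))
    (hz : dg zP * m ∈ H (A, 0) (B, 0)) : m ∈ H (A, 1) (B, 0) := by
  rcases A with ⟨a, b, v'⟩ | v' <;> rcases B with ⟨a', b', v⟩ | v <;>
    simp only [H, le_refl, and_true, Fin.val_zero, Fin.val_one, Nat.sub_self,
      Nat.add_sub_cancel, Nat.sub_zero, if_true, Submodule.mem_bot] at h hz ⊢
  · rw [if_neg (by simp)]
    split_ifs at h hz
    · obtain ⟨G, hG, rfl⟩ := h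
      obtain ⟨G', hG', hz'⟩ := hz
      rw [dgz_mX] at hz'
      rw [mX_injective _ _ hz'] at hG'
      rw [PX_zdiv hG hG', map_zero]; exact zero_mem _
    · rw [(Submodule.mem_bot ℂ).1 h]; exact zero_mem _
  · exact h
  · obtain ⟨w, hw, rfl⟩ := h
    obtain ⟨w', hw', hz'⟩ := hz
    rw [dgz_mW] at hz'
    rw [mW_injective _ _ hz'] at hw'
    have hk1 := hw'.1
    rw [zW_mul_fst] at hk1
    have h0 := W0_div hw.1 hk1
    obtain ⟨c, hc⟩ := zW_mul_snd v' v w
    have hk2 := hw'.2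
    rw [hc] at hk2
    have h0' := W0_div hw.2
      (by simpa using sub_mem hk2 ((W0 _ _ 1).smul_mem c (W0_le zero_le_one h0)))
    exact ⟨w, ⟨h0, h0'⟩, rfl⟩
  · rw [if_neg (by simp)]
    obtain ⟨G, hG, rfl⟩ := h
    obtain ⟨G', hG', hz'⟩ := hz
    rw [dgz_mZ] at hz'
    rw [mZ_injective _ _ hz'] at hG'
    rw [PX_zdiv hG hG', map_zero]; exact zero_mem _

/-- `H(·0,·1) = z H(·1,·1) + H(·0,·0)` -/
theorem H_decomp {A B : Tau 3} {m : Mat} (h : m ∈ H (A, 0) (B, 1)) :
    ∃ y ∈ H (A, 1) (B, 1), ∃ z ∈ H (A, 0) (B, 0), dg zP * y + z = m := by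
  rcases A with ⟨a, b, v'⟩ | v' <;> rcases B with ⟨a', b', v⟩ | v <;>
    simp only [H, le_refl, and_true, Fin.zero_le, Fin.val_zero, Fin.val_one, Nat.sub_self,
      Nat.add_sub_cancel, Nat.sub_zero, if_true, Submodule.mem_bot] at h ⊢
  · split_ifs at h with hle
    · obtain ⟨G, hG, rfl⟩ := h
      obtain ⟨G1, h1, G0, h0, rfl⟩ := PX_decomp hG
      rw [if_pos hle]
      exact ⟨_, ⟨G1, h1, rfl⟩, _, ⟨G0, h0, rfl⟩, by rw [dgz_mX, map_add]⟩
    · rw [if_neg hle]
      exact ⟨0, zero_mem _, 0, zero_mem _, by simp [(Submodule.mem_bot ℂ).1 h]⟩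
  · exact ⟨0, rfl, 0, rfl, by simp [h]⟩
  · obtain ⟨w, hw, rfl⟩ := h
    obtain ⟨a2, ha2, a1, ha1, ea⟩ := W0_decomp (by omega) hw.1
    obtain ⟨b2, hb2, b1, hb1, eb⟩ := W0_decomp (by omega) hw.2
    obtain ⟨c, hc⟩ := zW_mul_snd v' v (TrivSqZeroExt.inl a2 + TrivSqZeroExt.inr b2)
    refine ⟨_, ⟨TrivSqZeroExt.inl a2 + TrivSqZeroExt.inr b2, ⟨by simpa using ha2,
      by simpa using hb2⟩, rfl⟩, _, ⟨TrivSqZeroExt.inl a1 + TrivSqZeroExt.inr (b1 - c • a2),
        ⟨by simpa using ha1, by simpa using sub_mem hb1 ((W0 _ _ 1).smul_mem c ha2)⟩, rfl⟩, ?_⟩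
    rw [dgz_mW, ← map_add]
    refine congrArg _ ?_
    ext1
    · rw [TrivSqZeroExt.fst_add, zW_mul_fst]
      simpa using ea
    · rw [TrivSqZeroExt.snd_add, hc]
      simp only [TrivSqZeroExt.snd_add, TrivSqZeroExt.snd_inl, TrivSqZeroExt.snd_inr,
        TrivSqZeroExt.fst_add, TrivSqZeroExt.fst_inl, TrivSqZeroExt.fst_inr, zero_add, add_zero]
      rw [← eb]; abel
  · obtain ⟨G, hG, rfl⟩ := h
    obtain ⟨G1, h1, G0, h0, rfl⟩ := PX_decomp hG
    exact ⟨_, ⟨G1, h1, rfl⟩, _, ⟨G0, h0, rfl⟩, by rw [dgz_mZ, map_add]⟩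

/-! ### columns -/

theorem shift_apply_eq {f : Vtx 2 → Vtx 3} (hf : IsShift f) (τ : Tau 2) (i : Fin 2) :
    f (τ, i) = ((f (τ, 0)).1, i) := by
  rcases hf with rfl | rfl | rfl <;> rfl

theorem eq_single_of_idem {M : BigMat} {u w : Vtx 2}
    (hl : Matrix.single u u (1 : Mat) * M = M) (hr : M * Matrix.single w w (1 : Mat) = M) :
    M = Matrix.single u w (M u w) := by
  conv_lhs => rw [← hr, ← hl]
  rw [Matrix.single_mul_mul_single, one_mul, mul_one]

/-- SpecBlocks, element by element -/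
theorem penBij_blk (hB : SpecBlocks) {f g : Vtx 2 → Vtx 3} (hf : IsShift f) (hg : IsShift g)
    (τ σ : Tau 2) (p : ℂ) (o : Option ℂ) (ho : o ≠ some p) :
    PenBij (Blk f g) ((sys f hf).f0 σ) ((sys f hf).f1 σ) ((sys f hf).penO σ o)
      ((sys g hg).f0 τ) ((sys g hg).f1 τ) ((sys g hg).pen τ p) := by
  obtain ⟨hinj, -, hs, hpen⟩ := hB f g hf hg τ p
  have hq : BijOnComp ((sys f hf).f0 σ) ((sys f hf).f1 σ) ((sys f hf).penO σ o)
      (ModuleCat.of (Cor f) (colB f g (τ, 1) ⧸ LinearMap.range (rpen f g hg τ p))) := by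
    cases o with
    | none => exact hs σ
    | some q => exact hpen σ q (fun h => ho (congrArg some (Set.mem_singleton_iff.1 h)))
  refine PenBij.of_inj (fun y h1 h2 => ?_) (fun y z h1 h2 h3 h4 => ?_) (fun x h1 h2 => ?_)
  · exact congrArg Subtype.val (hinj (a₁ := (⟨y, h1⟩ : colB f g (τ, 0))) (a₂ := 0)
      ((Subtype.ext h2).trans (map_zero (rpen f g hg τ p)).symm))
  · have h0 := hq.1 (Submodule.Quotient.mk (⟨y, h2⟩ : colB f g (τ, 1)))
      (congrArg Submodule.Quotient.mk (Subtype.ext h1)) ?_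
    · obtain ⟨w, hw⟩ := LinearMap.mem_range.1 ((Submodule.Quotient.mk_eq_zero _).1 h0)
      exact ⟨w.1, w.2, congrArg Subtype.val hw⟩
    · change Submodule.Quotient.mk ((sys f hf).penO σ o • (⟨y, h2⟩ : colB f g (τ, 1))) = 0
      rw [Submodule.Quotient.mk_eq_zero, LinearMap.mem_range]
      exact ⟨⟨z, h3⟩, Subtype.ext h4⟩
  · obtain ⟨q, hq1, hq2⟩ := hq.2 (Submodule.Quotient.mk (⟨x, h2⟩ : colB f g (τ, 1)))
      (congrArg Submodule.Quotient.mk (Subtype.ext h1))
    obtain ⟨y, rfl⟩ := Submodule.Quotient.mk_surjective _ q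
    rw [← hq1] at hq2
    have hq2' : Submodule.Quotient.mk (p := LinearMap.range (rpen f g hg τ p))
        ((sys f hf).penO σ o • (sys f hf).f1 σ • y) = Submodule.Quotient.mk ⟨x, h2⟩ := hq2
    rw [Submodule.Quotient.eq, LinearMap.mem_range] at hq2'
    obtain ⟨z, hz⟩ := hq2'
    refine ⟨(sys f hf).f1 σ • y.1, -z.1, by rw [← mul_smul, (sys f hf).f1_idem],
      ((sys f hf).f1 σ • y).2, by rw [smul_neg]; exact congrArg Neg.neg z.2, ?_⟩
    have hz' : op ((sys g hg).pen τ p) • z.1 =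
      (sys f hf).penO σ o • (sys f hf).f1 σ • y.1 - x := congrArg Subtype.val hz
    rw [smul_neg, hz']
    abel

/-- the right pencil at infinity is injective -/
theorem blk_s_inj {f g : Vtx 2 → Vtx 3} (hg : IsShift g) (τ : Tau 2) (y : Blk f g)
    (h1 : op ((sys g hg).f0 τ) • y = y) (h2 : op ((sys g hg).s τ) • y = 0) : y = 0 := by
  have k1 : y.val * Matrix.single (τ, 0) (τ, 0) 1 = y.val := congrArg Blk.val h1
  have k2 : y.val * Matrix.single (τ, 0) (τ, 1) 1 = 0 := congrArg Blk.val h2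
  refine Blk.ext ?_
  rw [Blk.val_zero, ← k1]
  have e := congrArg (fun M : BigMat => M * Matrix.single (τ, 1) (τ, 0) (1 : Mat)) k2
  simpa [mul_assoc] using e

/-- the cokernel of the right pencil at infinity has all finite pencils bijective -/
theorem penBij_inf {f g : Vtx 2 → Vtx 3} (hf : IsShift f) (hg : IsShift g) (τ σ : Tau 2) (c : ℂ) :
    PenBij (Blk f g) ((sys f hf).f0 σ) ((sys f hf).f1 σ) ((sys f hf).pen σ c)
      ((sys g hg).f0 τ) ((sys g hg).f1 τ) ((sys g hg).s τ) := by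
  have ef := shift_apply_eq hf σ
  have eg := shift_apply_eq hg τ
  have penval : ((sys f hf).pen σ c).val =
      Matrix.single (σ, 0) (σ, 1) (dg zP - c • (1 : Mat)) := by
    rw [PencilSystem.pen, Cor.val_sub, Cor.val_smul, sub_eq_add_neg (dg zP), Matrix.single_add,
      ← neg_smul, ← Matrix.smul_single, neg_smul, ← sub_eq_add_neg]
    rfl
  refine PenBij.of_inj (blk_s_inj hg τ) (fun y z h1 h2 h3 h4 => ?_) (fun x h1 h2 => ?_)
  · have k1 : Matrix.single (σ, 1) (σ, 1) 1 * y.val = y.val := congrArg Blk.val h1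
    have k2 : y.val * Matrix.single (τ, 1) (τ, 1) 1 = y.val := congrArg Blk.val h2
    have k4 : z.val * Matrix.single (τ, 0) (τ, 1) 1 = ((sys f hf).pen σ c).val * y.val :=
      congrArg Blk.val h4
    have hy := eq_single_of_idem k1 k2
    set m := y.val (σ, 1) (τ, 1) with hm
    have hmem : m ∈ H ((f (σ, 0)).1, 1) ((g (τ, 0)).1, 1) := ef 1 ▸ eg 1 ▸ y.mem (σ, 1) (τ, 1)
    have e : z.val (σ, 0) (τ, 0) = dg zP * m - c • m := by
      have k := congrFun (congrFun k4 (σ, 0)) (τ, 1)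
      rw [penval, hy] at k
      simpa [sub_mul] using k
    have hzmem : dg zP * m ∈ H ((f (σ, 0)).1, 0) ((g (τ, 0)).1, 0) := by
      have := ef 0 ▸ eg 0 ▸ z.mem (σ, 0) (τ, 0)
      rw [e] at this
      simpa using add_mem this (Submodule.smul_mem _ c (H_down hmem))
    have hres : m ∈ H (f (σ, 1)) (g (τ, 0)) := by rw [ef 1, eg 0]; exact H_zdiv hmem hzmem
    refine ⟨Blk.mk (Matrix.single (σ, 1) (τ, 0) m) (fun u w => ?_), Blk.ext ?_, Blk.ext ?_⟩
    · rw [Matrix.single_apply]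
      split_ifs with h
      · rwa [← h.1, ← h.2]
      · exact zero_mem _
    · show Matrix.single (σ, 1) (τ, 0) m * Matrix.single (τ, 0) (τ, 0) 1 = _
      simp
    · show Matrix.single (σ, 1) (τ, 0) m * Matrix.single (τ, 0) (τ, 1) 1 = y.val
      rw [hy]; simp
  · have k1 : Matrix.single (σ, 0) (σ, 0) 1 * x.val = x.val := congrArg Blk.val h1
    have k2 : x.val * Matrix.single (τ, 1) (τ, 1) 1 = x.val := congrArg Blk.val h2
    have hx := eq_single_of_idem k1 k2
    obtain ⟨y, hy, z, hz, e⟩ := H_decomp (ef 0 ▸ eg 1 ▸ x.mem (σ, 0) (τ, 1))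
    have hy' : y ∈ H (f (σ, 1)) (g (τ, 1)) := by rw [ef 1, eg 1]; exact hy
    have hz' : z + c • y ∈ H (f (σ, 0)) (g (τ, 0)) := by
      rw [ef 0, eg 0]; exact add_mem hz (Submodule.smul_mem _ c (H_down hy))
    refine ⟨Blk.mk (Matrix.single (σ, 1) (τ, 1) y) (fun u w => ?_),
      Blk.mk (Matrix.single (σ, 0) (τ, 0) (z + c • y)) (fun u w => ?_),
      Blk.ext ?_, Blk.ext ?_, Blk.ext ?_, Blk.ext ?_⟩
    · rw [Matrix.single_apply]
      split_ifs with h
      · rwa [← h.1, ← h.2]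
      · exact zero_mem _
    · rw [Matrix.single_apply]
      split_ifs with h
      · rwa [← h.1, ← h.2]
      · exact zero_mem _
    · show Matrix.single (σ, 1) (σ, 1) 1 * Matrix.single (σ, 1) (τ, 1) y = _
      simp
    · show Matrix.single (σ, 1) (τ, 1) y * Matrix.single (τ, 1) (τ, 1) 1 = _
      simp
    · show Matrix.single (σ, 0) (τ, 0) (z + c • y) * Matrix.single (τ, 0) (τ, 0) 1 = _
      simp
    · show ((sys f hf).pen σ c).val * Matrix.single (σ, 1) (τ, 1) y +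
        Matrix.single (σ, 0) (τ, 0) (z + c • y) * Matrix.single (τ, 0) (τ, 1) 1 = x.val
      rw [penval, hx, ← e]
      simp [sub_mul, ← Matrix.single_add]

end

end Vale.Agent.P195.RReg
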