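import Vale.Agent.P195.Objects

/-!
Substitutions `z ↦ p`, and the shift `z ↦ z + 1` identifying the two frames of the top algebra.
-/

namespace Vale.Agent.P195

open Polynomial Matrix

noncomputable section

theorem substS_apply (p : Polynomial ℂ) (G : PP) (w : SW) :
    substS p (G, w) = (Polynomial.mapAlgHom (substQ p) G, substW p w) := rfl

theorem substW_apply (p : Polynomial ℂ) (w : SW) :
    substW p w = TrivSqZeroExt.inl (dmap (substQ p) w.fst) +
      TrivSqZeroExt.inl (dmap (substQ p) w.snd) * ep := by
  unfold substW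
  exact DualNumber.lift_apply_apply _ w

theorem substW_et (p : Polynomial ℂ) : substW p et = et := by
  ext1
  · rw [substW_fst, fst_et]
    ext1
    · rw [dmap_fst]; simp
    · rw [dmap_snd]; simp
  · rw [substW_snd, snd_et, map_zero]

theorem substQ_C_X (p : Polynomial ℂ) : substQ p (C X) = C p := by simp [substQ]

theorem substQ_X (p : Polynomial ℂ) : substQ p X = X := by simp [substQ]

/-- compatibility of the two evaluations with a substitution `z ↦ p`, `Z` the image of `z` -/
theorem substW_evz (p : Polynomial ℂ) {Z Z' : SW}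
    (h : substW p Z = aeval Z' p) (G : PP) :
    substW p (evz Z G) = evz Z' (Polynomial.mapAlgHom (substQ p) G) := by
  induction G using Polynomial.induction_on' with
  | add f g hf hg => simp [hf, hg]
  | monomial b q =>
    induction q using Polynomial.induction_on' with
    | add f g hf hg => simp [hf, hg]
    | monomial a r =>
      induction r using Polynomial.induction_on' with
      | add f g hf hg => simp [hf, hg]
      | monomial j c =>
        have e1 : substW p (qq (C (C c))) = qq (C (C c)) := by
          rw [substW_qq]; simp [substQ]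
        have hc : algebraMap ℂ SW c = qq (C (C c)) := by
          rw [TrivSqZeroExt.algebraMap_eq_inl', TrivSqZeroExt.algebraMap_eq_inl']
          rfl
        simp only [← C_mul_X_pow_eq_monomial]
        rw [show C (C (C c * X ^ j) * X ^ a) * X ^ b = mono b a j c from rfl, evz_mono]
        simp only [mono, map_mul, map_pow, Polynomial.coe_mapAlgHom,
          Polynomial.map_C, Polynomial.map_X, substQ, evz, aevalTower_C,
          aevalTower_X, Polynomial.algebraMap_eq, aeval_C, aeval_X, hc, e1, h, substW_qq, substW_et, map_add,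
          RingHom.coe_coe]

/-- the condition defining the degree in `z` is stable under translation -/
theorem coeff_comp_translate {q : Polynomial ℂ} {n : ℕ} (c : ℂ) (h : ∀ j, n ≤ j → q.coeff j = 0) :
    ∀ j, n ≤ j → (q.comp (X + C c)).coeff j = 0 := by
  intro j hj
  rcases eq_or_ne q 0 with rfl | hq
  · simp
  · have hdeg : q.natDegree < n := by
      by_contra hlt
      exact hq (leadingCoeff_eq_zero.1 (h _ (not_lt.1 hlt)))
    exact coeff_eq_zero_of_natDegree_lt
      (lt_of_le_of_lt natDegree_comp_le (by simpa [natDegree_X_add_C] using lt_of_lt_of_le hdeg hj))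

theorem coeff_substQ (p : Polynomial ℂ) (f : Qx) (i : ℕ) :
    (substQ p f).coeff i = (f.coeff i).comp p := by
  simp [substQ, Polynomial.coeff_map, Polynomial.comp, Polynomial.aeval_def,
    Polynomial.algebraMap_eq]

theorem PX_subst (c : ℂ) {A B J : ℕ} {G : PP} (hG : G ∈ PX A B J) :
    Polynomial.mapAlgHom (substQ (X + C c)) G ∈ PX A B J := by
  intro b a j h
  have e : ((Polynomial.mapAlgHom (substQ (X + C c)) G).coeff b).coeff a =
      ((G.coeff b).coeff a).comp (X + C c) := by
    rw [Polynomial.coe_mapAlgHom, Polynomial.coeff_map]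
    exact coeff_substQ _ _ _
  rw [e]
  by_cases h' : B < b ∨ A < a
  · rw [show (G.coeff b).coeff a = 0 from Polynomial.ext fun k => by
      simpa using hG b a k (by omega)]
    simp
  · exact coeff_comp_translate (n := J + 1) c (fun k hk => hG b a k (by omega)) j (by omega)

theorem W0_subst (c : ℂ) {d e e' n : ℕ} (he : (e' : ℂ) = e + c) {w : QE} (hw : w ∈ W0 d e n) :
    dmap (substQ (X + C c)) w ∈ W0 d e' n := by
  obtain ⟨h1, h2, h3⟩ := hw
  refine ⟨fun i j k => ?_, fun i j k => ?_, ?_⟩
  · rw [dmap_fst, coeff_substQ]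
    rcases k with k | k
    · rw [show w.fst.coeff i = 0 from Polynomial.ext fun l => by simpa using h1 i l (.inl k)]
      simp
    · exact coeff_comp_translate c (fun l hl => h1 i l (.inr hl)) j k
  · rw [dmap_snd, coeff_substQ]
    rcases k with k | k
    · rw [show w.snd.coeff i = 0 from Polynomial.ext fun l => by simpa using h2 i l (.inl k)]
      simp
    · exact coeff_comp_translate (n := n + 1) c (fun l hl => h2 i l (.inr hl)) j k
  · rw [dmap_fst, dmap_snd, coeff_substQ, coeff_substQ, h3]
    rw [mul_comp, add_comp, X_comp, C_comp, he, map_add]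
    ring

theorem WW_subst (c : ℂ) {d e e' n : ℕ} (he : (e' : ℂ) = e + c) {w : SW} (hw : w ∈ WW d e n) :
    substW (X + C c) w ∈ WW d e' n :=
  ⟨by rw [substW_fst]; exact W0_subst c he hw.1, by rw [substW_snd]; exact W0_subst c he hw.2⟩

theorem substW_pl (p : Polynomial ℂ) (G : PP) :
    substW p (pl G) = pl (Polynomial.mapAlgHom (substQ p) G) := by
  rw [pl_eq]
  refine substW_evz p ?_ G
  rw [substW_qq, substQ_C_X]
  induction p using Polynomial.induction_on' with
  | add f g hf hg =>
    simp only [map_add]
    rw [← hf, ← hg]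
    ext <;> simp [qq]
  | monomial j c =>
    simp [← C_mul_X_pow_eq_monomial, qq, map_mul, map_pow, TrivSqZeroExt.algebraMap_eq_inl',
      TrivSqZeroExt.inl_mul, TrivSqZeroExt.inl_pow]

theorem substW_sg_translate (c : ℂ) (G : PP) :
    substW (X + C c) (sg G) = sg (Polynomial.mapAlgHom (substQ (X + C c)) G) := by
  rw [sg_eq]
  refine substW_evz _ ?_ G
  simp only [map_add, substW_qq, substW_ep, substQ_C_X, aeval_X, aeval_C,
    TrivSqZeroExt.algebraMap_eq_inl']
  ext <;> simp [qq, fst_ep, snd_ep, Polynomial.algebraMap_eq]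

theorem substS_mk_pl (p : Polynomial ℂ) (G : PP) :
    substS p (G, pl G) = (Polynomial.mapAlgHom (substQ p) G,
      pl (Polynomial.mapAlgHom (substQ p) G)) := by
  rw [substS_apply, substW_pl]

theorem substM_dg_translate (c : ℂ) (G : PP) :
    substM (X + C c) (dg G) = dg (Polynomial.mapAlgHom (substQ (X + C c)) G) := by
  rw [dg_apply, dg_apply]
  ext i j : 1
  fin_cases i <;> fin_cases j <;>
    simp [substM, substS_apply, substW_pl, substW_sg_translate]

theorem substM_arrX (p : Polynomial ℂ) (a b : Fin 2) : substM p (arrX a b) = arrX a b := by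
  unfold arrX substM
  split_ifs
  · simp
  · ext i j : 1
    simp [Matrix.single_apply, apply_ite (substS p)]

theorem substM_arrZ (p : Polynomial ℂ) (a b : Fin 2) : substM p (arrZ a b) = arrZ a b := by
  unfold arrZ substM
  split_ifs
  · simp
  · ext i j : 1
    simp [Matrix.single_apply, apply_ite (substS p)]

theorem substW_alW (p : Polynomial ℂ) (a b : Fin 2) : substW p (alW a b) = alW a b := by
  unfold alW; split_ifs <;> simp [substW_ep]

theorem substW_beW (p : Polynomial ℂ) (a b : Fin 2) : substW p (beW a b) = beW a b := by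
  unfold beW; split_ifs <;> simp [substW_ep]

theorem substM_mX_translate (c : ℂ) (a b : Fin 2) (G : PP) :
    substM (X + C c) (mX a b G) = mX a b (Polynomial.mapAlgHom (substQ (X + C c)) G) := by
  rw [mX_apply, mX_apply, map_mul, substM_dg_translate, substM_arrX]

theorem substM_mZ_translate (c : ℂ) (a b : Fin 2) (G : PP) :
    substM (X + C c) (mZ a b G) = mZ a b (Polynomial.mapAlgHom (substQ (X + C c)) G) := by
  rw [mZ_apply, mZ_apply, map_mul, substM_dg_translate, substM_arrZ]

/-- the shift carries the first frame into the second -/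
theorem shift_H {u w : Vtx 2} {m : Mat} (h : m ∈ H (px u) (px w)) :
    substM (X + C 1) m ∈ H (py u) (py w) := by
  obtain ⟨τ, i⟩ := u
  obtain ⟨τ', i'⟩ := w
  rcases τ with ⟨a, b, v'⟩ | v' <;> rcases τ' with ⟨a', b', v⟩ | v <;>
    simp only [px, py, Tau.map, H, Fin.succ_le_succ_iff, Fin.castSucc_le_castSucc_iff,
      Fin.val_succ, Fin.val_castSucc, Submodule.mem_bot] at h ⊢
  · split_ifs at h with hle
    · obtain ⟨G, hG, rfl⟩ := h
      rw [if_pos hle, substM_mX_translate]
      refine ⟨_, PX_subst 1 ?_, rfl⟩
      simpa only [SetLike.mem_coe, show a'.val + 1 - (a.val + 1) = a'.val - a.val by omega,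
        show b'.val + 1 - (b.val + 1) = b'.val - b.val by omega] using hG
    · rw [(Submodule.mem_bot ℂ).1 h, map_zero]; exact zero_mem _
  · rw [h, map_zero]
  · obtain ⟨w', hw, rfl⟩ := h
    rw [substM_mW]
    refine ⟨_, ?_, rfl⟩
    rw [show 1 + a'.val + (b'.val + 1) = 1 + (a'.val + 1) + b'.val by omega]
    exact WW_subst 1 (by push_cast; ring) hw
  · split_ifs at h with hle
    · obtain ⟨G, hG, rfl⟩ := h
      rw [if_pos hle, substM_mZ_translate]
      exact ⟨_, PX_subst 1 hG, rfl⟩
    · rw [(Submodule.mem_bot ℂ).1 h, map_zero]; exact zero_mem _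

/-- the identification of the two frames -/
def toy : AX →+* AY where
  toFun a := Cor.mk (substB (X + C 1) a.val) (fun u w => shift_H (a.mem u w))
  map_one' := Cor.ext (map_one _)
  map_mul' a b := Cor.ext (map_mul _ _ _)
  map_zero' := Cor.ext (map_zero _)
  map_add' a b := Cor.ext (map_add _ _ _)

@[simp] theorem toy_val (a : AX) : (toy a).val = substB (X + C 1) a.val := rfl

instance pyRightX : Module AXᵐᵒᵖ Py := Module.compHom Py (toy.op)

theorem py_op_smul (a : AXᵐᵒᵖ) (m : Py) : a • m = MulOpposite.op (toy a.unop) • m := rfl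

instance pyCommX : SMulCommClass AP AXᵐᵒᵖ Py :=
  ⟨fun a b m => smul_comm a (MulOpposite.op (toy b.unop)) m⟩

/-- `U = Hom_{A'}(P_y, N')` -/
abbrev UU := HomP AP Py NP

end

end Vale.Agent.P195
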