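import Vale.Agent.P195.C0Def

/-!
The statements of the main intermediate steps of the counterexample, as propositions; each is
proved in a file of its own.
-/

namespace Vale.Agent.P195

open CategoryTheory MulOpposite

noncomputable section

/-- the column of a bimodule of morphisms at a vertex -/
def colB (f g : Vtx 2 → Vtx 3) (w : Vtx 2) : Submodule (Cor f) (Blk f g) where
  carrier := {m | op (idem g w) • m = m}
  zero_mem' := smul_zero (op (idem g w))
  add_mem' := fun {a b} ha hb => by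
    show op (idem g w) • (a + b) = a + b
    rw [smul_add, ha, hb]
  smul_mem' := fun a m hm => by
    show op (idem g w) • a • m = a • m
    rw [← smul_comm a (op (idem g w)) m, hm]

theorem mem_colB {f g : Vtx 2 → Vtx 3} {w : Vtx 2} {m : Blk f g} :
    m ∈ colB f g w ↔ op (idem g w) • m = m := Iff.rfl

/-- right multiplication by a pencil, between two columns -/
def rpen (f g : Vtx 2 → Vtx 3) (hg : IsShift g) (τ : Tau 2) (p : ℂ) :
    colB f g (τ, 0) →ₗ[Cor f] colB f g (τ, 1) where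
  toFun m := ⟨op ((sys g hg).pen τ p) • m.1, by
    rw [mem_colB, ← mul_smul, ← MulOpposite.op_mul, show (sys g hg).pen τ p * idem g (τ, 1) = (sys g hg).pen τ p
      from (sys g hg).right_pen τ p]⟩
  map_add' m n := Subtype.ext (smul_add _ m.1 n.1)
  map_smul' a m := Subtype.ext (smul_comm a (op ((sys g hg).pen τ p)) m.1).symm

/-- BLOCKS: right pencils are injective on columns, their cokernels have spectrum `{p}` -/
def SpecBlocks : Prop :=
  ∀ (f g : Vtx 2 → Vtx 3) (hf : IsShift f) (hg : IsShift g) (τ : Tau 2) (p : ℂ),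
    Function.Injective (rpen f g hg τ p) ∧
      (sys f hf).Cl (fun _ => {p})
        (ModuleCat.of (Cor f) (colB f g (τ, 1) ⧸ LinearMap.range (rpen f g hg τ p)))

/-- FINITENESS -/
def SpecFinite : Prop :=
  Module.Finite ℂ AP ∧ Module.Finite ℂ AX ∧ Module.Finite ℂ Px ∧ Module.Finite ℂ Py ∧
    Module.Finite ℂ GG

/-- EULER: the tilting properties of `P_x` and `P_y` -/
def SpecEuler : Prop :=
  (∀ n, 2 ≤ n → ∀ Y : ModuleCat.{0} AP,
      EV n (ModuleCat.of AP Px) Y ∧ EV n (ModuleCat.of AP Py) Y) ∧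
  EV 1 (ModuleCat.of AP Px) (ModuleCat.of AP Px) ∧
  EV 1 (ModuleCat.of AP Py) (ModuleCat.of AP Py) ∧
  (∀ h : Px →ₗ[AP] Px, ∃ a : AX, ∀ m, h m = op a • m) ∧
  (∀ a : AX, (∀ m : Px, op a • m = 0) → a = 0) ∧
  (∀ h : Py →ₗ[AP] Py, ∃ a : AX, ∀ m, h m = op a • m) ∧
  (∀ a : AX, (∀ m : Py, op a • m = 0) → a = 0) ∧
  (∀ M : ModuleCat.{0} AP, EV 1 (ModuleCat.of AP Py) M →
      (⨆ h : Py →ₗ[AP] M, LinearMap.range h) = ⊤)

/-- `Ext¹(P_y, G) = Ext¹(P_y, I) = Ext¹(P_y, N') = 0` -/
def SpecEulerJunk : Prop :=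
  EV 1 (ModuleCat.of AP Py) (ModuleCat.of AP GG) ∧
  EV 1 (ModuleCat.of AP Py) (ModuleCat.of AP II) ∧
  EV 1 (ModuleCat.of AP Py) (ModuleCat.of AP NP)

/-- JUNK, first part: pencils with natural parameters are invertible on `G`, `A'` acts faithfully,
left pencils are surjective on `N'`. -/
def SpecJunk : Prop :=
  (∀ τ, ∀ q ∈ natSet,
      BijOnComp (sysP.f0 τ) (sysP.f1 τ) (sysP.pen τ q) (ModuleCat.of AP GG)) ∧
  Function.Injective rho ∧
  (∀ τ, ∀ q ∈ natSet, ∀ x : NP, sysP.f0 τ • x = x →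
      ∃ y : NP, sysP.f1 τ • y = y ∧ sysP.pen τ q • y = x)

/-- the kernel of a right pencil on `N'` is generated by one element killed by the left pencil -/
def IsKerGen (τ : Tau 2) (q : ℂ) (n₀ : NP) : Prop :=
  sysP.f1 τ • n₀ = n₀ ∧ op (sysP.f0 τ) • n₀ = n₀ ∧ op (sysP.pen τ q) • n₀ = 0 ∧
    sysP.pen τ q • n₀ = 0 ∧
    (∀ x : NP, op (sysP.f0 τ) • x = x → op (sysP.pen τ q) • x = 0 → ∃ a : AP, a • n₀ = x) ∧
    (∀ a : AP, a • n₀ = 0 ↔ ∃ b : AP, a * sysP.f1 τ = b * sysP.pen τ q) ∧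
    (∀ y : NP, op (sysP.f1 τ) • y = y →
      ∃ x : NP, op (sysP.f0 τ) • x = x ∧ op (sysP.pen τ q) • x = y)

/-- JUNK, second part: the kernels of right pencils on `N'` -/
def SpecJunkKer : Prop := ∀ τ, ∀ q ∈ natSet, ∃ n₀, IsKerGen τ q n₀

/-- modules to which the cosyzygy argument applies -/
def Good (Z : ModuleCat.{0} AP) : Prop :=
  ∀ τ, ∀ q ∈ natSet,
    (∀ x : Z, sysP.f0 τ • x = x → ∃ y : Z, sysP.f1 τ • y = y ∧ sysP.pen τ q • y = x) ∧
    (∀ n₀, IsKerGen τ q n₀ → ∀ v : Z, sysP.f1 τ • v = v → sysP.pen τ q • v = 0 →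
      ∃ g : NP →ₗ[AP] Z, g n₀ = v)

/-- right multiplication `A' → Hom_{A'}(N', N')` -/
def phiNP : AP →ₗ[AP] HomP AP NP NP where
  toFun a := HomP.ofLin
    { toFun := fun x => op a • x
      map_add' := smul_add (op a)
      map_smul' := fun b x => (smul_comm b (op a) x).symm }
  map_add' a b := HomP.ext fun x => by
    show op (a + b) • x = op a • x + op b • x
    rw [MulOpposite.op_add, add_smul]
  map_smul' b a := HomP.ext fun x => by
    show op (b * a) • x = op a • op b • x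
    rw [MulOpposite.op_mul, mul_smul]

/-- COSYZYGIES: `N'` is good; goodness passes to cosyzygies, and the failure of exactness of
`Hom(N', -)` is invisible to natural parameters. -/
def SpecCosyz : Prop :=
  Good (ModuleCat.of AP NP) ∧
  (∀ S : ShortComplex (ModuleCat.{0} AP), S.ShortExact → Injective S.X₂ → Good S.X₁ →
    Good S.X₃ ∧
    sysP.Disj (fun _ => natSet)
      (ModuleCat.of AP (HomP AP NP S.X₃ ⧸
        LinearMap.range (HomP.map (A := AP) (B := AP) (P := NP) S.g.hom)))) ∧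
  sysP.Disj (fun _ => natSet) (ModuleCat.of AP (LinearMap.ker phiNP)) ∧
  sysP.Disj (fun _ => natSet) (ModuleCat.of AP (HomP AP NP NP ⧸ LinearMap.range phiNP))

/-- the module `C₀` has no self-extensions -/
def SpecC0Self : Prop := ∀ n, 1 ≤ n → EV n (ModuleCat.of AP C0) (ModuleCat.of AP C0)

/-- the module `C₀` has no extensions by `P_x` in high degrees -/
def SpecC0Px : Prop := ∀ n, 5 ≤ n → EV n (ModuleCat.of AP C0) (ModuleCat.of AP Px)

/-- `C` and the levels of `R` -/
abbrev ModC : ModuleCat.{0} RR := ModuleCat.of RR CR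
/-- the projective module of the level `l` -/
abbrev levCol (l : Fin 5) : ModuleCat.{0} RR := ModuleCat.of RR (Submodule.span RR {jLev l 1})
/-- the projective module of the top level -/
abbrev topCol : ModuleCat.{0} RR := ModuleCat.of RR (Submodule.span RR {jTop 1})

/-- MAIN STEPS -/
def SpecCC : Prop := ∀ n, 1 ≤ n → EV n ModC ModC
def SpecCLow : Prop := ∀ n, ∀ l : Fin 5, l ≠ Fin.last 4 → EV n ModC (levCol l)
def SpecCMid : Prop := ∀ n, EV n ModC (levCol (Fin.last 4))
def SpecCTop : Prop := ∀ n, 5 ≤ n → EV n ModC topCol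

end

end Vale.Agent.P195
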