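import Vale.Agent.P195.Spec

/-!
The statements of the general tools, and the pencil system of `R`.
-/

namespace Vale.Agent.P195

open CategoryTheory MulOpposite

noncomputable section

/-- TOOL: modules of disjoint spectral classes have no extensions at all -/
def SpecOrth : Prop :=
  ∀ (A : Type) [Ring A] [Algebra ℂ A] [Module.Finite ℂ A] (ι : Type) [Fintype ι]
    (P : PencilSystem A ι) (S : ι → Set ℂ), P.Regular S →
    ∀ Y V : ModuleCat.{0} A, P.Cl S Y → P.Disj S V → ∀ n, EV n Y V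

/-- TOOL: restriction to a corner and coinduction -/
def SpecCorner : Prop :=
  ∀ (R A : Type) [Ring R] [Ring A] [IsNoetherianRing R] (j : A →ₙ+* R) (Y : ModuleCat.{0} A),
    (∀ n, 1 ≤ n → EV n (eR j) Y) →
    ∀ (n : ℕ) (X : ModuleCat.{0} R), Module.Finite R X →
      (EV n (resC j X) Y ↔ EV n X (coind j Y))

/-- TOOL: `Hom(P,-)` is fully faithful on modules without `Ext¹` from `P` -/
def SpecFF : Prop :=
  ∀ (A B P : Type) [Ring A] [Algebra ℂ A] [Module.Finite ℂ A] [Ring B] [AddCommGroup P]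
    [Module A P] [Module Bᵐᵒᵖ P] [SMulCommClass A Bᵐᵒᵖ P] [Module.Finite A P],
    EV 1 (ModuleCat.of A P) (ModuleCat.of A P) →
    (∀ h : P →ₗ[A] P, ∃ b : B, ∀ m, h m = op b • m) →
    (∀ b : B, (∀ m : P, op b • m = 0) → b = 0) →
    (∀ M : ModuleCat.{0} A, EV 1 (ModuleCat.of A P) M →
      (⨆ h : P →ₗ[A] M, LinearMap.range h) = ⊤) →
    ∀ M : ModuleCat.{0} A, Module.Finite A M → EV 1 (ModuleCat.of A P) M →
      (∀ E : ModuleCat.{0} A, Function.Bijective
        (fun g : M →ₗ[A] E => (HomP.map g : HomP A P M →ₗ[B] HomP A P E))) ∧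
      ∀ E : ModuleCat.{0} A, Injective E → ∀ n, 1 ≤ n →
        EV n (ModuleCat.of B (HomP A P M)) (ModuleCat.of B (HomP A P E))

theorem jLev_map_sum (l : Fin 5) :
    (∑ τ, (jLev l (sysP.f0 τ) + jLev l (sysP.f1 τ))) = jLev l 1 := by
  simp only [← map_add]
  rw [← map_sum, sysP.complete]

theorem jTop_map_sum : (∑ τ, (jTop (sysX.f0 τ) + jTop (sysX.f1 τ))) = jTop 1 := by
  simp only [← map_add]
  rw [← map_sum, sysX.complete]

/-- the pencils of `R` -/
def sysR : PencilSystem RR (Option (Fin 5) × Tau 2) where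
  f0
    | (some l, τ) => jLev l (sysP.f0 τ)
    | (none, τ) => jTop (sysX.f0 τ)
  f1
    | (some l, τ) => jLev l (sysP.f1 τ)
    | (none, τ) => jTop (sysX.f1 τ)
  s
    | (some l, τ) => jLev l (sysP.s τ)
    | (none, τ) => jTop (sysX.s τ)
  t
    | (some l, τ) => jLev l (sysP.t τ)
    | (none, τ) => jTop (sysX.t τ)
  f0_idem := by rintro ⟨_ | l, τ⟩ <;> simp [← map_mul, PencilSystem.f0_idem]
  f1_idem := by rintro ⟨_ | l, τ⟩ <;> simp [← map_mul, PencilSystem.f1_idem]
  left_s := by rintro ⟨_ | l, τ⟩ <;> simp [← map_mul, PencilSystem.left_s]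
  right_s := by rintro ⟨_ | l, τ⟩ <;> simp [← map_mul, PencilSystem.right_s]
  left_t := by rintro ⟨_ | l, τ⟩ <;> simp [← map_mul, PencilSystem.left_t]
  right_t := by rintro ⟨_ | l, τ⟩ <;> simp [← map_mul, PencilSystem.right_t]
  complete := by
    rw [Fintype.sum_prod_type, Fintype.sum_option]
    exact ((congrArg₂ (· + ·) jTop_map_sum (Finset.sum_congr rfl fun l _ => jLev_map_sum l)).trans
      (add_comm _ _)).trans sum_jLev_one

/-- spectral data along the cycle of levels, closed under the bimodules -/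
def Closed (σ : Option (Fin 5) → Set ℂ) : Prop :=
  (∀ l : Fin 4, σ (some l.castSucc) ⊆ σ (some l.succ)) ∧
    (∀ p ∈ σ (some (Fin.last 4)), p + 1 ∈ σ none) ∧ σ none ⊆ σ (some 0) ∧ ∀ x, σ x ⊆ natSet

/-- the columns of `R` are regular for closed spectral data -/
def SpecRRegular : Prop := ∀ σ, Closed σ → sysR.Regular (fun x => σ x.1)

/-- `C` has spectrum `0` at the level `0` -/
def SpecCCl : Prop :=
  ∀ σ, Closed σ → (0 : ℂ) ∈ σ (some 0) → sysR.Cl (fun x => σ x.1) ModC

end

end Vale.Agent.P195
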